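import Claimed.Agent.R286.Fd.ObsC
import Claimed.Agent.R286.Fd.ClkDefs
import Claimed.Agent.R286.Fd.Law
import Claimed.Agent.R286.Lib.GhMart
import Claimed.Agent.R286.Brg.Step

/-!
# Row 286 (S0533), Macro/FinConc : FINITE-LEVEL concentration of `|X|²` (I4)      (owner helper240; prefix `mvfc_`, defs `mvf*`)

For `Exit/ClkStat.lean : exit_clk_Vx` (42 + 150).      PE Lemma 2.3 (p = 2) + tower, on ONE admissible step path `P`, MASS form.      0 own sorry.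

* `mvfCut P v`          the cut at the mass `v` (after its jump) = number of revelations of mass `≤ v`
* **`mvfc_conc`**       `√(E|X_j|⁴ - S_j²) ≤ S(u+ρ) - S(u-ρ) + (4/ρ) √(∫_{u-ρ}^{u+ρ} E tr H²_v / v dv)`, the cut `j` sits at the mass `u`
* **`mvfc_conc_chain`** the same on the chain `ckStp a b h ps`, cuts `ghIdx ps ·`  (term by term the finite form of `exit_clk_Vx`)
* **`mvfc_tr_H2`**      trace consequences of `u C ≼ H ≼ a C` at a cut, any root (for `exit_clk_H2`, `exit_clk_D2`)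
* `mvfc_conc_w`         weights form (`lp` on the cuts `≥ j`, `lm` on the cuts `≤ j`, `0 ≤ l ≤ gap`)
KIT (any root field `z₀`): `MvfB` bounded measurable (+ closure, `mvfc_cs` Cauchy-Schwarz), `mvfMu n a P z₀` law of (drivers, spin), `mvfc_E_eq : obE = ∫ ∂mvfMu`,
`MvfG k g` (measurable, bounded, sees the drivers `< k`), `mvfc_tower`, `mvfc_Tp`, `mvfc_Tm`, `mvfc_E_L` (`E L = S/2`), `mvfc_S_mono`, `mvfc_la_nonneg` (`tr AB ≥ 0`).
MASS calculus: `mvfc_step_integral : ∫_α^β f (mvfCut P v) dv = ∑ c, mvfLen a P α β c * f c`, `mvfc_cut_eq/_mono/_drop`, `mvfc_chain_cut : mvfCut (ckStp ..) v = ghIdx ps (ghPosA v)`,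
`mvfc_idx_eq` (`ghIdx` at a finite position = plain count), `mvfc_sorted_split`, `mvfc_chain_adm`.
-/

set_option autoImplicit false

namespace Claimed.Agent.R286

open MeasureTheory ProbabilityTheory Set

variable {n : ℕ}

/-- the cut at the mass `v` (after its jump): number of revelations of mass `≤ v` -/
noncomputable def mvfCut (P : SkStp) (v : ℝ) : ℕ := (P.filter fun e => decide (e.m ≤ v)).length

theorem mvf_eqns_cite : True := by
  have := @mvfCut.eq_1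
  trivial



section abs
variable {Ω : Type} [MeasurableSpace Ω]

/-- bounded measurable -/
def MvfB (f : Ω → ℝ) : Prop := Measurable f ∧ ∃ K, ∀ ω, |f ω| ≤ K

theorem MvfB.integrable {f : Ω → ℝ} (h : MvfB f) (μ : Measure Ω) [IsFiniteMeasure μ] : Integrable f μ := by
  obtain ⟨hm, K, hK⟩ := h
  exact Integrable.of_bound hm.aestronglyMeasurable K (Filter.Eventually.of_forall fun ω => by simpa using hK ω)

theorem mvfc_b_const (c : ℝ) : MvfB (fun _ : Ω => c) := ⟨measurable_const, |c|, fun _ => le_rfl⟩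

theorem MvfB.add {f g : Ω → ℝ} (hf : MvfB f) (hg : MvfB g) : MvfB fun ω => f ω + g ω := by
  obtain ⟨hm, K, hK⟩ := hf
  obtain ⟨hm', K', hK'⟩ := hg
  exact ⟨hm.add hm', K + K', fun ω => (abs_add_le _ _).trans (add_le_add (hK ω) (hK' ω))⟩

theorem MvfB.sub {f g : Ω → ℝ} (hf : MvfB f) (hg : MvfB g) : MvfB fun ω => f ω - g ω := by
  obtain ⟨hm, K, hK⟩ := hf
  obtain ⟨hm', K', hK'⟩ := hg
  exact ⟨hm.sub hm', K + K', fun ω => (abs_sub _ _).trans (add_le_add (hK ω) (hK' ω))⟩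

theorem MvfB.mul {f g : Ω → ℝ} (hf : MvfB f) (hg : MvfB g) : MvfB fun ω => f ω * g ω := by
  obtain ⟨hm, K, hK⟩ := hf
  obtain ⟨hm', K', hK'⟩ := hg
  refine ⟨hm.mul hm', K * K', fun ω => ?_⟩
  rw [abs_mul]
  exact mul_le_mul (hK ω) (hK' ω) (abs_nonneg _) ((abs_nonneg _).trans (hK ω))

theorem MvfB.const_mul {f : Ω → ℝ} (hf : MvfB f) (c : ℝ) : MvfB fun ω => c * f ω := (mvfc_b_const c).mul hf

theorem MvfB.div_const {f : Ω → ℝ} (hf : MvfB f) (c : ℝ) : MvfB fun ω => f ω / c := by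
  simpa [div_eq_mul_inv] using hf.mul (mvfc_b_const c⁻¹)

theorem MvfB.sq {f : Ω → ℝ} (hf : MvfB f) : MvfB fun ω => f ω ^ 2 := by
  have e : (fun ω => f ω ^ 2) = fun ω => f ω * f ω := by funext ω; ring
  rw [e]; exact hf.mul hf

theorem MvfB.sum {κ : Type} (K : Finset κ) {f : κ → Ω → ℝ} (h : ∀ k ∈ K, MvfB (f k)) : MvfB fun ω => ∑ k ∈ K, f k ω := by
  classical
  induction K using Finset.induction_on with
  | empty => simpa using mvfc_b_const (Ω := Ω) 0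
  | insert k K hk ih =>
    simp only [Finset.sum_insert hk]
    exact (h k (Finset.mem_insert_self _ _)).add (ih fun k' hk' => h k' (Finset.mem_insert_of_mem hk'))

theorem MvfB.max_zero {f : Ω → ℝ} (hf : MvfB f) : MvfB fun ω => max (f ω) 0 := by
  obtain ⟨hm, K, hK⟩ := hf
  refine ⟨hm.max measurable_const, K, fun ω => ?_⟩
  rw [abs_of_nonneg (le_max_right _ _)]
  exact max_le ((le_abs_self _).trans (hK ω)) ((abs_nonneg _).trans (hK ω))

theorem MvfB.neg {f : Ω → ℝ} (hf : MvfB f) : MvfB fun ω => - f ω := by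
  obtain ⟨hm, K, hK⟩ := hf
  exact ⟨hm.neg, K, fun ω => by rw [abs_neg]; exact hK ω⟩

variable (μ : Measure Ω) [IsProbabilityMeasure μ]

/-- Cauchy-Schwarz for bounded measurable functions -/
theorem mvfc_cs {f g : Ω → ℝ} (hf : MvfB f) (hg : MvfB g) :
    ∫ ω, f ω * g ω ∂μ ≤ Real.sqrt (∫ ω, f ω ^ 2 ∂μ) * Real.sqrt (∫ ω, g ω ^ 2 ∂μ) := by
  have hA : 0 ≤ ∫ ω, f ω ^ 2 ∂μ := integral_nonneg fun ω => sq_nonneg _
  have hq : ∀ t : ℝ, 0 ≤ (∫ ω, f ω ^ 2 ∂μ) * (t * t) + (2 * ∫ ω, f ω * g ω ∂μ) * t + ∫ ω, g ω ^ 2 ∂μ := by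
    intro t
    have h0 : 0 ≤ ∫ ω, (t * f ω + g ω) ^ 2 ∂μ := integral_nonneg fun ω => sq_nonneg _
    have e : ∫ ω, (t * f ω + g ω) ^ 2 ∂μ
        = (∫ ω, f ω ^ 2 ∂μ) * (t * t) + (2 * ∫ ω, f ω * g ω ∂μ) * t + ∫ ω, g ω ^ 2 ∂μ := by
      have e1 : (fun ω => (t * f ω + g ω) ^ 2) = fun ω => ((t * t) * f ω ^ 2 + (2 * t) * (f ω * g ω)) + g ω ^ 2 := by
        funext ω; ring
      rw [e1, integral_add ((hf.sq.const_mul _).add ((hf.mul hg).const_mul _) |>.integrable μ) (hg.sq.integrable μ),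
        integral_add ((hf.sq.const_mul _).integrable μ) (((hf.mul hg).const_mul _).integrable μ),
        integral_const_mul, integral_const_mul]
      ring
    rw [← e]; exact h0
  have hd := discrim_le_zero hq
  rw [discrim] at hd
  have h2 : (∫ ω, f ω * g ω ∂μ) ^ 2 ≤ (∫ ω, f ω ^ 2 ∂μ) * ∫ ω, g ω ^ 2 ∂μ := by nlinarith
  rw [← Real.sqrt_mul hA]
  exact (le_abs_self _).trans (Real.abs_le_sqrt h2)

theorem mvfc_int_le_sqrt {f : Ω → ℝ} (hf : MvfB f) : ∫ ω, f ω ∂μ ≤ Real.sqrt (∫ ω, f ω ^ 2 ∂μ) := by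
  have := mvfc_cs μ hf (mvfc_b_const 1)
  simpa using this

/-- from `x² ≤ x c`, `0 ≤ x`, `0 ≤ c` -/
theorem mvfc_le_of_sq_le {x c : ℝ} (hx : 0 ≤ x) (hc : 0 ≤ c) (h : x ^ 2 ≤ x * c) : x ≤ c := by
  rcases hx.eq_or_lt with rfl | hx
  · exact hc
  · have : x * x ≤ x * c := by nlinarith
    exact le_of_mul_le_mul_left this hx

/-- the abstract core: one sided comparisons of `N/2` with `A₊`, `A₋` against the positive and negative parts of `N - s` -/
theorem mvfc_core {N Ap Am : Ω → ℝ} (hN : MvfB N) (hAp : MvfB Ap) (hAm : MvfB Am) {s sp sm : ℝ}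
    (hs : ∫ ω, N ω ∂μ = s) (h1 : s ≤ sp) (h2 : sm ≤ s)
    (hTp : ∫ ω, max (N ω - s) 0 * (N ω / 2) ∂μ ≤ ∫ ω, max (N ω - s) 0 * Ap ω ∂μ)
    (hTm : ∫ ω, max (-(N ω - s)) 0 * Am ω ∂μ ≤ ∫ ω, max (-(N ω - s)) 0 * (N ω / 2) ∂μ) :
    Real.sqrt ((∫ ω, N ω ^ 2 ∂μ) - s ^ 2)
      ≤ (sp - sm) + 2 * Real.sqrt (∫ ω, (Ap ω - sp / 2) ^ 2 ∂μ) + 2 * Real.sqrt (∫ ω, (Am ω - sm / 2) ^ 2 ∂μ) := by
  set Dp : Ω → ℝ := fun ω => max (N ω - s) 0 with hDp
  set Dm : Ω → ℝ := fun ω => max (-(N ω - s)) 0 with hDm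
  have bD : MvfB fun ω => N ω - s := hN.sub (mvfc_b_const s)
  have bDp : MvfB Dp := bD.max_zero
  have bDm : MvfB Dm := bD.neg.max_zero
  have nDp : ∀ ω, 0 ≤ Dp ω := fun ω => le_max_right _ _
  have nDm : ∀ ω, 0 ≤ Dm ω := fun ω => le_max_right _ _
  set x := Real.sqrt (∫ ω, Dp ω ^ 2 ∂μ) with hx
  set y := Real.sqrt (∫ ω, Dm ω ^ 2 ∂μ) with hy
  set vp := Real.sqrt (∫ ω, (Ap ω - sp / 2) ^ 2 ∂μ) with hvp
  set vm := Real.sqrt (∫ ω, (Am ω - sm / 2) ^ 2 ∂μ) with hvm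
  have x0 : 0 ≤ x := Real.sqrt_nonneg _
  have y0 : 0 ≤ y := Real.sqrt_nonneg _
  have vp0 : 0 ≤ vp := Real.sqrt_nonneg _
  have vm0 : 0 ≤ vm := Real.sqrt_nonneg _
  have xs : x ^ 2 = ∫ ω, Dp ω ^ 2 ∂μ := Real.sq_sqrt (integral_nonneg fun ω => sq_nonneg _)
  have ys : y ^ 2 = ∫ ω, Dm ω ^ 2 ∂μ := Real.sq_sqrt (integral_nonneg fun ω => sq_nonneg _)
  have iDp : ∫ ω, Dp ω ∂μ ≤ x := mvfc_int_le_sqrt μ bDp
  have iDm : ∫ ω, Dm ω ∂μ ≤ y := mvfc_int_le_sqrt μ bDm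
  have iDp0 : 0 ≤ ∫ ω, Dp ω ∂μ := integral_nonneg nDp
  have iDm0 : 0 ≤ ∫ ω, Dm ω ∂μ := integral_nonneg nDm
  -- positive part
  have hxle : x ≤ 2 * vp + (sp - s) := by
    refine mvfc_le_of_sq_le x0 (by linarith) ?_
    have e1 : ∫ ω, Dp ω ^ 2 ∂μ = 2 * (∫ ω, Dp ω * (N ω / 2) ∂μ) - s * ∫ ω, Dp ω ∂μ := by
      rw [← integral_const_mul, ← integral_const_mul,
        ← integral_sub (((bDp.mul (hN.div_const 2)).const_mul 2).integrable μ) ((bDp.const_mul s).integrable μ)]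
      refine integral_congr_ae (Filter.Eventually.of_forall fun ω => ?_)
      simp only [hDp]
      rcases le_total (N ω - s) 0 with h | h
      · rw [max_eq_right h]; ring
      · rw [max_eq_left h]; ring
    have e2 : ∫ ω, Dp ω * Ap ω ∂μ = (∫ ω, Dp ω * (Ap ω - sp / 2) ∂μ) + sp / 2 * ∫ ω, Dp ω ∂μ := by
      rw [← integral_const_mul,
        ← integral_add ((bDp.mul (hAp.sub (mvfc_b_const _))).integrable μ) ((bDp.const_mul _).integrable μ)]
      refine integral_congr_ae (Filter.Eventually.of_forall fun ω => ?_)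
      simp only []; ring
    have e3 := mvfc_cs μ bDp (hAp.sub (mvfc_b_const (sp / 2)))
    have e4 : (sp - s) * ∫ ω, Dp ω ∂μ ≤ (sp - s) * x := mul_le_mul_of_nonneg_left iDp (by linarith)
    rw [xs, e1]
    nlinarith
  have hyle : y ≤ 2 * vm + (s - sm) := by
    refine mvfc_le_of_sq_le y0 (by linarith) ?_
    have e1 : ∫ ω, Dm ω ^ 2 ∂μ = s * (∫ ω, Dm ω ∂μ) - 2 * ∫ ω, Dm ω * (N ω / 2) ∂μ := by
      rw [← integral_const_mul, ← integral_const_mul,
        ← integral_sub ((bDm.const_mul s).integrable μ) (((bDm.mul (hN.div_const 2)).const_mul 2).integrable μ)]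
      refine integral_congr_ae (Filter.Eventually.of_forall fun ω => ?_)
      simp only [hDm]
      rcases le_total (-(N ω - s)) 0 with h | h
      · rw [max_eq_right h]; ring
      · rw [max_eq_left h]; ring
    have e2 : ∫ ω, Dm ω * Am ω ∂μ = - (∫ ω, Dm ω * (-(Am ω - sm / 2)) ∂μ) + sm / 2 * ∫ ω, Dm ω ∂μ := by
      rw [← integral_const_mul, ← integral_neg,
        ← integral_add ((bDm.mul (hAm.sub (mvfc_b_const _)).neg).neg.integrable μ) ((bDm.const_mul _).integrable μ)]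
      refine integral_congr_ae (Filter.Eventually.of_forall fun ω => ?_)
      simp only []; ring
    have e3 := mvfc_cs μ bDm (hAm.sub (mvfc_b_const (sm / 2))).neg
    have e5 : (fun ω => (-(Am ω - sm / 2)) ^ 2) = fun ω => (Am ω - sm / 2) ^ 2 := by funext ω; ring
    rw [e5] at e3
    have e4 : (s - sm) * ∫ ω, Dm ω ∂μ ≤ (s - sm) * y := mul_le_mul_of_nonneg_left iDm (by linarith)
    rw [ys, e1]
    nlinarith
  -- total
  have etot : (∫ ω, N ω ^ 2 ∂μ) - s ^ 2 = x ^ 2 + y ^ 2 := by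
    rw [xs, ys, ← integral_add (bDp.sq.integrable μ) (bDm.sq.integrable μ)]
    have e6 : (fun ω => Dp ω ^ 2 + Dm ω ^ 2) = fun ω => (N ω ^ 2 - (2 * s) * N ω) + s ^ 2 := by
      funext ω
      simp only [hDp, hDm]
      rcases le_total (N ω - s) 0 with h | h
      · rw [max_eq_right h, max_eq_left (by linarith)]; ring
      · rw [max_eq_left h, max_eq_right (by linarith)]; ring
    rw [e6, integral_add ((hN.sq.sub (hN.const_mul _)).integrable μ) (integrable_const _),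
      integral_sub (hN.sq.integrable μ) ((hN.const_mul _).integrable μ), integral_const_mul, hs]
    simp
    ring
  rw [etot]
  have : Real.sqrt (x ^ 2 + y ^ 2) ≤ x + y := by
    rw [show x + y = Real.sqrt ((x + y) ^ 2) from (Real.sqrt_sq (by linarith)).symm]
    exact Real.sqrt_le_sqrt (by nlinarith)
  linarith

end abs



section sk
variable {n : ℕ} {a : ℝ} {z₀ : SkCfg n → ℝ}

/-- the law of (drivers, spin) of one planted path, root field `z₀` -/
noncomputable def mvfMu (n : ℕ) (a : ℝ) (P : SkStp) (z₀ : SkCfg n → ℝ) : Measure (GhOm (SkCfg n) (SkDr n)) :=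
  ghPK (skBase n a) (skLvs n P) z₀

theorem mvfc_mu_prob (ha : 0 < a) {P : SkStp} (hP : SkAdm a P) (z₀ : SkCfg n → ℝ) : IsProbabilityMeasure (mvfMu n a P z₀) := by
  have := gh_l_PK_markov (obu_base_ok n ha) (obu_lvs_nn n hP)
  unfold mvfMu
  infer_instance

/-- `obE` is the integral against `mvfMu` -/
theorem mvfc_E_eq (ha : 0 < a) {P : SkStp} (hP : SkAdm a P) {T : (ℕ → SkDr n → ℝ) → SkCfg n → ℝ}
    (hT : MvfB fun p : GhOm (SkCfg n) (SkDr n) => T p.1 p.2) : obE n a P z₀ T = ∫ p, T p.1 p.2 ∂(mvfMu n a P z₀) := by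
  have := mvfc_mu_prob ha hP z₀
  exact gh_l_path_eq (obu_base_ok n ha) (obu_lvs_nn n hP) z₀ T hT.1 (hT.integrable (mvfMu n a P z₀))

/-- a function of the drivers: measurable, bounded, sees only the drivers `< k` -/
def MvfG (k : ℕ) (g : (ℕ → SkDr n → ℝ) → ℝ) : Prop :=
  Measurable g ∧ (∃ K, ∀ ξ, |g ξ| ≤ K) ∧ ∀ ξ ξ' : ℕ → SkDr n → ℝ, (∀ t, t < k → ξ t = ξ' t) → g ξ = g ξ'

theorem MvfG.b {k : ℕ} {g : (ℕ → SkDr n → ℝ) → ℝ} (h : MvfG k g) : MvfB fun p : GhOm (SkCfg n) (SkDr n) => g p.1 :=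
  ⟨h.1.comp measurable_fst, h.2.1.choose, fun p => h.2.1.choose_spec p.1⟩

theorem MvfG.mono {k k' : ℕ} (hk : k ≤ k') {g : (ℕ → SkDr n → ℝ) → ℝ} (h : MvfG k g) : MvfG k' g :=
  ⟨h.1, h.2.1, fun ξ ξ' hh => h.2.2 ξ ξ' fun t ht => hh t (ht.trans_le hk)⟩

theorem MvfG.mul {k : ℕ} {g g' : (ℕ → SkDr n → ℝ) → ℝ} (h : MvfG k g) (h' : MvfG k g') : MvfG k fun ξ => g ξ * g' ξ := by
  have hb : MvfB fun ξ => g ξ * g' ξ := MvfB.mul ⟨h.1, h.2.1⟩ ⟨h'.1, h'.2.1⟩
  exact ⟨hb.1, hb.2, fun ξ ξ' hh => by show g ξ * g' ξ = g ξ' * g' ξ'; rw [h.2.2 ξ ξ' hh, h'.2.2 ξ ξ' hh]⟩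

theorem mvfc_g_const (k : ℕ) (c : ℝ) : MvfG (n := n) k fun _ => c :=
  ⟨measurable_const, ⟨|c|, fun _ => le_rfl⟩, fun _ _ _ => rfl⟩

/-- a bounded continuous function of the field at the cut `k` -/
theorem mvfc_g_field (P : SkStp) (k : ℕ) {φ : (SkCfg n → ℝ) → ℝ} {M : ℝ} (hφ : GhBC φ M) :
    MvfG k fun ξ => φ (obFld n P z₀ ξ k) := by
  refine ⟨?_, ⟨M, fun ξ => hφ.le _⟩, fun ξ ξ' hh => ?_⟩
  · exact hφ.cont.measurable.comp (measurable_const.add (ghm_meas_pre (skLvs n P) k))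
  · simp only [obFld]
    rw [obu_pre_loc (skLvs n P) k ξ ξ' hh]

theorem mvfc_g_X (ha : 0 < a) {P : SkStp} (hP : SkAdm a P) (k : ℕ) (i : Fin n) : MvfG k fun ξ => obXp n a P z₀ k ξ i :=
  mvfc_g_field P k (gh_b_E_bc' (obu_base_ok n ha) (obY i) (obu_lvs_nn n (obu_adm_drop hP k)))

theorem mvfc_b_Y (i : Fin n) : MvfB fun p : GhOm (SkCfg n) (SkDr n) => skY p.2 i := by
  refine ⟨(Measurable.of_discrete (f := fun σ : SkCfg n => skY σ i)).comp measurable_snd, ‖obY i‖, fun p => ?_⟩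
  exact gh_b_abs_le_norm (obY i) p.2

/-- tower at the cut `k` -/
theorem mvfc_tower (ha : 0 < a) {P : SkStp} (hP : SkAdm a P) {k : ℕ} {T : (ℕ → SkDr n → ℝ) → ℝ} (hT : MvfG k T) (i : Fin n) :
    ∫ p, T p.1 * skY p.2 i ∂(mvfMu n a P z₀) = ∫ p, T p.1 * obXp n a P z₀ k p.1 i ∂(mvfMu n a P z₀) := by
  have e1 := mvfc_E_eq (z₀ := z₀) ha hP (T := fun ξ σ => T ξ * skY σ i) (hT.b.mul (mvfc_b_Y i))
  have e2 := mvfc_E_eq (z₀ := z₀) ha hP (T := fun ξ _ => T ξ * obXp n a P z₀ k ξ i) (hT.b.mul (mvfc_g_X ha hP k i).b)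
  rw [← e1, ← e2]
  unfold obE
  rw [obu_tower_gen (obu_base_ok n ha) (obu_lvs_nn n hP) z₀ k (fun ξ σ => T ξ * skY σ i)
    (fun ξ ξ' h => by funext σ; rw [hT.2.2 ξ ξ' h])]
  congr 1
  funext ξ _
  rw [gh_b_E_const_mul]
  simp only [obXp, obX, obFld, obu_lvs_drop]
  rfl

/-- `|X|²` at the cut `k` -/
noncomputable def mvfN (n : ℕ) (a : ℝ) (P : SkStp) (z₀ : SkCfg n → ℝ) (k : ℕ) (ξ : ℕ → SkDr n → ℝ) : ℝ := ∑ i, obXp n a P z₀ k ξ i ^ 2

theorem mvfc_g_sum {κ : Type} (K : Finset κ) {k : ℕ} {g : κ → (ℕ → SkDr n → ℝ) → ℝ} (h : ∀ c ∈ K, MvfG k (g c)) :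
    MvfG k fun ξ => ∑ c ∈ K, g c ξ := by
  have hb : MvfB fun ξ => ∑ c ∈ K, g c ξ := MvfB.sum K fun c hc => ⟨(h c hc).1, (h c hc).2.1⟩
  exact ⟨hb.1, hb.2, fun ξ ξ' hh => Finset.sum_congr rfl fun c hc => (h c hc).2.2 ξ ξ' hh⟩

theorem mvfc_g_N (ha : 0 < a) {P : SkStp} (hP : SkAdm a P) (k : ℕ) : MvfG k (mvfN n a P z₀ k) := by
  unfold mvfN
  refine mvfc_g_sum _ fun i _ => ?_
  have := (mvfc_g_X (z₀ := z₀) ha hP k i).mul (mvfc_g_X (z₀ := z₀) ha hP k i)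
  simpa [sq] using this

/-- `E[g y·X_c] = E[g X_m·X_c]`, `c ≤ m`, `g` local at `m` -/
theorem mvfc_dot (ha : 0 < a) {P : SkStp} (hP : SkAdm a P) {c m : ℕ} (hcm : c ≤ m) {g : (ℕ → SkDr n → ℝ) → ℝ} (hg : MvfG m g) :
    ∫ p, g p.1 * ∑ l, skY p.2 l * obXp n a P z₀ c p.1 l ∂(mvfMu n a P z₀)
      = ∫ p, g p.1 * ∑ l, obXp n a P z₀ m p.1 l * obXp n a P z₀ c p.1 l ∂(mvfMu n a P z₀) := by
  have := mvfc_mu_prob ha hP z₀
  have hT : ∀ l, MvfG m fun ξ => g ξ * obXp n a P z₀ c ξ l := fun l => hg.mul ((mvfc_g_X ha hP c l).mono hcm)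
  have e1 : (fun p : GhOm (SkCfg n) (SkDr n) => g p.1 * ∑ l, skY p.2 l * obXp n a P z₀ c p.1 l)
      = fun p => ∑ l, (g p.1 * obXp n a P z₀ c p.1 l) * skY p.2 l := by
    funext p; rw [Finset.mul_sum]; exact Finset.sum_congr rfl fun l _ => by ring
  have e2 : (fun p : GhOm (SkCfg n) (SkDr n) => g p.1 * ∑ l, obXp n a P z₀ m p.1 l * obXp n a P z₀ c p.1 l)
      = fun p => ∑ l, (g p.1 * obXp n a P z₀ c p.1 l) * obXp n a P z₀ m p.1 l := by
    funext p; rw [Finset.mul_sum]; exact Finset.sum_congr rfl fun l _ => by ring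
  rw [e1, e2, integral_finsetSum _ fun l _ => ((hT l).b.mul (mvfc_b_Y l)).integrable _,
    integral_finsetSum _ fun l _ => ((hT l).b.mul (mvfc_g_X ha hP m l).b).integrable _]
  exact Finset.sum_congr rfl fun l _ => mvfc_tower ha hP (hT l) l

theorem mvfc_b_dotY (ha : 0 < a) {P : SkStp} (hP : SkAdm a P) (c : ℕ) :
    MvfB fun p : GhOm (SkCfg n) (SkDr n) => ∑ l, skY p.2 l * obXp n a P z₀ c p.1 l :=
  MvfB.sum _ fun l _ => (mvfc_b_Y l).mul (mvfc_g_X ha hP c l).b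

theorem mvfc_b_dotX (ha : 0 < a) {P : SkStp} (hP : SkAdm a P) (m c : ℕ) :
    MvfB fun p : GhOm (SkCfg n) (SkDr n) => ∑ l, obXp n a P z₀ m p.1 l * obXp n a P z₀ c p.1 l :=
  MvfB.sum _ fun l _ => (mvfc_g_X ha hP m l).b.mul (mvfc_g_X ha hP c l).b

theorem mvfc_b_L (ha : 0 < a) {P : SkStp} (hP : SkAdm a P) (c : ℕ) :
    MvfB fun p : GhOm (SkCfg n) (SkDr n) => obL n a P z₀ c p.1 p.2 :=
  (mvfc_b_dotY ha hP c).sub ((mvfc_g_N ha hP c).b.div_const 2)

/-- `E[g L_c] = E[g (X_m·X_c - |X_c|²/2)]`, `c ≤ m`, `g` local at `m` -/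
theorem mvfc_gL (ha : 0 < a) {P : SkStp} (hP : SkAdm a P) {c m : ℕ} (hcm : c ≤ m) {g : (ℕ → SkDr n → ℝ) → ℝ} (hg : MvfG m g) :
    ∫ p, g p.1 * obL n a P z₀ c p.1 p.2 ∂(mvfMu n a P z₀)
      = ∫ p, g p.1 * ((∑ l, obXp n a P z₀ m p.1 l * obXp n a P z₀ c p.1 l) - mvfN n a P z₀ c p.1 / 2) ∂(mvfMu n a P z₀) := by
  have := mvfc_mu_prob ha hP z₀
  have bN := (mvfc_g_N (n := n) (z₀ := z₀) ha hP c).b.div_const 2
  have e1 : (fun p : GhOm (SkCfg n) (SkDr n) => g p.1 * obL n a P z₀ c p.1 p.2)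
      = fun p => g p.1 * (∑ l, skY p.2 l * obXp n a P z₀ c p.1 l) - g p.1 * (mvfN n a P z₀ c p.1 / 2) := by
    funext p; simp only [obL, mvfN]; ring
  have e2 : (fun p : GhOm (SkCfg n) (SkDr n) =>
        g p.1 * ((∑ l, obXp n a P z₀ m p.1 l * obXp n a P z₀ c p.1 l) - mvfN n a P z₀ c p.1 / 2))
      = fun p => g p.1 * (∑ l, obXp n a P z₀ m p.1 l * obXp n a P z₀ c p.1 l) - g p.1 * (mvfN n a P z₀ c p.1 / 2) := by
    funext p; ring
  rw [e1, e2, integral_sub ((hg.b.mul (mvfc_b_dotY ha hP c)).integrable _) ((hg.b.mul bN).integrable _),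
    integral_sub ((hg.b.mul (mvfc_b_dotX ha hP m c)).integrable _) ((hg.b.mul bN).integrable _), mvfc_dot ha hP hcm hg]

theorem mvfc_dot_le (P : SkStp) (m c : ℕ) (ξ : ℕ → SkDr n → ℝ) :
    (∑ l, obXp n a P z₀ m ξ l * obXp n a P z₀ c ξ l) - mvfN n a P z₀ c ξ / 2 ≤ mvfN n a P z₀ m ξ / 2 := by
  have h : 0 ≤ ∑ l, (obXp n a P z₀ m ξ l - obXp n a P z₀ c ξ l) ^ 2 := Finset.sum_nonneg fun l _ => sq_nonneg _
  have e : ∑ l, (obXp n a P z₀ m ξ l - obXp n a P z₀ c ξ l) ^ 2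
      = mvfN n a P z₀ m ξ - 2 * (∑ l, obXp n a P z₀ m ξ l * obXp n a P z₀ c ξ l) + mvfN n a P z₀ c ξ := by
    simp only [mvfN, Finset.mul_sum, ← Finset.sum_sub_distrib, ← Finset.sum_add_distrib]
    exact Finset.sum_congr rfl fun l _ => by ring
  linarith

/-- (T-) -/
theorem mvfc_Tm (ha : 0 < a) {P : SkStp} (hP : SkAdm a P) {c j : ℕ} (hcj : c ≤ j) {g : (ℕ → SkDr n → ℝ) → ℝ} (hg : MvfG j g)
    (hg0 : ∀ ξ, 0 ≤ g ξ) :
    ∫ p, g p.1 * obL n a P z₀ c p.1 p.2 ∂(mvfMu n a P z₀) ≤ ∫ p, g p.1 * (mvfN n a P z₀ j p.1 / 2) ∂(mvfMu n a P z₀) := by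
  have := mvfc_mu_prob ha hP z₀
  rw [mvfc_gL ha hP hcj hg]
  refine integral_mono ((hg.b.mul ((mvfc_b_dotX ha hP j c).sub ((mvfc_g_N ha hP c).b.div_const 2))).integrable _)
    ((hg.b.mul ((mvfc_g_N ha hP j).b.div_const 2)).integrable _) fun p => ?_
  exact mul_le_mul_of_nonneg_left (mvfc_dot_le P j c p.1) (hg0 _)

/-- `E[g L_k] = E[g |X_k|²/2]`, `g` local at `k` -/
theorem mvfc_gL_self (ha : 0 < a) {P : SkStp} (hP : SkAdm a P) {k : ℕ} {g : (ℕ → SkDr n → ℝ) → ℝ} (hg : MvfG k g) :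
    ∫ p, g p.1 * obL n a P z₀ k p.1 p.2 ∂(mvfMu n a P z₀) = ∫ p, g p.1 * (mvfN n a P z₀ k p.1 / 2) ∂(mvfMu n a P z₀) := by
  rw [mvfc_gL ha hP le_rfl hg]
  congr 1
  funext p
  have : ∑ l, obXp n a P z₀ k p.1 l * obXp n a P z₀ k p.1 l = mvfN n a P z₀ k p.1 := by
    simp only [mvfN]; exact Finset.sum_congr rfl fun l _ => by ring
  rw [this]; ring

/-- (T+) -/
theorem mvfc_Tp (ha : 0 < a) {P : SkStp} (hP : SkAdm a P) {j k : ℕ} (hjk : j ≤ k) {g : (ℕ → SkDr n → ℝ) → ℝ} (hg : MvfG j g)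
    (hg0 : ∀ ξ, 0 ≤ g ξ) :
    ∫ p, g p.1 * (mvfN n a P z₀ j p.1 / 2) ∂(mvfMu n a P z₀) ≤ ∫ p, g p.1 * obL n a P z₀ k p.1 p.2 ∂(mvfMu n a P z₀) := by
  have := mvfc_mu_prob ha hP z₀
  rw [mvfc_gL_self ha hP (hg.mono hjk), ← mvfc_gL_self ha hP hg, mvfc_gL ha hP hjk (hg.mono hjk)]
  refine integral_mono ((hg.b.mul ((mvfc_b_dotX ha hP k j).sub ((mvfc_g_N ha hP j).b.div_const 2))).integrable _)
    ((hg.b.mul ((mvfc_g_N ha hP k).b.div_const 2)).integrable _) fun p => ?_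
  exact mul_le_mul_of_nonneg_left (mvfc_dot_le P k j p.1) (hg0 _)

theorem mvfc_S_eq (ha : 0 < a) {P : SkStp} (hP : SkAdm a P) (k : ℕ) :
    obS n a P z₀ k = ∫ p, mvfN n a P z₀ k p.1 ∂(mvfMu n a P z₀) :=
  mvfc_E_eq ha hP (T := fun ξ _ => mvfN n a P z₀ k ξ) (mvfc_g_N ha hP k).b

theorem mvfc_X4_eq (ha : 0 < a) {P : SkStp} (hP : SkAdm a P) (k : ℕ) :
    ckX4F n a P k = ∫ p, mvfN n a P 0 k p.1 ^ 2 ∂(mvfMu n a P 0) :=
  mvfc_E_eq ha hP (T := fun ξ _ => mvfN n a P 0 k ξ ^ 2) (mvfc_g_N ha hP k).b.sq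

/-- `E L = S/2` -/
theorem mvfc_int_L (ha : 0 < a) {P : SkStp} (hP : SkAdm a P) (k : ℕ) :
    ∫ p, obL n a P z₀ k p.1 p.2 ∂(mvfMu n a P z₀) = obS n a P z₀ k / 2 := by
  have h := mvfc_gL_self (z₀ := z₀) ha hP (mvfc_g_const (n := n) k 1)
  simp only [one_mul] at h
  rw [h, mvfc_S_eq ha hP, integral_div]

theorem mvfc_E_L (ha : 0 < a) {P : SkStp} (hP : SkAdm a P) (k : ℕ) : obE n a P z₀ (obL n a P z₀ k) = obS n a P z₀ k / 2 := by
  rw [mvfc_E_eq ha hP (mvfc_b_L ha hP k), mvfc_int_L ha hP]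

/-- `S` is nondecreasing along the cuts -/
theorem mvfc_S_mono (ha : 0 < a) {P : SkStp} (hP : SkAdm a P) {j k : ℕ} (hjk : j ≤ k) : obS n a P z₀ j ≤ obS n a P z₀ k := by
  have h := mvfc_Tp (z₀ := z₀) ha hP hjk (mvfc_g_const (n := n) j 1) (fun _ => zero_le_one)
  simp only [one_mul] at h
  rw [mvfc_int_L ha hP, integral_div, ← mvfc_S_eq ha hP] at h
  linarith

end sk



section la
variable {n : ℕ}

/-- symmetric with nonnegative quadratic form -/
def MvfPsd (A : Fin n → Fin n → ℝ) : Prop := (∀ i k, A i k = A k i) ∧ ∀ c : Fin n → ℝ, 0 ≤ ∑ i, ∑ k, c i * A i k * c k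

theorem MvfPsd.mat {A : Fin n → Fin n → ℝ} (h : MvfPsd A) : (Matrix.of A).PosSemidef := by
  refine Matrix.PosSemidef.of_dotProduct_mulVec_nonneg ?_ fun x => ?_
  · ext i k
    simp [Matrix.conjTranspose_apply, h.1 k i]
  · have := h.2 x
    simp only [dotProduct, Matrix.mulVec, Matrix.of_apply, star_trivial, Pi.star_apply, Finset.mul_sum]
    refine this.trans_eq (Finset.sum_congr rfl fun i _ => Finset.sum_congr rfl fun k _ => by ring)

/-- `tr (A B) ≥ 0` (Schur product theorem at the vector `1`) -/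
theorem mvfc_la_nonneg {A B : Fin n → Fin n → ℝ} (hA : MvfPsd A) (hB : MvfPsd B) : 0 ≤ ∑ i, ∑ k, A i k * B i k := by
  have h := (hA.mat.hadamard hB.mat).dotProduct_mulVec_nonneg (fun _ => 1)
  simp only [dotProduct, Matrix.mulVec, Matrix.hadamard_apply, Matrix.of_apply, Pi.star_apply, star_trivial, one_mul,
    mul_one] at h
  exact h

/-- trace consequences of `0 ≼ u C ≼ H ≼ a C` -/
theorem mvfc_la_tr {H C : Fin n → Fin n → ℝ} {u a : ℝ} (hu : 0 ≤ u) (ha : 0 ≤ a) (hH : MvfPsd H) (hC : MvfPsd C)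
    (h1 : MvfPsd fun i k => H i k - u * C i k) (h2 : MvfPsd fun i k => a * C i k - H i k) :
    u ^ 2 * (∑ i, ∑ k, C i k ^ 2) ≤ u * ∑ i, ∑ k, H i k * C i k ∧ u * (∑ i, ∑ k, H i k * C i k) ≤ ∑ i, ∑ k, H i k ^ 2 ∧
      ∑ i, ∑ k, H i k ^ 2 ≤ a * ∑ i, ∑ k, H i k * C i k ∧ a * (∑ i, ∑ k, H i k * C i k) ≤ a ^ 2 * ∑ i, ∑ k, C i k ^ 2 ∧
      0 ≤ ∑ i, ∑ k, H i k * C i k := by
  have e1 := mvfc_la_nonneg hC h1
  have e2 := mvfc_la_nonneg hH h1
  have e3 := mvfc_la_nonneg hH h2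
  have e4 := mvfc_la_nonneg hC h2
  have e5 := mvfc_la_nonneg hH hC
  have f1 : ∑ i, ∑ k, C i k * (H i k - u * C i k) = (∑ i, ∑ k, H i k * C i k) - u * ∑ i, ∑ k, C i k ^ 2 := by
    simp only [Finset.mul_sum, ← Finset.sum_sub_distrib]
    exact Finset.sum_congr rfl fun i _ => Finset.sum_congr rfl fun k _ => by ring
  have f2 : ∑ i, ∑ k, H i k * (H i k - u * C i k) = (∑ i, ∑ k, H i k ^ 2) - u * ∑ i, ∑ k, H i k * C i k := by
    simp only [Finset.mul_sum, ← Finset.sum_sub_distrib]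
    exact Finset.sum_congr rfl fun i _ => Finset.sum_congr rfl fun k _ => by ring
  have f3 : ∑ i, ∑ k, H i k * (a * C i k - H i k) = a * (∑ i, ∑ k, H i k * C i k) - ∑ i, ∑ k, H i k ^ 2 := by
    simp only [Finset.mul_sum, ← Finset.sum_sub_distrib]
    exact Finset.sum_congr rfl fun i _ => Finset.sum_congr rfl fun k _ => by ring
  have f4 : ∑ i, ∑ k, C i k * (a * C i k - H i k) = a * (∑ i, ∑ k, C i k ^ 2) - ∑ i, ∑ k, H i k * C i k := by
    simp only [Finset.mul_sum, ← Finset.sum_sub_distrib]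
    exact Finset.sum_congr rfl fun i _ => Finset.sum_congr rfl fun k _ => by ring
  rw [f1] at e1; rw [f2] at e2; rw [f3] at e3; rw [f4] at e4
  refine ⟨by nlinarith, by linarith, by linarith, by nlinarith, e5⟩

end la



theorem mvf_eqns_cite_b : True := by
  have := @MvfB.eq_1
  have := @mvfMu.eq_1
  have := @MvfG.eq_1
  have := @mvfN.eq_1
  have := @MvfPsd.eq_1
  trivial

section tr
variable {n : ℕ} {a : ℝ} {z₀ : SkCfg n → ℝ}

theorem mvfc_psd_C (ha : 0 < a) {Q : SkStp} (hQ : SkAdm a Q) (z : SkCfg n → ℝ) : MvfPsd (obC n a Q z) :=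
  ⟨fun _ _ => gh_b_C_symm _ _ _ _ _, fun c => by
    rw [obu_quad_C ha Q hQ z c]; exact gh_b_C_nonneg (obu_base_ok n ha) _ (obu_lvs_nn n hQ) z⟩

theorem mvfc_psd_H (ha : 0 < a) {Q : SkStp} (hQ : SkAdm a Q) (z : SkCfg n → ℝ) : MvfPsd (obH n a Q z) :=
  ⟨fun _ _ => gh_v_H_symm _ _ _ _ _, fun c => by
    rw [obu_quad_H ha Q hQ z c]; exact gh_b_H_nonneg (obu_base_ok n ha) _ (obu_lvs_nn n hQ) z⟩

theorem mvfc_psd_lo (hn : 0 < n) (ha : 0 < a) {u : ℝ} (hu : 0 ≤ u) (hua : u ≤ a) {Q : SkStp} (hQ : SkAdm a Q)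
    (hQu : ∀ e ∈ Q, u ≤ e.m) (z : SkCfg n → ℝ) : MvfPsd fun i k => obH n a Q z i k - u * obC n a Q z i k := by
  refine ⟨fun i k => by simp only []; rw [(mvfc_psd_H ha hQ z).1 i k, (mvfc_psd_C ha hQ z).1 i k], fun c => ?_⟩
  have h := ob_H_lower hn hu hua ha Q hQ hQu z c
  have e : ∑ i, ∑ k, c i * (obH n a Q z i k - u * obC n a Q z i k) * c k
      = (∑ i, ∑ k, c i * obH n a Q z i k * c k) - u * ∑ i, ∑ k, c i * obC n a Q z i k * c k := by
    simp only [Finset.mul_sum, ← Finset.sum_sub_distrib]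
    exact Finset.sum_congr rfl fun i _ => Finset.sum_congr rfl fun k _ => by ring
  rw [e]; linarith

theorem mvfc_psd_hi (hn : 0 < n) (ha : 0 < a) {Q : SkStp} (hQ : SkAdm a Q) (z : SkCfg n → ℝ) :
    MvfPsd fun i k => a * obC n a Q z i k - obH n a Q z i k := by
  refine ⟨fun i k => by simp only []; rw [(mvfc_psd_H ha hQ z).1 i k, (mvfc_psd_C ha hQ z).1 i k], fun c => ?_⟩
  have h := ob_H_upper hn ha Q hQ z c
  have e : ∑ i, ∑ k, c i * (a * obC n a Q z i k - obH n a Q z i k) * c k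
      = a * (∑ i, ∑ k, c i * obC n a Q z i k * c k) - ∑ i, ∑ k, c i * obH n a Q z i k * c k := by
    simp only [Finset.mul_sum, ← Finset.sum_sub_distrib]
    exact Finset.sum_congr rfl fun i _ => Finset.sum_congr rfl fun k _ => by ring
  rw [e]; linarith

theorem mvfc_g_H (ha : 0 < a) {P : SkStp} (hP : SkAdm a P) (j : ℕ) (i k : Fin n) : MvfG j fun ξ => obHp n a P z₀ j ξ i k :=
  mvfc_g_field P j (gh_b_H_bc (obu_base_ok n ha) (obY i) (obY k) (obu_lvs_nn n (obu_adm_drop hP j))).choose_spec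

theorem mvfc_g_C (ha : 0 < a) {P : SkStp} (hP : SkAdm a P) (j : ℕ) (i k : Fin n) : MvfG j fun ξ => obCp n a P z₀ j ξ i k :=
  mvfc_g_field P j (gh_b_C_bc (obu_base_ok n ha) (obY i) (obY k) (obu_lvs_nn n (obu_adm_drop hP j)))

theorem mvfc_b_H2 (ha : 0 < a) {P : SkStp} (hP : SkAdm a P) (j : ℕ) :
    MvfB fun p : GhOm (SkCfg n) (SkDr n) => ∑ i, ∑ k, obHp n a P z₀ j p.1 i k ^ 2 :=
  MvfB.sum _ fun i _ => MvfB.sum _ fun k _ => (mvfc_g_H ha hP j i k).b.sq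

theorem mvfc_b_C2 (ha : 0 < a) {P : SkStp} (hP : SkAdm a P) (j : ℕ) :
    MvfB fun p : GhOm (SkCfg n) (SkDr n) => ∑ i, ∑ k, obCp n a P z₀ j p.1 i k ^ 2 :=
  MvfB.sum _ fun i _ => MvfB.sum _ fun k _ => (mvfc_g_C ha hP j i k).b.sq

theorem mvfc_b_HC (ha : 0 < a) {P : SkStp} (hP : SkAdm a P) (j : ℕ) :
    MvfB fun p : GhOm (SkCfg n) (SkDr n) => ∑ i, ∑ k, obHp n a P z₀ j p.1 i k * obCp n a P z₀ j p.1 i k :=
  MvfB.sum _ fun i _ => MvfB.sum _ fun k _ => (mvfc_g_H ha hP j i k).b.mul (mvfc_g_C ha hP j i k).b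

/-- trace consequences of `u C ≼ H ≼ a C` at the cut `j`; `u` = any mass below the remaining ones.      TEX[PE:lem:found-source] -/
theorem mvfc_tr_H2 (hn : 0 < n) {a u : ℝ} (ha : 0 < a) (hu : 0 ≤ u) (hua : u ≤ a) (P : SkStp) (hP : SkAdm a P) (z₀ : SkCfg n → ℝ)
    (j : ℕ) (hhi : ∀ e ∈ P.drop j, u ≤ e.m) :
    u ^ 2 * obTrC2 n a P z₀ j ≤ obTrH2 n a P z₀ j ∧ obTrH2 n a P z₀ j ≤ a ^ 2 * obTrC2 n a P z₀ j ∧
      u * obTrHC n a P z₀ j ≤ obTrH2 n a P z₀ j ∧ 0 ≤ obTrHC n a P z₀ j ∧ 0 ≤ obTrC2 n a P z₀ j := by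
  have := mvfc_mu_prob ha hP z₀
  have hQ := obu_adm_drop hP j
  have eH : obTrH2 n a P z₀ j = ∫ p, ∑ i, ∑ k, obHp n a P z₀ j p.1 i k ^ 2 ∂(mvfMu n a P z₀) :=
    mvfc_E_eq ha hP (T := fun ξ _ => ∑ i, ∑ k, obHp n a P z₀ j ξ i k ^ 2) (mvfc_b_H2 ha hP j)
  have eC : obTrC2 n a P z₀ j = ∫ p, ∑ i, ∑ k, obCp n a P z₀ j p.1 i k ^ 2 ∂(mvfMu n a P z₀) :=
    mvfc_E_eq ha hP (T := fun ξ _ => ∑ i, ∑ k, obCp n a P z₀ j ξ i k ^ 2) (mvfc_b_C2 ha hP j)
  have eHC : obTrHC n a P z₀ j = ∫ p, ∑ i, ∑ k, obHp n a P z₀ j p.1 i k * obCp n a P z₀ j p.1 i k ∂(mvfMu n a P z₀) :=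
    mvfc_E_eq ha hP (T := fun ξ _ => ∑ i, ∑ k, obHp n a P z₀ j ξ i k * obCp n a P z₀ j ξ i k) (mvfc_b_HC ha hP j)
  have key : ∀ ξ : ℕ → SkDr n → ℝ, _ := fun ξ =>
    mvfc_la_tr hu ha.le (mvfc_psd_H ha hQ (obFld n P z₀ ξ j)) (mvfc_psd_C ha hQ (obFld n P z₀ ξ j))
      (mvfc_psd_lo hn ha hu hua hQ hhi (obFld n P z₀ ξ j)) (mvfc_psd_hi hn ha hQ (obFld n P z₀ ξ j))
  have i1 : u ^ 2 * obTrC2 n a P z₀ j ≤ u * obTrHC n a P z₀ j := by
    rw [eC, eHC, ← integral_const_mul, ← integral_const_mul]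
    exact integral_mono (((mvfc_b_C2 ha hP j).const_mul _).integrable _) (((mvfc_b_HC ha hP j).const_mul _).integrable _)
      fun p => (key p.1).1
  have i2 : u * obTrHC n a P z₀ j ≤ obTrH2 n a P z₀ j := by
    rw [eH, eHC, ← integral_const_mul]
    exact integral_mono (((mvfc_b_HC ha hP j).const_mul _).integrable _) ((mvfc_b_H2 ha hP j).integrable _)
      fun p => (key p.1).2.1
  have i3 : obTrH2 n a P z₀ j ≤ a * obTrHC n a P z₀ j := by
    rw [eH, eHC, ← integral_const_mul]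
    exact integral_mono ((mvfc_b_H2 ha hP j).integrable _) (((mvfc_b_HC ha hP j).const_mul _).integrable _)
      fun p => (key p.1).2.2.1
  have i4 : a * obTrHC n a P z₀ j ≤ a ^ 2 * obTrC2 n a P z₀ j := by
    rw [eC, eHC, ← integral_const_mul, ← integral_const_mul]
    exact integral_mono (((mvfc_b_HC ha hP j).const_mul _).integrable _) (((mvfc_b_C2 ha hP j).const_mul _).integrable _)
      fun p => (key p.1).2.2.2.1
  refine ⟨i1.trans i2, i3.trans i4, i2, ?_, ?_⟩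
  · rw [eHC]; exact integral_nonneg fun p => (key p.1).2.2.2.2
  · rw [eC]; exact integral_nonneg fun p => Finset.sum_nonneg fun i _ => Finset.sum_nonneg fun k _ => sq_nonneg _

end tr



section var
variable {n : ℕ} {a : ℝ}

theorem mvfc_b_W (ha : 0 < a) {P : SkStp} (hP : SkAdm a P) (z₀ : SkCfg n → ℝ) (c : ℕ) :
    MvfB fun p : GhOm (SkCfg n) (SkDr n) => obW n a P z₀ c p.1 p.2 :=
  MvfB.sum _ fun i _ => MvfB.sum _ fun k _ =>
    (((mvfc_b_Y i).sub (mvfc_g_X ha hP c i).b).mul (mvfc_g_H ha hP c i k).b).mul ((mvfc_b_Y k).sub (mvfc_g_X ha hP c k).b)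

/-- pinned variance bound with weights `l c / ρ`, `0 ≤ l c ≤ gap c` -/
theorem mvfc_w_var (hn : 0 < n) (ha : 0 < a) {P : SkStp} (hP : SkAdm a P) {ρ : ℝ} (hρ : 0 < ρ) (l : ℕ → ℝ)
    (h0 : ∀ c, 0 ≤ l c) (hg : ∀ c, l c ≤ skGap a P c) :
    ∫ p, ((∑ c ∈ Finset.range (P.length + 1), l c / ρ * obL n a P 0 c p.1 p.2)
        - (∑ c ∈ Finset.range (P.length + 1), l c / ρ * obS n a P 0 c) / 2) ^ 2 ∂(mvfMu n a P 0)
      ≤ (∑ c ∈ Finset.range (P.length + 1), l c * obTrHC n a P 0 c) / ρ ^ 2 := by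
  have := mvfc_mu_prob (n := n) ha hP 0
  set κ : ℕ → ℝ := fun c => l c / (ρ * skGap a P c) with hκ
  have hgk : ∀ c, skGap a P c * κ c = l c / ρ := by
    intro c
    simp only [hκ]
    rcases eq_or_ne (skGap a P c) 0 with h | h
    · have : l c = 0 := le_antisymm (h ▸ hg c) (h0 c)
      rw [h, this]; simp
    · field_simp
  have hgk2 : ∀ c, skGap a P c * κ c ^ 2 ≤ l c / ρ ^ 2 := by
    intro c
    rcases eq_or_ne (skGap a P c) 0 with h | h
    · rw [h, zero_mul]; exact div_nonneg (h0 c) (by positivity)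
    · have hpos : 0 < skGap a P c := lt_of_le_of_ne ((h0 c).trans (hg c)) (Ne.symm h)
      have e : skGap a P c * κ c ^ 2 = (l c / ρ ^ 2) * (l c / skGap a P c) := by
        simp only [hκ]; field_simp
      rw [e]
      exact mul_le_of_le_one_right (div_nonneg (h0 c) (by positivity)) ((div_le_one hpos).2 (hg c))
  have hv := ob_pinned_variance hn ha P hP κ (fun _ => Polynomial.X)
  simp only [Polynomial.eval_X, Polynomial.derivative_X, Polynomial.eval_one, one_pow, mul_one] at hv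
  have bL : ∀ c, MvfB fun p : GhOm (SkCfg n) (SkDr n) => obL n a P 0 c p.1 p.2 := fun c => mvfc_b_L ha hP c
  have eL : (obE n a P 0 fun ξ σ => (∑ c ∈ Finset.range (P.length + 1), skGap a P c * κ c *
        (obL n a P 0 c ξ σ - obE n a P 0 fun ξ' σ' => obL n a P 0 c ξ' σ')) ^ 2)
      = ∫ p, ((∑ c ∈ Finset.range (P.length + 1), l c / ρ * obL n a P 0 c p.1 p.2)
        - (∑ c ∈ Finset.range (P.length + 1), l c / ρ * obS n a P 0 c) / 2) ^ 2 ∂(mvfMu n a P 0) := by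
    rw [mvfc_E_eq ha hP (T := fun ξ σ => (∑ c ∈ Finset.range (P.length + 1), skGap a P c * κ c *
        (obL n a P 0 c ξ σ - obE n a P 0 fun ξ' σ' => obL n a P 0 c ξ' σ')) ^ 2)
      (MvfB.sum _ fun c _ => ((bL c).sub (mvfc_b_const _)).const_mul _).sq]
    congr 1
    funext p
    congr 1
    rw [Finset.sum_div, ← Finset.sum_sub_distrib]
    refine Finset.sum_congr rfl fun c _ => ?_
    have : (obE n a P 0 fun ξ' σ' => obL n a P 0 c ξ' σ') = obS n a P 0 c / 2 := mvfc_E_L ha hP c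
    rw [hgk, this]; ring
  have eW : (obE n a P 0 fun ξ σ => ∑ c ∈ Finset.range (P.length + 1), skGap a P c * κ c ^ 2 * obW n a P 0 c ξ σ)
      = ∑ c ∈ Finset.range (P.length + 1), skGap a P c * κ c ^ 2 * obTrHC n a P 0 c := by
    rw [mvfc_E_eq ha hP (T := fun ξ σ => ∑ c ∈ Finset.range (P.length + 1), skGap a P c * κ c ^ 2 * obW n a P 0 c ξ σ)
      (MvfB.sum _ fun c _ => (mvfc_b_W ha hP 0 c).const_mul _),
      integral_finsetSum _ fun c _ => ((mvfc_b_W ha hP 0 c).const_mul _).integrable _]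
    refine Finset.sum_congr rfl fun c _ => ?_
    rw [integral_const_mul, ← mvfc_E_eq ha hP (mvfc_b_W ha hP 0 c), obu_E_W hn ha P hP 0 c]
  rw [eL, eW] at hv
  refine hv.trans ?_
  rw [Finset.sum_div]
  refine Finset.sum_le_sum fun c _ => ?_
  have hHC : 0 ≤ obTrHC n a P 0 c :=
    (mvfc_tr_H2 hn ha le_rfl ha.le P hP 0 c fun e he => (hP.2 e (List.mem_of_mem_drop he)).1).2.2.2.1
  calc skGap a P c * κ c ^ 2 * obTrHC n a P 0 c ≤ l c / ρ ^ 2 * obTrHC n a P 0 c :=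
        mul_le_mul_of_nonneg_right (hgk2 c) hHC
    _ = l c * obTrHC n a P 0 c / ρ ^ 2 := by ring

/-- weighted (T+) -/
theorem mvfc_w_Tp (ha : 0 < a) {P : SkStp} (hP : SkAdm a P) {j : ℕ} (w : ℕ → ℝ) (K : Finset ℕ) (h0 : ∀ c, 0 ≤ w c)
    (hs : ∑ c ∈ K, w c = 1) (hj : ∀ c, c < j → w c = 0) {g : (ℕ → SkDr n → ℝ) → ℝ} (hg : MvfG j g) (hg0 : ∀ ξ, 0 ≤ g ξ) :
    ∫ p, g p.1 * (mvfN n a P 0 j p.1 / 2) ∂(mvfMu n a P 0)
      ≤ ∫ p, g p.1 * ∑ c ∈ K, w c * obL n a P 0 c p.1 p.2 ∂(mvfMu n a P 0) := by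
  have := mvfc_mu_prob (n := n) ha hP 0
  have e : (fun p : GhOm (SkCfg n) (SkDr n) => g p.1 * ∑ c ∈ K, w c * obL n a P 0 c p.1 p.2)
      = fun p => ∑ c ∈ K, w c * (g p.1 * obL n a P 0 c p.1 p.2) := by
    funext p; rw [Finset.mul_sum]; exact Finset.sum_congr rfl fun c _ => by ring
  rw [e, integral_finsetSum _ fun c _ => ((hg.b.mul (mvfc_b_L ha hP c)).const_mul _).integrable _]
  calc ∫ p, g p.1 * (mvfN n a P 0 j p.1 / 2) ∂(mvfMu n a P 0)
      = ∑ c ∈ K, w c * ∫ p, g p.1 * (mvfN n a P 0 j p.1 / 2) ∂(mvfMu n a P 0) := by rw [← Finset.sum_mul, hs, one_mul]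
    _ ≤ ∑ c ∈ K, ∫ p, w c * (g p.1 * obL n a P 0 c p.1 p.2) ∂(mvfMu n a P 0) := by
        refine Finset.sum_le_sum fun c _ => ?_
        rw [integral_const_mul]
        rcases lt_or_ge c j with h | h
        · rw [hj c h, zero_mul, zero_mul]
        · exact mul_le_mul_of_nonneg_left (mvfc_Tp ha hP h hg hg0) (h0 c)

/-- weighted (T-) -/
theorem mvfc_w_Tm (ha : 0 < a) {P : SkStp} (hP : SkAdm a P) {j : ℕ} (w : ℕ → ℝ) (K : Finset ℕ) (h0 : ∀ c, 0 ≤ w c)
    (hs : ∑ c ∈ K, w c = 1) (hj : ∀ c, j < c → w c = 0) {g : (ℕ → SkDr n → ℝ) → ℝ} (hg : MvfG j g) (hg0 : ∀ ξ, 0 ≤ g ξ) :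
    ∫ p, g p.1 * ∑ c ∈ K, w c * obL n a P 0 c p.1 p.2 ∂(mvfMu n a P 0)
      ≤ ∫ p, g p.1 * (mvfN n a P 0 j p.1 / 2) ∂(mvfMu n a P 0) := by
  have := mvfc_mu_prob (n := n) ha hP 0
  have e : (fun p : GhOm (SkCfg n) (SkDr n) => g p.1 * ∑ c ∈ K, w c * obL n a P 0 c p.1 p.2)
      = fun p => ∑ c ∈ K, w c * (g p.1 * obL n a P 0 c p.1 p.2) := by
    funext p; rw [Finset.mul_sum]; exact Finset.sum_congr rfl fun c _ => by ring
  rw [e, integral_finsetSum _ fun c _ => ((hg.b.mul (mvfc_b_L ha hP c)).const_mul _).integrable _]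
  calc ∑ c ∈ K, ∫ p, w c * (g p.1 * obL n a P 0 c p.1 p.2) ∂(mvfMu n a P 0)
      ≤ ∑ c ∈ K, w c * ∫ p, g p.1 * (mvfN n a P 0 j p.1 / 2) ∂(mvfMu n a P 0) := by
        refine Finset.sum_le_sum fun c _ => ?_
        rw [integral_const_mul]
        rcases lt_or_ge j c with h | h
        · rw [hj c h, zero_mul, zero_mul]
        · exact mul_le_mul_of_nonneg_left (mvfc_Tm ha hP h hg hg0) (h0 c)
    _ = ∫ p, g p.1 * (mvfN n a P 0 j p.1 / 2) ∂(mvfMu n a P 0) := by rw [← Finset.sum_mul, hs, one_mul]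

theorem mvfc_g_pos {k : ℕ} {g : (ℕ → SkDr n → ℝ) → ℝ} (h : MvfG k g) : MvfG k fun ξ => max (g ξ) 0 := by
  have hb : MvfB fun ξ => max (g ξ) 0 := MvfB.max_zero ⟨h.1, h.2.1⟩
  exact ⟨hb.1, hb.2, fun ξ ξ' hh => by show max (g ξ) 0 = max (g ξ') 0; rw [h.2.2 ξ ξ' hh]⟩

theorem mvfc_g_sub_const {k : ℕ} {g : (ℕ → SkDr n → ℝ) → ℝ} (h : MvfG k g) (s : ℝ) : MvfG k fun ξ => g ξ - s := by
  have hb : MvfB fun ξ => g ξ - s := MvfB.sub ⟨h.1, h.2.1⟩ (mvfc_b_const s)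
  exact ⟨hb.1, hb.2, fun ξ ξ' hh => by show g ξ - s = g ξ' - s; rw [h.2.2 ξ ξ' hh]⟩

theorem mvfc_g_neg {k : ℕ} {g : (ℕ → SkDr n → ℝ) → ℝ} (h : MvfG k g) : MvfG k fun ξ => - g ξ := by
  have hb : MvfB fun ξ => - g ξ := MvfB.neg ⟨h.1, h.2.1⟩
  exact ⟨hb.1, hb.2, fun ξ ξ' hh => by show - g ξ = - g ξ'; rw [h.2.2 ξ ξ' hh]⟩

/-- (I4), finite level, WEIGHTS form: `lp` lives on the cuts `≥ j`, `lm` on the cuts `≤ j`, `0 ≤ l ≤ gap`, total mass `ρ` -/
theorem mvfc_conc_w (hn : 0 < n) (ha : 0 < a) {P : SkStp} (hP : SkAdm a P) {j : ℕ} {ρ : ℝ} (hρ : 0 < ρ) (lp lm : ℕ → ℝ)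
    (hp0 : ∀ c, 0 ≤ lp c) (hpg : ∀ c, lp c ≤ skGap a P c) (hps : ∑ c ∈ Finset.range (P.length + 1), lp c = ρ)
    (hpj : ∀ c, c < j → lp c = 0)
    (hm0 : ∀ c, 0 ≤ lm c) (hmg : ∀ c, lm c ≤ skGap a P c) (hms : ∑ c ∈ Finset.range (P.length + 1), lm c = ρ)
    (hmj : ∀ c, j < c → lm c = 0) :
    Real.sqrt (ckX4F n a P j - obS n a P 0 j ^ 2)
      ≤ ((∑ c ∈ Finset.range (P.length + 1), lp c * obS n a P 0 c) - ∑ c ∈ Finset.range (P.length + 1), lm c * obS n a P 0 c) / ρ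
        + 2 / ρ * Real.sqrt (∑ c ∈ Finset.range (P.length + 1), lp c * obTrHC n a P 0 c)
        + 2 / ρ * Real.sqrt (∑ c ∈ Finset.range (P.length + 1), lm c * obTrHC n a P 0 c) := by
  have := mvfc_mu_prob (n := n) ha hP 0
  set K := Finset.range (P.length + 1) with hK
  have wp0 : ∀ c, 0 ≤ lp c / ρ := fun c => div_nonneg (hp0 c) hρ.le
  have wm0 : ∀ c, 0 ≤ lm c / ρ := fun c => div_nonneg (hm0 c) hρ.le
  have wps : ∑ c ∈ K, lp c / ρ = 1 := by rw [← Finset.sum_div, hps, div_self hρ.ne']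
  have wms : ∑ c ∈ K, lm c / ρ = 1 := by rw [← Finset.sum_div, hms, div_self hρ.ne']
  have wpj : ∀ c, c < j → lp c / ρ = 0 := fun c h => by rw [hpj c h, zero_div]
  have wmj : ∀ c, j < c → lm c / ρ = 0 := fun c h => by rw [hmj c h, zero_div]
  have gN := mvfc_g_N (n := n) (z₀ := 0) ha hP j
  have h1 : obS n a P 0 j ≤ ∑ c ∈ K, lp c / ρ * obS n a P 0 c := by
    calc obS n a P 0 j = ∑ c ∈ K, lp c / ρ * obS n a P 0 j := by rw [← Finset.sum_mul, wps, one_mul]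
      _ ≤ _ := Finset.sum_le_sum fun c _ => by
        rcases lt_or_ge c j with h | h
        · rw [wpj c h, zero_mul, zero_mul]
        · exact mul_le_mul_of_nonneg_left (mvfc_S_mono ha hP h) (wp0 c)
  have h2 : ∑ c ∈ K, lm c / ρ * obS n a P 0 c ≤ obS n a P 0 j := by
    calc ∑ c ∈ K, lm c / ρ * obS n a P 0 c ≤ ∑ c ∈ K, lm c / ρ * obS n a P 0 j := Finset.sum_le_sum fun c _ => by
          rcases lt_or_ge j c with h | h
          · rw [wmj c h, zero_mul, zero_mul]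
          · exact mul_le_mul_of_nonneg_left (mvfc_S_mono ha hP h) (wm0 c)
      _ = obS n a P 0 j := by rw [← Finset.sum_mul, wms, one_mul]
  have core := mvfc_core (mvfMu n a P 0) (N := fun p => mvfN n a P 0 j p.1)
    (Ap := fun p => ∑ c ∈ K, lp c / ρ * obL n a P 0 c p.1 p.2) (Am := fun p => ∑ c ∈ K, lm c / ρ * obL n a P 0 c p.1 p.2)
    gN.b (MvfB.sum _ fun c _ => (mvfc_b_L ha hP c).const_mul _) (MvfB.sum _ fun c _ => (mvfc_b_L ha hP c).const_mul _)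
    (mvfc_S_eq ha hP j).symm h1 h2
    (mvfc_w_Tp ha hP _ K wp0 wps wpj (mvfc_g_pos (mvfc_g_sub_const gN _)) fun _ => le_max_right _ _)
    (mvfc_w_Tm ha hP _ K wm0 wms wmj (mvfc_g_pos (mvfc_g_neg (mvfc_g_sub_const gN _))) fun _ => le_max_right _ _)
  rw [← mvfc_X4_eq ha hP j] at core
  have vp := Real.sqrt_le_sqrt (mvfc_w_var hn ha hP hρ lp hp0 hpg)
  have vm := Real.sqrt_le_sqrt (mvfc_w_var hn ha hP hρ lm hm0 hmg)
  rw [Real.sqrt_div' _ (by positivity), Real.sqrt_sq hρ.le] at vp vm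
  have es : (∑ c ∈ K, lp c / ρ * obS n a P 0 c) - ∑ c ∈ K, lm c / ρ * obS n a P 0 c
      = ((∑ c ∈ K, lp c * obS n a P 0 c) - ∑ c ∈ K, lm c * obS n a P 0 c) / ρ := by
    rw [sub_div, Finset.sum_div, Finset.sum_div]
    congr 1 <;> exact Finset.sum_congr rfl fun c _ => by ring
  rw [es] at core
  have e1 : ∀ x : ℝ, 2 / ρ * x = 2 * (x / ρ) := fun x => by ring
  rw [e1, e1]
  linarith

end var



section mass
variable {a : ℝ}

/-- lower end in mass of the cut `c` -/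
def mvfBd (a : ℝ) (P : SkStp) (c : ℕ) : ℝ := if c = 0 then 0 else skMs a P (c - 1)

/-- clamp to `[α, β]` -/
def mvfCl (α β x : ℝ) : ℝ := max α (min x β)

/-- length of the part of the cut `c` inside `[α, β]` -/
def mvfLen (a : ℝ) (P : SkStp) (α β : ℝ) (c : ℕ) : ℝ := mvfCl α β (mvfBd a P (c + 1)) - mvfCl α β (mvfBd a P c)

theorem mvf_eqns_cite_c : True := by
  have := @mvfBd.eq_1
  have := @mvfCl.eq_1
  have := @mvfLen.eq_1
  trivial

theorem mvfc_bd_succ (a : ℝ) (P : SkStp) (c : ℕ) : mvfBd a P (c + 1) = skMs a P c := by simp [mvfBd]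

theorem mvfc_gap_eq (a : ℝ) (P : SkStp) (c : ℕ) : skGap a P c = mvfBd a P (c + 1) - mvfBd a P c := by
  rw [mvfc_bd_succ]; rfl

theorem mvfc_bd_le (ha : 0 < a) {P : SkStp} (hP : SkAdm a P) (c : ℕ) : mvfBd a P c ≤ mvfBd a P (c + 1) := by
  have := pin_gap_nonneg ha P hP c
  rw [mvfc_gap_eq] at this
  linarith

theorem mvfc_bd_mono (ha : 0 < a) {P : SkStp} (hP : SkAdm a P) : Monotone (mvfBd a P) :=
  monotone_nat_of_le_succ (mvfc_bd_le ha hP)

theorem mvfc_cl_mono (α β : ℝ) : Monotone (mvfCl α β) := fun _ _ h => max_le_max le_rfl (min_le_min h le_rfl)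

theorem mvfc_cl_sub_le (α β : ℝ) {x y : ℝ} (h : x ≤ y) : mvfCl α β y - mvfCl α β x ≤ y - x := by
  unfold mvfCl
  rcases le_total x β with h1 | h1 <;> rcases le_total y β with h2 | h2 <;>
    rcases le_total α x with h3 | h3 <;> rcases le_total α y with h4 | h4 <;>
    rcases le_total α β with h5 | h5 <;>
    simp only [min_eq_left, min_eq_right, max_eq_left, max_eq_right, h1, h2, h3, h4, h5] <;> linarith

theorem mvfc_len_nonneg (ha : 0 < a) {P : SkStp} (hP : SkAdm a P) (α β : ℝ) (c : ℕ) : 0 ≤ mvfLen a P α β c :=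
  sub_nonneg.2 (mvfc_cl_mono α β (mvfc_bd_le ha hP c))

theorem mvfc_len_le (ha : 0 < a) {P : SkStp} (hP : SkAdm a P) (α β : ℝ) (c : ℕ) : mvfLen a P α β c ≤ skGap a P c := by
  rw [mvfc_gap_eq]; exact mvfc_cl_sub_le α β (mvfc_bd_le ha hP c)

theorem mvfc_cl_first {α β : ℝ} (h0 : 0 ≤ α) (hαβ : α ≤ β) (P : SkStp) : mvfCl α β (mvfBd a P 0) = α := by
  simp only [mvfBd, if_true, mvfCl]
  rw [min_eq_left (h0.trans hαβ), max_eq_left h0]

theorem mvfc_cl_last {α β : ℝ} (hαβ : α ≤ β) (hβ : β ≤ a) (P : SkStp) : mvfCl α β (mvfBd a P (P.length + 1)) = β := by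
  rw [mvfc_bd_succ, pin_ms_ge a P le_rfl, mvfCl, min_eq_right hβ, max_eq_right hαβ]

theorem mvfc_len_sum {α β : ℝ} (h0 : 0 ≤ α) (hαβ : α ≤ β) (hβ : β ≤ a) (P : SkStp) :
    ∑ c ∈ Finset.range (P.length + 1), mvfLen a P α β c = β - α := by
  unfold mvfLen
  rw [Finset.sum_range_sub (fun c => mvfCl α β (mvfBd a P c)), mvfc_cl_first h0 hαβ, mvfc_cl_last hαβ hβ]

/-- the cut from the two sides -/
theorem mvfc_cut_of {P : SkStp} {c : ℕ} (hc : c ≤ P.length) {v : ℝ} (h1 : ∀ e ∈ P.take c, e.m ≤ v) (h2 : ∀ e ∈ P.drop c, v < e.m) :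
    mvfCut P v = c := by
  unfold mvfCut
  conv_lhs => rw [← List.take_append_drop c P]
  rw [List.filter_append, List.filter_eq_self.2 (fun e he => by simpa using h1 e he),
    List.filter_eq_nil_iff.2 (fun e he => by simpa using h2 e he), List.append_nil, List.length_take, min_eq_left hc]

theorem mvfc_take_le (ha : 0 < a) {P : SkStp} (hP : SkAdm a P) (c : ℕ) : ∀ e ∈ P.take c, e.m ≤ mvfBd a P c := by
  intro e he
  obtain ⟨i, hi, rfl⟩ := List.mem_take_iff_getElem.1 he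
  have hi1 : i < c := lt_of_lt_of_le hi (min_le_left _ _)
  have hi2 : i < P.length := lt_of_lt_of_le hi (min_le_right _ _)
  rw [← pin_ms_lt a P hi2, ← mvfc_bd_succ]
  exact mvfc_bd_mono ha hP hi1

theorem mvfc_le_drop (ha : 0 < a) {P : SkStp} (hP : SkAdm a P) (c : ℕ) : ∀ e ∈ P.drop c, mvfBd a P (c + 1) ≤ e.m := by
  intro e he
  obtain ⟨i, hi, rfl⟩ := List.mem_drop_iff_getElem.1 he
  have hi' : c + i < P.length := by omega
  rw [← pin_ms_lt a P hi', ← mvfc_bd_succ]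
  exact mvfc_bd_mono ha hP (by omega)

theorem mvfc_cut_eq (ha : 0 < a) {P : SkStp} (hP : SkAdm a P) {c : ℕ} (hc : c ≤ P.length) {v : ℝ} (h1 : mvfBd a P c ≤ v)
    (h2 : v < mvfBd a P (c + 1)) : mvfCut P v = c :=
  mvfc_cut_of hc (fun e he => (mvfc_take_le ha hP c e he).trans h1) fun e he => h2.trans_le (mvfc_le_drop ha hP c e he)

theorem mvfc_cut_mono (P : SkStp) : Monotone (mvfCut P) := by
  intro v w h
  unfold mvfCut
  rw [← List.countP_eq_length_filter, ← List.countP_eq_length_filter]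
  exact List.countP_mono_left fun e _ he => by
    simp only [decide_eq_true_eq] at he ⊢
    exact he.trans h

theorem mvfc_cut_le (P : SkStp) (v : ℝ) : mvfCut P v ≤ P.length := List.length_filter_le _ _

/-- what remains after the cut at the mass `v` has mass `> v` -/
theorem mvfc_cut_drop : ∀ {P : SkStp}, P.Pairwise (fun e e' => e.m ≤ e'.m) → ∀ v : ℝ, ∀ e ∈ P.drop (mvfCut P v), v < e.m
  | [], _, _, e, he => by simp at he
  | e₀ :: Q, hs, v, e, he => by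
    have hs' := List.pairwise_cons.1 hs
    by_cases h : e₀.m ≤ v
    · have : mvfCut (e₀ :: Q) v = mvfCut Q v + 1 := by
        unfold mvfCut
        rw [List.filter_cons_of_pos (by simpa using h), List.length_cons]
      rw [this, List.drop_succ_cons] at he
      exact mvfc_cut_drop hs'.2 v e he
    · have hv : v < e₀.m := not_le.1 h
      have : mvfCut (e₀ :: Q) v = 0 := by
        unfold mvfCut
        rw [List.length_eq_zero_iff, List.filter_eq_nil_iff]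
        intro e' he'
        simp only [decide_eq_true_eq, not_le]
        rcases List.mem_cons.1 he' with rfl | he'
        · exact hv
        · exact hv.trans_le (hs'.1 e' he')
      rw [this, List.drop_zero] at he
      rcases List.mem_cons.1 he with rfl | he
      · exact hv
      · exact hv.trans_le (hs'.1 e he)

theorem mvfc_step_b (P : SkStp) (f : ℕ → ℝ) : MvfB fun v : ℝ => f (mvfCut P v) := by
  refine ⟨(Measurable.of_discrete (f := f)).comp (mvfc_cut_mono P).measurable,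
    ∑ c ∈ Finset.range (P.length + 1), |f c|, fun v => ?_⟩
  exact Finset.single_le_sum (f := fun c => |f c|) (fun c _ => abs_nonneg _)
    (Finset.mem_range.2 (Nat.lt_succ_of_le (mvfc_cut_le P v)))

theorem mvfc_step_int (P : SkStp) (f : ℕ → ℝ) (α β : ℝ) : IntervalIntegrable (fun v : ℝ => f (mvfCut P v)) volume α β := by
  rw [intervalIntegrable_iff]
  have : IsFiniteMeasure ((volume : Measure ℝ).restrict (Set.uIoc α β)) := ⟨by
    rw [Measure.restrict_apply MeasurableSet.univ, univ_inter]; exact measure_Ioc_lt_top⟩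
  exact (mvfc_step_b P f).integrable _

/-- integral of a function of the cut -/
theorem mvfc_step_integral (ha : 0 < a) {P : SkStp} (hP : SkAdm a P) (f : ℕ → ℝ) {α β : ℝ} (h0 : 0 ≤ α) (hαβ : α ≤ β) (hβ : β ≤ a) :
    ∫ v in α..β, f (mvfCut P v) = ∑ c ∈ Finset.range (P.length + 1), mvfLen a P α β c * f c := by
  have h := intervalIntegral.sum_integral_adjacent_intervals (μ := volume) (f := fun v : ℝ => f (mvfCut P v))
    (a := fun c => mvfCl α β (mvfBd a P c)) (n := P.length + 1) fun k _ => mvfc_step_int P f _ _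
  rw [mvfc_cl_first h0 hαβ, mvfc_cl_last hαβ hβ] at h
  rw [← h]
  refine Finset.sum_congr rfl fun c hc => ?_
  have hc' : c ≤ P.length := Nat.lt_succ_iff.1 (Finset.mem_range.1 hc)
  have hle : mvfCl α β (mvfBd a P c) ≤ mvfCl α β (mvfBd a P (c + 1)) := mvfc_cl_mono α β (mvfc_bd_le ha hP c)
  have e : ∫ v in mvfCl α β (mvfBd a P c)..mvfCl α β (mvfBd a P (c + 1)), f (mvfCut P v)
      = ∫ _v in mvfCl α β (mvfBd a P c)..mvfCl α β (mvfBd a P (c + 1)), f c := by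
    refine intervalIntegral.integral_congr_ae ?_
    have hne : ∀ᵐ v : ℝ, v ≠ mvfCl α β (mvfBd a P (c + 1)) := compl_mem_ae_iff.2 (measure_singleton _)
    filter_upwards [hne] with v hv hmem
    rw [uIoc_of_le hle] at hmem
    have hlt : v < mvfCl α β (mvfBd a P (c + 1)) := lt_of_le_of_ne hmem.2 hv
    have hgt := hmem.1
    unfold mvfCl at hlt hgt
    have g1 : α < v := lt_of_le_of_lt (le_max_left _ _) hgt
    have g2 : min (mvfBd a P c) β < v := lt_of_le_of_lt (le_max_right _ _) hgt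
    have g3 : v < min (mvfBd a P (c + 1)) β := by
      rcases lt_max_iff.1 hlt with h | h
      · exact absurd h (not_lt.2 g1.le)
      · exact h
    have g4 : v < β := g3.trans_le (min_le_right _ _)
    have g5 : mvfBd a P c < v := by
      rcases min_lt_iff.1 g2 with h | h
      · exact h
      · exact absurd h (not_lt.2 g4.le)
    rw [mvfc_cut_eq ha hP hc' g5.le (g3.trans_le (min_le_left _ _))]
  rw [e, intervalIntegral.integral_const, smul_eq_mul]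
  rfl

/-- support of the weights on `[u, β]` -/
theorem mvfc_len_lo (ha : 0 < a) {P : SkStp} (hP : SkAdm a P) {j : ℕ} {u β : ℝ} (hlo : ∀ e ∈ P.take j, e.m ≤ u) (c : ℕ) (hc : c < j)
    (hj : j ≤ P.length) : mvfLen a P u β c = 0 := by
  have h1 : mvfBd a P (c + 1) ≤ u := by
    rw [mvfc_bd_succ, pin_ms_lt a P (hc.trans_le hj)]
    exact hlo _ (List.mem_take_iff_getElem.2 ⟨c, lt_min hc (hc.trans_le hj), rfl⟩)
  have h2 : mvfBd a P c ≤ u := (mvfc_bd_le ha hP c).trans h1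
  unfold mvfLen mvfCl
  rw [max_eq_left ((min_le_left _ _).trans h1), max_eq_left ((min_le_left _ _).trans h2), sub_self]

/-- support of the weights on `[α, u]` -/
theorem mvfc_len_hi (ha : 0 < a) {P : SkStp} (hP : SkAdm a P) {j : ℕ} {α u : ℝ} (hua : u ≤ a) (hhi : ∀ e ∈ P.drop j, u ≤ e.m) (c : ℕ)
    (hc : j < c) : mvfLen a P α u c = 0 := by
  have h1 : u ≤ mvfBd a P c := by
    obtain ⟨d, rfl⟩ : ∃ d, c = d + 1 := ⟨c - 1, by omega⟩
    rw [mvfc_bd_succ]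
    rcases lt_or_ge d P.length with h | h
    · rw [pin_ms_lt a P h]
      refine hhi _ (List.mem_drop_iff_getElem.2 ⟨d - j, by omega, ?_⟩)
      congr 1; omega
    · rw [pin_ms_ge a P h]; exact hua
  have h2 : u ≤ mvfBd a P (c + 1) := h1.trans (mvfc_bd_le ha hP c)
  unfold mvfLen mvfCl
  rw [min_eq_right h1, min_eq_right h2, sub_self]

end mass



theorem mvfc_G_int (P : SkStp) (f : ℕ → ℝ) {α β : ℝ} (hα : 0 < α) (hαβ : α ≤ β) :
    IntervalIntegrable (fun v : ℝ => f (mvfCut P v) / v) volume α β := by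
  simp only [div_eq_mul_inv]
  refine (mvfc_step_int P f α β).mul_continuousOn (continuousOn_inv₀.mono fun v hv => ?_)
  rw [uIcc_of_le hαβ] at hv
  exact (hα.trans_le hv.1).ne'

/-- (I4), finite level, mass form.      TEX[PE:lem:found-moments] -/
theorem mvfc_conc (hn : 0 < n) {a : ℝ} (ha : 0 < a) (P : SkStp) (hP : SkAdm a P) {j : ℕ} (hj : j ≤ P.length) {u ρ : ℝ}
    (hρ : 0 < ρ) (h1 : 0 < u - ρ) (h2 : u + ρ < a) (hlo : ∀ e ∈ P.take j, e.m ≤ u) (hhi : ∀ e ∈ P.drop j, u ≤ e.m) :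
    Real.sqrt (ckX4F n a P j - obS n a P 0 j ^ 2)
      ≤ (obS n a P 0 (mvfCut P (u + ρ)) - obS n a P 0 (mvfCut P (u - ρ)))
        + 4 / ρ * Real.sqrt (∫ v in (u - ρ)..(u + ρ), obTrH2 n a P 0 (mvfCut P v) / v) := by
  have hu0 : 0 < u := by linarith
  have hw := mvfc_conc_w hn ha hP (j := j) hρ (mvfLen a P u (u + ρ)) (mvfLen a P (u - ρ) u)
    (mvfc_len_nonneg ha hP _ _) (mvfc_len_le ha hP _ _) (by rw [mvfc_len_sum hu0.le (by linarith) h2.le]; ring)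
    (fun c hc => mvfc_len_lo ha hP hlo c hc hj)
    (mvfc_len_nonneg ha hP _ _) (mvfc_len_le ha hP _ _) (by rw [mvfc_len_sum h1.le (by linarith) (by linarith)]; ring)
    (fun c hc => mvfc_len_hi ha hP (by linarith) hhi c hc)
  rw [← mvfc_step_integral ha hP (fun c => obS n a P 0 c) hu0.le (by linarith) h2.le,
    ← mvfc_step_integral ha hP (fun c => obS n a P 0 c) h1.le (by linarith) (by linarith),
    ← mvfc_step_integral ha hP (fun c => obTrHC n a P 0 c) hu0.le (by linarith) h2.le,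
    ← mvfc_step_integral ha hP (fun c => obTrHC n a P 0 c) h1.le (by linarith) (by linarith)] at hw
  have s1 : ∫ v in u..(u + ρ), obS n a P 0 (mvfCut P v) ≤ ρ * obS n a P 0 (mvfCut P (u + ρ)) := by
    have := intervalIntegral.integral_mono_on (a := u) (b := u + ρ) (by linarith) (mvfc_step_int P (fun c => obS n a P 0 c) _ _)
      (intervalIntegrable_const (c := obS n a P 0 (mvfCut P (u + ρ)))) fun v hv => mvfc_S_mono ha hP (mvfc_cut_mono P hv.2)
    rw [intervalIntegral.integral_const, smul_eq_mul] at this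
    refine this.trans_eq ?_
    ring
  have s2 : ρ * obS n a P 0 (mvfCut P (u - ρ)) ≤ ∫ v in (u - ρ)..u, obS n a P 0 (mvfCut P v) := by
    have := intervalIntegral.integral_mono_on (a := u - ρ) (b := u) (by linarith)
      (intervalIntegrable_const (c := obS n a P 0 (mvfCut P (u - ρ)))) (mvfc_step_int P (fun c => obS n a P 0 c) _ _)
      fun v hv => mvfc_S_mono ha hP (mvfc_cut_mono P hv.1)
    rw [intervalIntegral.integral_const, smul_eq_mul] at this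
    refine le_trans (le_of_eq ?_) this
    ring
  have hH0 : ∀ c, 0 ≤ obTrH2 n a P 0 c := fun c => by
    have := (mvfc_tr_H2 hn ha le_rfl ha.le P hP 0 c fun e he => (hP.2 e (List.mem_of_mem_drop he)).1).2.2.1
    simpa using this
  have hpt : ∀ v, 0 < v → v ≤ a → obTrHC n a P 0 (mvfCut P v) ≤ obTrH2 n a P 0 (mvfCut P v) / v := fun v hv hva => by
    rw [le_div_iff₀ hv, mul_comm]
    exact (mvfc_tr_H2 hn ha hv.le hva P hP 0 _ fun e he => (mvfc_cut_drop hP.1 v e he).le).2.2.1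
  have hG0 : ∀ v, 0 < v → 0 ≤ obTrH2 n a P 0 (mvfCut P v) / v := fun v hv => div_nonneg (hH0 _) hv.le
  have iA := mvfc_G_int P (fun c => obTrH2 n a P 0 c) h1 (show u - ρ ≤ u by linarith)
  have iB := mvfc_G_int P (fun c => obTrH2 n a P 0 c) hu0 (show u ≤ u + ρ by linarith)
  have hadd := intervalIntegral.integral_add_adjacent_intervals iA iB
  have nA : 0 ≤ ∫ v in (u - ρ)..u, obTrH2 n a P 0 (mvfCut P v) / v :=
    intervalIntegral.integral_nonneg (by linarith) fun v hv => hG0 v (h1.trans_le hv.1)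
  have nB : 0 ≤ ∫ v in u..(u + ρ), obTrH2 n a P 0 (mvfCut P v) / v :=
    intervalIntegral.integral_nonneg (by linarith) fun v hv => hG0 v (hu0.trans_le hv.1)
  have t1 : ∫ v in u..(u + ρ), obTrHC n a P 0 (mvfCut P v) ≤ ∫ v in (u - ρ)..(u + ρ), obTrH2 n a P 0 (mvfCut P v) / v := by
    have := intervalIntegral.integral_mono_on (a := u) (b := u + ρ) (by linarith)
      (mvfc_step_int P (fun c => obTrHC n a P 0 c) _ _) iB fun v hv => hpt v (hu0.trans_le hv.1) (hv.2.trans h2.le)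
    linarith
  have t2 : ∫ v in (u - ρ)..u, obTrHC n a P 0 (mvfCut P v) ≤ ∫ v in (u - ρ)..(u + ρ), obTrH2 n a P 0 (mvfCut P v) / v := by
    have := intervalIntegral.integral_mono_on (a := u - ρ) (b := u) (by linarith)
      (mvfc_step_int P (fun c => obTrHC n a P 0 c) _ _) iA fun v hv => hpt v (h1.trans_le hv.1) (by linarith [hv.2])
    linarith
  have r1 := Real.sqrt_le_sqrt t1
  have r2 := Real.sqrt_le_sqrt t2
  set R := Real.sqrt (∫ v in (u - ρ)..(u + ρ), obTrH2 n a P 0 (mvfCut P v) / v) with hR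
  have q1 : ((∫ v in u..(u + ρ), obS n a P 0 (mvfCut P v)) - ∫ v in (u - ρ)..u, obS n a P 0 (mvfCut P v)) / ρ
      ≤ obS n a P 0 (mvfCut P (u + ρ)) - obS n a P 0 (mvfCut P (u - ρ)) := by
    rw [div_le_iff₀ hρ]; linarith
  have hc : 0 ≤ 2 / ρ := by positivity
  have q2 := mul_le_mul_of_nonneg_left r1 hc
  have q3 := mul_le_mul_of_nonneg_left r2 hc
  have e4 : 4 / ρ * R = 2 / ρ * R + 2 / ρ * R := by ring
  rw [e4]
  linarith



section chain

/-- `ghIdx` at a finite position is a plain count -/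
theorem mvfc_idx_eq (ps : List GhPos) (p : GhPos) :
    ghIdx ps (p : WithTop GhPos) = (ps.filter fun x => decide (x ≤ p)).length := by
  unfold ghIdx
  rw [if_neg (WithTop.coe_ne_top), add_zero]
  have e : ∀ l : List GhPos, (l >>= fun a => (pure (WithTop.some a) : List (WithTop GhPos))) = List.map WithTop.some l := by
    intro l
    induction l with
    | nil => rfl
    | cons x l ih =>
      have : ((x :: l) >>= fun a => (pure (WithTop.some a) : List (WithTop GhPos)))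
          = WithTop.some x :: (l >>= fun a => (pure (WithTop.some a) : List (WithTop GhPos))) := by
        simp
      rw [this, ih, List.map_cons]
  rw [e, List.filter_map, List.length_map]
  have e2 : (ps.filter ((fun x : WithTop GhPos => decide (x ≤ (p : WithTop GhPos))) ∘ WithTop.some))
      = ps.filter fun x => decide (x ≤ p) := by
    refine List.filter_congr fun x _ => ?_
    simp only [Function.comp, WithTop.coe_le_coe]
  rw [e2]

/-- a sorted list is split by the count of its elements `≤ p` -/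
theorem mvfc_sorted_split {α : Type} [LinearOrder α] : ∀ (l : List α), l.Pairwise (· ≤ ·) → ∀ p : α,
    (∀ x ∈ l.take (l.filter fun x => decide (x ≤ p)).length, x ≤ p) ∧
      ∀ x ∈ l.drop (l.filter fun x => decide (x ≤ p)).length, p < x
  | [], _, _ => by simp
  | x₀ :: l, hs, p => by
    have hs' := List.pairwise_cons.1 hs
    by_cases h : x₀ ≤ p
    · rw [List.filter_cons_of_pos (by simpa using h), List.length_cons, List.take_succ_cons, List.drop_succ_cons]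
      have ih := mvfc_sorted_split l hs'.2 p
      refine ⟨fun x hx => ?_, ih.2⟩
      rcases List.mem_cons.1 hx with rfl | hx
      · exact h
      · exact ih.1 x hx
    · have hv : p < x₀ := not_le.1 h
      have : ((x₀ :: l).filter fun x => decide (x ≤ p)) = [] := by
        rw [List.filter_eq_nil_iff]
        intro x hx
        simp only [decide_eq_true_eq, not_le]
        rcases List.mem_cons.1 hx with rfl | hx
        · exact hv
        · exact hv.trans_le (hs'.1 x hx)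
      rw [this]
      refine ⟨by simp, fun x hx => ?_⟩
      rw [List.length_nil, List.drop_zero] at hx
      rcases List.mem_cons.1 hx with rfl | hx
      · exact hv
      · exact hv.trans_le (hs'.1 x hx)

theorem mvfc_chain_map (a : ℝ) (b h : ℝ → ℝ) : ∀ (ps : List GhPos) (b0 h0 : ℝ),
    (skCStp a b h b0 h0 ps).map SkInc.m = ps.map GhPos.u
  | [], _, _ => rfl
  | p :: ps, _, _ => by
    rw [skCStp, List.map_cons, List.map_cons, mvfc_chain_map a b h ps]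

theorem mvfc_cut_map (P : SkStp) (v : ℝ) : mvfCut P v = ((P.map SkInc.m).filter fun x => decide (x ≤ v)).length := by
  unfold mvfCut
  rw [List.filter_map, List.length_map]
  rfl

theorem mvfc_chain_cut {a : ℝ} (b h : ℝ → ℝ) {ps : List GhPos} (hok : ∀ q ∈ ps, q.Ok a) (v : ℝ) :
    mvfCut (ckStp a b h ps) v = ghIdx ps ((ghPosA v : GhPos) : WithTop GhPos) := by
  rw [mvfc_cut_map, ckStp, mvfc_chain_map, mvfc_idx_eq, List.filter_map, List.length_map]
  congr 1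
  refine List.filter_congr fun x hx => ?_
  have hl : x.lam ≤ 1 := (hok x hx).2.2.2
  have e : (x.u ≤ v) ↔ x ≤ ghPosA v := by
    rw [gh_os_pos_le_iff]
    have e1 : (ghPosA v).u = v := rfl
    have e2 : (ghPosA v).lam = 1 := rfl
    rw [e1, e2]
    constructor
    · intro hh
      rcases hh.lt_or_eq with h' | h'
      · exact Or.inl h'
      · exact Or.inr ⟨h', hl⟩
    · rintro (h' | h')
      · exact h'.le
      · exact h'.1.le
  simp only [Function.comp, e]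

theorem mvfc_chain_adm {a : ℝ} (ha : 0 < a) {b h : ℝ → ℝ} (hbh : CkAdm a b h) {ps : List GhPos}
    (hs : ps.Pairwise (· ≤ ·)) (hok : ∀ q ∈ ps, q.Ok a) : SkAdm a (ckStp a b h ps) :=
  sk_stp_chain_adm ha.le hbh.1 hbh.2 ps 0 0 hs hok (fun q hq => gh_os_at_nonneg ha.le hbh.1 (hok q hq).2.2.1)
    fun q hq => gh_os_at_nonneg ha.le hbh.2 (hok q hq).2.2.1

/-- (I4) on a sorted chain of valid positions: term by term the finite form of `exit_clk_Vx`.      TEX[PE:lem:found-moments] -/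
theorem mvfc_conc_chain (hn : 0 < n) {a : ℝ} (ha : 0 < a) {b h : ℝ → ℝ} (hbh : CkAdm a b h) {ps : List GhPos}
    (hs : ps.Pairwise (· ≤ ·)) (hok : ∀ q ∈ ps, q.Ok a) {p : GhPos} (_hp : p.Ok a) {ρ : ℝ} (hρ : 0 < ρ)
    (h1 : 0 < p.u - ρ) (h2 : p.u + ρ < a) :
    Real.sqrt (ckX4F n a (ckStp a b h ps) (ghIdx ps p) - obS n a (ckStp a b h ps) 0 (ghIdx ps p) ^ 2)
      ≤ (obS n a (ckStp a b h ps) 0 (ghIdx ps (ghPosA (p.u + ρ))) - obS n a (ckStp a b h ps) 0 (ghIdx ps (ghPosA (p.u - ρ))))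
        + 4 / ρ * Real.sqrt (∫ v in (p.u - ρ)..(p.u + ρ), obTrH2 n a (ckStp a b h ps) 0 (ghIdx ps (ghPosA v)) / v) := by
  have hmap : (ckStp a b h ps).map SkInc.m = ps.map GhPos.u := mvfc_chain_map a b h ps 0 0
  have hlen : (ckStp a b h ps).length = ps.length := by
    have := congrArg List.length hmap
    simpa using this
  have hsp := mvfc_sorted_split ps hs p
  rw [← mvfc_idx_eq] at hsp
  have hj : ghIdx ps (p : WithTop GhPos) ≤ (ckStp a b h ps).length := by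
    rw [hlen, mvfc_idx_eq]; exact List.length_filter_le _ _
  have hlo : ∀ e ∈ (ckStp a b h ps).take (ghIdx ps (p : WithTop GhPos)), e.m ≤ p.u := by
    intro e he
    have : e.m ∈ ((ckStp a b h ps).take (ghIdx ps (p : WithTop GhPos))).map SkInc.m := List.mem_map_of_mem he
    rw [List.map_take, hmap, ← List.map_take] at this
    obtain ⟨q, hq, hqe⟩ := List.mem_map.1 this
    rw [← hqe]
    exact sk_stp_pos_u_le (hsp.1 q hq)
  have hhi : ∀ e ∈ (ckStp a b h ps).drop (ghIdx ps (p : WithTop GhPos)), p.u ≤ e.m := by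
    intro e he
    have : e.m ∈ ((ckStp a b h ps).drop (ghIdx ps (p : WithTop GhPos))).map SkInc.m := List.mem_map_of_mem he
    rw [List.map_drop, hmap, ← List.map_drop] at this
    obtain ⟨q, hq, hqe⟩ := List.mem_map.1 this
    rw [← hqe]
    exact sk_stp_pos_u_le (hsp.2 q hq).le
  have key := mvfc_conc hn ha (ckStp a b h ps) (mvfc_chain_adm ha hbh hs hok) hj hρ h1 h2 hlo hhi
  simp only [mvfc_chain_cut b h hok] at key
  exact key

end chain

end Claimed.Agent.R286
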