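import Claimed.Agent.R286.Macro.Contract
import Claimed.Agent.R286.Sc.LinkClk
import Claimed.Agent.R286.Sc.Pkg

/-!
# Row 286 (S0533), unit PAR -> unit MAC: THE BRIDGE between the scalar block (BOX-C) and the macroscopic functional `mvP macSpin T`      (owner helper155; prefix `mpar_`)

source: PE profile.tex l.720-845 (the scalar variational problem, Lemma 5.8)
* `mpar_bridge`   for every quantile `q` (`MvQt`):   `mvP macSpin T q = pkP T (svA q) - T/4`      (`svA q` = distribution function of `q`, 108;  `pkP` = Parisi functional in PE units, 229)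
                  from `slc_fspin` (102, Sc/LinkClk: `skCPr 1 1 0 K = V_{α_K}(0,0) - τ/2`), `scAlK 1 (T q) = pkA T (svA q)`, the layer-cake formula `svq_layer` and `svq_Q_A_ae`.
* `mparQ T`       the Parisi quantile `q_T = svQ (pkAlT T)` (value `0` at the mass `0`);   `mpar_qt`, `mpar_min`, `mpar_cont`, `mpar_two` = the fields of `MacPar` (Exit/Par.lean).
* `mpar_wp`       well-posedness in `L¹` of quantiles from the well-posedness among distribution functions (`svq_L1`).
-/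

set_option autoImplicit false

namespace Claimed.Agent.R286

open MeasureTheory Set Filter Topology

noncomputable section

/-! ## 1. quantiles of unit MAC are quantiles of BOX-C -/

theorem mpar_quant {q : ℝ → ℝ} (hq : MvQt q) : SvQuant q :=
  ⟨hq.1.1.mono Ioo_subset_Icc_self, fun _ hw => hq.mem (Ioo_subset_Icc_self hw)⟩

theorem mpar_dist {q : ℝ → ℝ} (hq : MvQt q) : SvDist (svA q) := svq_A_dist (mpar_quant hq).1 (mpar_quant hq).2

/-- `svA` sees only the values on `(0,1)` -/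
theorem mpar_svA_congr {z z' : ℝ → ℝ} (h : ∀ w ∈ Ioo (0:ℝ) 1, z w = z' w) : svA z = svA z' := by
  funext s
  unfold svA
  congr 1
  ext w
  simp only [mem_ofPred_eq]
  constructor
  · rintro ⟨a, b⟩
    exact ⟨a, by rw [← h w a]; exact b⟩
  · rintro ⟨a, b⟩
    exact ⟨a, by rw [h w a]; exact b⟩

/-- the mass profile in variance time of the clock `T q` -/
theorem mpar_alK {T : ℝ} (hT : 0 < T) (q : ℝ → ℝ) : scAlK 1 (fun u => 0 + T * q u) = pkA T (svA q) := by
  funext t
  unfold scAlK pkA svA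
  rw [measureReal_def]
  congr 2
  ext w
  simp only [mem_ofPred_eq]
  rw [zero_add, le_div_iff₀ hT, mul_comm]

/-- integrals over `(0,1)` see only the a.e. class -/
theorem mpar_int_congr {f g : ℝ → ℝ} (h : ∀ᵐ u ∂(volume.restrict (Ioo (0:ℝ) 1)), f u = g u) :
    ∫ u in (0:ℝ)..1, f u = ∫ u in (0:ℝ)..1, g u := by
  rw [intervalIntegral.integral_of_le zero_le_one, intervalIntegral.integral_of_le zero_le_one,
    integral_Ioc_eq_integral_Ioo, integral_Ioc_eq_integral_Ioo]
  exact integral_congr_ae h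

theorem mpar_layer {q : ℝ → ℝ} (hq : MvQt q) : ∫ u in (0:ℝ)..1, q u ^ 2 = 1 - 2 * ∫ s in (0:ℝ)..1, s * svA q s := by
  rw [← svq_layer (mpar_dist hq)]
  refine mpar_int_congr ?_
  filter_upwards [svq_Q_A_ae (mpar_quant hq).1 (mpar_quant hq).2] with u hu
  rw [← hu]

/-! ## 2. the bridge -/

/-- **THE BRIDGE** (`hSC`): the macroscopic functional is the Parisi functional of the distribution function.   TEX[PE:prof:macro-variational] (identification of the scalar problem) -/
theorem mpar_bridge {T : ℝ} (hT : 0 < T) {q : ℝ → ℝ} (hq : MvQt q) : mvP macSpin T q = pkP T (svA q) - T / 4 := by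
  have hK : GhClk1 1 (fun u => 0 + T * q u) := by
    refine ⟨fun a ha b hb hab => ?_, ?_⟩
    · have := hq.1.1 ha hb hab
      have := mul_le_mul_of_nonneg_left this hT.le
      simpa using this
    · have := mul_nonneg hT.le hq.1.2
      simpa using this
  have hK1 : (fun u => 0 + T * q u) 1 ≤ T := by
    have := mul_le_mul_of_nonneg_left hq.2 hT.le
    simpa using this
  have h1 := (slc_fspin (a := 1) (τ := T) one_pos hT hK hK1).2
  rw [mpar_alK hT] at h1
  unfold mvP mvG macSpin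
  rw [h1]
  have h2 : ∫ u in (0:ℝ)..1, T * q u ^ 2 = T * (1 - 2 * ∫ s in (0:ℝ)..1, s * svA q s) := by
    rw [intervalIntegral.integral_const_mul, mpar_layer hq]
  rw [h2]
  unfold pkP pkV0
  ring

/-! ## 3. the Parisi quantile -/

/-- the Parisi quantile `q_T` -/
def mparQ (T : ℝ) (u : ℝ) : ℝ := if 0 < u then svQ (pkAlT T) u else 0

theorem mparQ_eqns_cite : True := by
  have := @mparQ.eq_1
  trivial

theorem mparQ_pos (T : ℝ) {u : ℝ} (hu : 0 < u) : mparQ T u = svQ (pkAlT T) u := by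
  unfold mparQ
  rw [if_pos hu]

theorem mpar_qt {T : ℝ} (hT : 0 < T) : MvQt (mparQ T) := by
  have hd := pk_alT_dist hT
  refine ⟨⟨?_, ?_⟩, ?_⟩
  · intro a ha b hb hab
    rcases ha.1.eq_or_lt with h0 | h0
    · have e : mparQ T a = 0 := by
        unfold mparQ
        rw [if_neg (by rw [← h0]; exact lt_irrefl _)]
      rw [e]
      rcases hb.1.eq_or_lt with h1 | h1
      · unfold mparQ
        rw [if_neg (by rw [← h1]; exact lt_irrefl _)]
      · rw [mparQ_pos T h1]
        exact (svq_mem hd ⟨h1, hb.2⟩).1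
    · have h1 : 0 < b := h0.trans_le hab
      rw [mparQ_pos T h0, mparQ_pos T h1]
      exact svq_mono hd ⟨h0, ha.2⟩ ⟨h1, hb.2⟩ hab
  · unfold mparQ
    rw [if_neg (lt_irrefl _)]
  · rw [mparQ_pos T one_pos]
    exact (svq_mem hd ⟨one_pos, le_rfl⟩).2

theorem mpar_svA {T : ℝ} (hT : 0 < T) : svA (mparQ T) = pkAlT T := by
  rw [mpar_svA_congr (z' := svQ (pkAlT T)) fun w hw => mparQ_pos T hw.1]
  exact svq_A_Q (pk_alT_dist hT)

/-- minimality -/
theorem mpar_min {T : ℝ} (hT : 0 < T) : ∀ q, MvQt q → mvP macSpin T (mparQ T) ≤ mvP macSpin T q := by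
  intro q hq
  rw [mpar_bridge hT (mpar_qt hT), mpar_bridge hT hq, mpar_svA hT]
  linarith [pk_alT_min hT _ (mpar_dist hq)]

/-- continuity at every interior mass -/
theorem mpar_cont {T : ℝ} (hT : 1 < T) : ContinuousOn (mparQ T) (Ioo (0:ℝ) 1) :=
  (pk_58 hT).2.2.1.congr fun _ hu => mparQ_pos T hu.1

/-- the two-sided comparison with the mass -/
theorem mpar_two {T : ℝ} (hT : 1 < T) : ∃ cT CT : ℝ, 0 < cT ∧ cT ≤ CT ∧ ∀ v, 0 < v → v < 1 → cT * v ≤ mparQ T v ∧ mparQ T v ≤ CT * v := by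
  obtain ⟨c, C, hc, -, h⟩ := (pk_58 hT).2.2.2.2.2.1
  refine ⟨c, C, hc, ?_, fun v hv0 hv1 => ?_⟩
  · have := h 1 ⟨one_pos, le_rfl⟩
    linarith [this.1, this.2]
  · rw [mparQ_pos T hv0]
    exact h v ⟨hv0, hv1.le⟩

/-- the slope at the mass `0`: `q_T(u) ~ u / κ_T`, `κ_T = pkKap T > 0` -/
theorem mpar_slope {T : ℝ} (hT : 1 < T) : 0 < pkKap T ∧ Tendsto (fun u => mparQ T u / u) (𝓝[>] 0) (𝓝 (pkKap T)⁻¹) := by
  refine ⟨(pk_58 hT).1, (pk_58 hT).2.2.2.2.2.2.congr' ?_⟩
  filter_upwards [self_mem_nhdsWithin] with u hu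
  rw [mparQ_pos T hu]

/-- well-posedness: from distribution functions to quantiles -/
theorem mpar_wp {T : ℝ} (hT : 0 < T)
    (hwp : ∀ δ > 0, ∃ η > 0, ∀ α, SvDist α → pkP T α ≤ pkP T (pkAlT T) + η → ∫ s in (0:ℝ)..1, |α s - pkAlT T s| ≤ δ) :
    ∀ δ > 0, ∃ η > 0, ∀ q, MvQt q → mvP macSpin T q ≤ mvP macSpin T (mparQ T) + η → ∫ u in (0:ℝ)..1, |q u - mparQ T u| ≤ δ := by
  intro δ hδ
  obtain ⟨η, hη, h⟩ := hwp δ hδ
  refine ⟨η, hη, fun q hq hle => ?_⟩
  rw [mpar_bridge hT (mpar_qt hT), mpar_bridge hT hq, mpar_svA hT] at hle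
  have h1 := h _ (mpar_dist hq) (by linarith)
  rw [← svq_L1 (mpar_dist hq) (pk_alT_dist hT)] at h1
  refine le_trans (le_of_eq ?_) h1
  refine mpar_int_congr ?_
  filter_upwards [svq_Q_A_ae (mpar_quant hq).1 (mpar_quant hq).2, ae_restrict_mem measurableSet_Ioo] with u hu hm
  rw [← hu, mparQ_pos T hm.1]

end

end Claimed.Agent.R286
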