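import Claimed.Agent.R286.Macro.Inst
import Claimed.Agent.R286.Exit.Par
import Claimed.Agent.R286.Pe6.Imports

/-!
# Row 286 (S0533), unit MAC -> PE Sec. 6: THE IMPORT `P6ImpMacro` OF SECTION 6, PROVED      (owner helper155; prefix `mac_`, types `MacPar`, `MacGd`)

* `MacPar T qT cT CT`   (defined in Exit/Par.lean) what unit PAR (BOX-C; 149 Macro/Par.lean, 183) must deliver at ONE temperature `T`: the Parisi quantile `qT` of `mvP macSpin T`, its minimality, well-posedness, continuity on `(0,1)`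
                        and the two-sided bound `cT v ≤ qT v ≤ CT v` of PE Lemma 5.8.      Only ONE temperature is needed: `T = c.Tinf` (ruling 142 D3: `T_k → Tinf` along `U`).
* `mac_p6_macro_q`      PE Prop. 5.9 for ultrafilter sequences of instances, EXPLICIT limit `qT`, any pressure `fn` which agrees with `skCPr · 1` on admissible clocks  (LL 07: `BcpMacQ`).
* `mac_p6_macro`        `P6ImpMacro (fun n => skCPr n 1) c cT CT` from `MacPar c.Tinf qT cT CT`.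
Route: (4) of PE and `T_k → Tinf` give `b0 → Tinf`, `h0 → 0` in `L¹`; `mvc_inst` (279) on the subtype of the good indices; `mvc_locunif`.
-/

set_option autoImplicit false

namespace Claimed.Agent.R286

open MeasureTheory Set Filter Topology Asymptotics

noncomputable section

/-- a function which is monotone on `[u0,1]` and agrees below `u0` with a bounded measurable function is bounded measurable -/
theorem mac_bm_glue {f p : ℝ → ℝ} {u0 : ℝ} (hu0 : u0 ≤ 1) (hf : MonotoneOn f (Icc u0 1)) (hp : MvBM p)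
    (hfp : ∀ u, u < u0 → f u = p u) : MvBM f := by
  have hg : MvBM (fun u => f (max u u0)) := MvBM.of_mono fun a ha b hb hab =>
    hf ⟨le_max_right _ _, max_le ha.2 hu0⟩ ⟨le_max_right _ _, max_le hb.2 hu0⟩ (max_le_max hab le_rfl)
  have h := (hg.ite u0).add (hp.sub (hp.ite u0))
  have e : f = fun u => (if u0 ≤ u then f (max u u0) else 0) + (p u - if u0 ≤ u then p u else 0) := by
    funext u
    by_cases hu : u0 ≤ u
    · simp [hu]
    · simp [hu, hfp u (not_le.1 hu)]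
  rw [e]
  exact h

/-- `L¹` norm from a crude bound on `[0,η]` and a fine bound on `(η,1)` -/
theorem mac_l1_small {f : ℝ → ℝ} (hf : MvBM f) {B η ε : ℝ} (hη0 : 0 ≤ η) (hη1 : η ≤ 1) (hε0 : 0 ≤ ε)
    (hB : ∀ u ∈ Icc (0:ℝ) 1, |f u| ≤ B) (hε : ∀ u, η < u → u < 1 → |f u| ≤ ε) :
    ∫ u in (0:ℝ)..1, |f u| ≤ η * B + ε := by
  have z0 : (0:ℝ) ∈ Icc (0:ℝ) 1 := ⟨le_rfl, zero_le_one⟩
  have z1 : (1:ℝ) ∈ Icc (0:ℝ) 1 := ⟨zero_le_one, le_rfl⟩
  have zη : η ∈ Icc (0:ℝ) 1 := ⟨hη0, hη1⟩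
  have ha : MvBM (fun u => |f u|) := hf.comp (φ := fun x => |x|) continuous_abs
  have e0 := intervalIntegral.integral_add_adjacent_intervals (ha.ii z0 zη) (ha.ii zη z1)
  have e1 : ∫ u in (0:ℝ)..η, |f u| ≤ ∫ _u in (0:ℝ)..η, B :=
    mv_int_mono ha (MvBM.const B) le_rfl hη0 hη1 (Eventually.of_forall fun u hu => hB u ⟨hu.1.le, hu.2.le.trans hη1⟩)
  have e2 : ∫ u in η..1, |f u| ≤ ∫ _u in η..1, ε :=
    mv_int_mono ha (MvBM.const ε) hη0 hη1 le_rfl (Eventually.of_forall fun u hu => hε u hu.1 hu.2)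
  rw [intervalIntegral.integral_const, smul_eq_mul] at e1 e2
  have e3 : (1 - η) * ε ≤ ε := by nlinarith
  linarith

/-- everything which holds eventually along the sequence, at one index -/
structure MacGd (fn : ℕ → (ℝ → ℝ) → (ℝ → ℝ) → ℝ) (c : P6C) (c1 T : ℝ) (D : P6D) (lam x : ℝ) (r : ℝ → ℝ) : Prop where
  m_eq : D.P.m = c.m
  ok : D.P.Ok c.cE c.D0
  dT : D.P.d ^ 2 ≤ D.T - c.ρ
  clk : P6Bd D.b0 D.h0 c.K
  mono : MonotoneOn D.b0 (Icc D.P.u0 1) ∧ MonotoneOn D.h0 (Icc D.P.u0 1)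
  lam_rng : 0 < lam ∧ lam ≤ D.P.d ^ 2
  fam : D.Fam lam
  min : D.IsMin fn lam r
  x_rng : c1 ≤ x ∧ x ≤ 1
  e_ge : c1 * x ^ 2 ≤ D.P.e lam x
  T_near : |D.T - T| ≤ c.ρ / 2

theorem mac_Pb_eq (D : P6D) (lam : ℝ) (q : CmQ D.P) : D.Pb lam q.r = q.bq lam D.b0 := rfl
theorem mac_Ph_eq (D : P6D) (lam : ℝ) (q : CmQ D.P) : D.Ph lam q.r = q.hq lam D.h0 := rfl
theorem mac_pen_eq (D : P6D) (lam : ℝ) (q : CmQ D.P) : D.pen lam q.r = q.pen lam := rfl

theorem MacGd.adm {fn : ℕ → (ℝ → ℝ) → (ℝ → ℝ) → ℝ} {c : P6C} {c1 T : ℝ} {D : P6D} {lam x : ℝ} {r : ℝ → ℝ} (g : MacGd fn c c1 T D lam x r) (q : CmQ D.P) :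
    MvClk (q.bq lam D.b0) ∧ MvClk (q.hq lam D.h0) := g.fam q.r ⟨q, rfl⟩

theorem MacGd.bm {fn : ℕ → (ℝ → ℝ) → (ℝ → ℝ) → ℝ} {c : P6C} {c1 T : ℝ} {D : P6D} {lam x : ℝ} {r : ℝ → ℝ} (g : MacGd fn c c1 T D lam x r) :
    MvBM D.b0 ∧ MvBM D.h0 := by
  obtain ⟨q, -⟩ := g.min.1
  have hu01 : D.P.u0 ≤ 1 := g.ok.u01.trans (by norm_num)
  refine ⟨mac_bm_glue hu01 g.mono.1 (g.adm q).1.bm fun u hu => ?_, mac_bm_glue hu01 g.mono.2 (g.adm q).2.bm fun u hu => ?_⟩
  · unfold CmQ.bq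
    rw [if_neg (not_le.2 hu)]
  · unfold CmQ.hq
    rw [if_neg (not_le.2 hu)]

theorem MacGd.lam_ge {fn : ℕ → (ℝ → ℝ) → (ℝ → ℝ) → ℝ} {c : P6C} {c1 T : ℝ} {D : P6D} {lam x : ℝ} {r : ℝ → ℝ} (hc1 : 0 < c1) (g : MacGd fn c c1 T D lam x r) :
    c1 ^ 3 ≤ lam := by
  have h1 := cm_e_le D.P g.lam_rng.1.le x
  have h2 := g.e_ge
  have h3 : c1 ^ 2 ≤ x ^ 2 := pow_le_pow_left₀ hc1.le g.x_rng.1 2
  have h4 : c1 * c1 ^ 2 ≤ c1 * x ^ 2 := mul_le_mul_of_nonneg_left h3 hc1.le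
  nlinarith

/-- the omitted mass tends to `0` -/
theorem mac_u0_tendsto {U : Ultrafilter ℕ} {c : P6C} (hc : c.Ok) {D : ℕ → P6D} (hS : P6Seq U c D) :
    Tendsto (fun k => (D k).P.u0) U (𝓝 0) := by
  have h1 : (fun k => (D k).P.a) =O[(U : Filter ℕ)] (fun _ => (1:ℝ)) := by
    refine IsBigO.of_bound c.D0 ?_
    filter_upwards [hS.ok] with k hk
    rw [Real.norm_eq_abs, abs_of_pos (cm_a_pos hc.cE_pos hk), norm_one, mul_one]
    exact (cm_a_le_d hc.cE_pos hk).trans hk.d1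
  exact (isLittleO_one_iff ℝ).1 (hS.u0_small.trans_isBigO h1)

/-- (4) of PE: the bare clocks converge in `L¹` to `(T, 0)` -/
theorem mac_l1_clocks {U : Ultrafilter ℕ} {c : P6C} (hc : c.Ok) {D : ℕ → P6D} (hS : P6Seq U c D) {T : ℝ}
    (hT : Tendsto (fun k => (D k).T) U (𝓝 T)) (hbm : ∀ᶠ k in U, MvBM (D k).b0 ∧ MvBM (D k).h0) :
    Tendsto (fun k => ∫ u in (0:ℝ)..1, |(D k).b0 u - T|) U (𝓝 0) ∧ Tendsto (fun k => ∫ u in (0:ℝ)..1, |(D k).h0 u|) U (𝓝 0) := by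
  have hu0 := mac_u0_tendsto hc hS
  have key : ∀ δ > 0, ∀ᶠ k in U, (∫ u in (0:ℝ)..1, |(D k).b0 u - T|) ≤ δ ∧ (∫ u in (0:ℝ)..1, |(D k).h0 u|) ≤ δ := by
    intro δ hδ
    set B : ℝ := c.K + |T| with hB
    have hB0 : 0 < B := add_pos_of_pos_of_nonneg hc.K_pos (abs_nonneg _)
    set η : ℝ := min (1 / 2) (δ / (2 * B)) with hη
    have hη0 : 0 < η := lt_min (by norm_num) (by positivity)
    have hη1 : η ≤ 1 := (min_le_left _ _).trans (by norm_num)
    have hηB : η * B ≤ δ / 2 := by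
      have : η * B ≤ δ / (2 * B) * B := mul_le_mul_of_nonneg_right (min_le_right _ _) hB0.le
      have e : δ / (2 * B) * B = δ / 2 := by field_simp
      linarith
    set κ : ℝ := max 1 (c.D0 / η) with hκ
    have hκ1 : 1 ≤ κ := le_max_left _ _
    have hκ0 : 0 < κ := lt_of_lt_of_le one_pos hκ1
    have hκD : c.D0 ≤ η * κ := by
      have : c.D0 / η ≤ κ := le_max_right _ _
      rw [div_le_iff₀ hη0] at this
      linarith
    have hTn : ∀ᶠ k in U, |(D k).T - T| ≤ δ / 4 := by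
      have := (Metric.tendsto_nhds.1 hT) (δ / 4) (by positivity)
      filter_upwards [this] with k hk
      rw [Real.dist_eq] at hk
      exact hk.le
    filter_upwards [hS.ep4 κ (δ / 4) hκ1 (by positivity), hS.ok, hS.clk, hbm, hTn, mvc_eventually_le hu0 hη0]
      with k h4 hok hclk hbmk hTk hu0k
    have fine : ∀ u, η < u → u < 1 → |(D k).b0 u - (D k).T| ≤ δ / 4 ∧ |(D k).h0 u| ≤ δ / 4 := by
      intro u hu hu1
      have hu0' : 0 < u := hη0.trans hu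
      have ha : (D k).P.a / κ ≤ u := by
        rw [div_le_iff₀ hκ0]
        have a1 : (D k).P.a ≤ c.D0 := (cm_a_le_d hc.cE_pos hok).trans hok.d1
        have a2 : η * κ ≤ u * κ := mul_le_mul_of_nonneg_right hu.le hκ0.le
        linarith
      have hz1 : u / κ ≤ u := div_le_self hu0'.le hκ1
      have hz2 : u ≤ κ * u := le_mul_of_one_le_left hu0'.le hκ1
      obtain ⟨p1, p2⟩ := h4 u u ha hu1.le (lt_of_le_of_lt hu0k hu) hu1 hz1 hz2
      have q2 : u ^ 2 ≤ 1 := pow_le_one₀ hu0'.le hu1.le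
      have q3 : u ^ 3 ≤ 1 := pow_le_one₀ hu0'.le hu1.le
      constructor
      · refine p1.trans ?_
        nlinarith
      · refine p2.trans ?_
        nlinarith
    constructor
    · have h1 := mac_l1_small (f := fun u => (D k).b0 u - T) (hbmk.1.sub (MvBM.const T)) (B := B) (η := η) (ε := δ / 2)
        hη0.le hη1 (by positivity) (fun u hu => (abs_sub _ _).trans (add_le_add (hclk u hu).1 le_rfl)) (fun u hu hu1 => by
          have := (fine u hu hu1).1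
          have t : |(D k).b0 u - T| ≤ |(D k).b0 u - (D k).T| + |(D k).T - T| := abs_sub_le _ _ _
          linarith)
      linarith
    · have h1 := mac_l1_small (f := (D k).h0) hbmk.2 (B := B) (η := η) (ε := δ / 2)
        hη0.le hη1 (by positivity) (fun u hu => (hclk u hu).2.trans (by linarith [abs_nonneg T])) (fun u hu hu1 => by
          have := (fine u hu hu1).2
          linarith)
      linarith
  exact ⟨mvc_tendsto_zero (fun k => intervalIntegral.integral_nonneg zero_le_one fun u _ => abs_nonneg _) fun δ hδ => (key δ hδ).mono fun _ h => h.1,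
    mvc_tendsto_zero (fun k => intervalIntegral.integral_nonneg zero_le_one fun u _ => abs_nonneg _) fun δ hδ => (key δ hδ).mono fun _ h => h.2⟩

/-- **PE Prop. 5.9 with the EXPLICIT limit `qT`**, for every pressure `fn` which agrees with `skCPr · 1` on admissible clocks (users: PE Sec. 6 with `fn = skCPr · 1`; LL 07 `BcpMacQ` with `fn = skPf · 1`, BRIDGE-1).      TEX[PE:prof:macro-profile] -/
theorem mac_p6_macro_q {c : P6C} (hc : c.Ok) {cT CT : ℝ} {qT : ℝ → ℝ} (hq : MacPar c.Tinf qT cT CT)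
    {fn : ℕ → (ℝ → ℝ) → (ℝ → ℝ) → ℝ} (hfn : ∀ n b h, 0 < n → P6Adm b h → fn n b h = skCPr n 1 b h)
    (U : Ultrafilter ℕ) (D : ℕ → P6D) (lam x : ℕ → ℝ) (r : ℕ → ℝ → ℝ) (c1 : ℝ) (hc1 : 0 < c1) (hS : P6Seq U c D)
    (hlam : ∀ᶠ k in U, 0 < lam k ∧ lam k ≤ (D k).P.d ^ 2) (hfam : ∀ᶠ k in U, (D k).Fam (lam k)) (hmin : ∀ᶠ k in U, (D k).IsMin fn (lam k) (r k))
    (hx : ∀ᶠ k in U, c1 ≤ x k ∧ x k ≤ 1) (he : ∀ᶠ k in U, c1 * x k ^ 2 ≤ (D k).P.e (lam k) (x k)) :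
    ∀ v : ℝ, 0 < v → v < 1 → Tendsto (fun k => r k v) U (𝓝 (qT v)) := by
  set T : ℝ := c.Tinf with hTdef
  have hTl : Tendsto (fun k => (D k).T) U (𝓝 T) := hS.T_lim
  have hT0 : 0 < T := by linarith [hc.T_gt]
  have hTn : ∀ᶠ k in U, |(D k).T - T| ≤ c.ρ / 2 := by
    have := (Metric.tendsto_nhds.1 hTl) (c.ρ / 2) (half_pos hc.ρ_pos)
    filter_upwards [this] with k hk
    rw [Real.dist_eq] at hk
    exact hk.le
  have hG : ∀ᶠ k in U, MacGd fn c c1 T (D k) (lam k) (x k) (r k) := by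
    filter_upwards [hS.m_eq, hS.ok, hS.dT, hS.clk, hS.mono, hlam, hfam, hmin, hx, he, hTn]
      with k a1 a2 a3 a4 a5 a6 a7 a8 a9 a10 a11
    exact ⟨a1, a2, a3, a4, a5, a6, a7, a8, a9, a10, a11⟩
  obtain ⟨hb0, hh0⟩ := mac_l1_clocks hc hS hTl (hG.mono fun k g => g.bm)
  have hu0 := mac_u0_tendsto hc hS
  -- the subtype of the good indices
  let ι : Type := {k : ℕ // MacGd fn c c1 T (D k) (lam k) (x k) (r k)}
  let l : Filter ι := comap Subtype.val (U : Filter ℕ)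
  have hrange : range (Subtype.val : ι → ℕ) ∈ (U : Filter ℕ) := by
    rw [Subtype.range_coe_subtype]
    exact hG
  have tr : ∀ {β : Type} {g : Filter β} {m : ℕ → β}, Tendsto m U g → Tendsto (fun k : ι => m k.1) l g :=
    fun h => h.comp tendsto_comap
  set cc : ℝ := min (c1 ^ 3) (c.ρ / 2) with hcc
  have hcc0 : 0 < cc := lt_min (by positivity) (half_pos hc.ρ_pos)
  have hn : Tendsto (fun k => (D k).P.n) U atTop := tendsto_natCast_atTop_iff.1 hS.n_top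
  have hqs : ∀ k : ι, ∃ q : CmQ (D k.1).P, q.r = r k.1 := fun k => k.2.min.1
  choose q hqr using hqs
  have hn0 : ∀ k : ι, 0 < (D k.1).P.n := fun k => lt_of_lt_of_le (by norm_num) k.2.ok.n3
  have main := mvc_inst l macSpin (T := T) (c := cc) (cE := c.cE) (D0 := c.D0) (m0 := c.m) hT0 hcc0 hc.cE_pos hc.m_pos
    qT hq.qt hq.min hq.wp (fun k : ι => (D k.1).P) (fun k => k.2.ok) (fun k => k.2.m_eq.ge) (tr hn)
    (fun k => macI (D k.1).P.n) (fun k K hK => macI_spin _ K hK)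
    (fun k => lam k.1) (fun k => (min_le_left _ _).trans (k.2.lam_ge hc1)) (fun k => k.2.lam_rng.2)
    (fun k => by
      have h1 := k.2.dT
      have h2 := (abs_le.1 k.2.T_near).2
      have h3 : cc ≤ c.ρ / 2 := min_le_right _ _
      linarith)
    (fun k => (D k.1).b0) (fun k => (D k.1).h0)
    (fun k => k.2.bm.1.ii ⟨le_rfl, zero_le_one⟩ ⟨zero_le_one, le_rfl⟩) (fun k => k.2.bm.2.ii ⟨le_rfl, zero_le_one⟩ ⟨zero_le_one, le_rfl⟩)
    (tr hb0) (tr hh0) (tr hu0) (fun k q' => k.2.adm q') q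
    (fun k q' => by
      have h1 := k.2.min.2 q'.r ⟨q', rfl⟩
      rw [← hqr k] at h1
      unfold P6D.obj at h1
      rw [mac_Pb_eq, mac_Ph_eq, mac_pen_eq, mac_Pb_eq, mac_Ph_eq, mac_pen_eq, hfn _ _ _ (hn0 k) (k.2.adm (q k)),
        hfn _ _ _ (hn0 k) (k.2.adm q')] at h1
      rw [macI_f (hn0 k) (k.2.adm (q k)).1 (k.2.adm (q k)).2, macI_f (hn0 k) (k.2.adm q').1 (k.2.adm q').2]
      exact h1)
  intro v hv0 hv1
  have loc := mvc_locunif l qT hq.qt hq.cont (fun k : ι => mvcExt (D k.1).P.u0 (q k).r)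
    (fun k => mvcExt_qt hc.cE_pos k.2.ok (q k)) main (a := v) (b := v) hv0 le_rfl hv1
  rw [← tendsto_comap'_iff (i := (Subtype.val : ι → ℕ)) hrange, Metric.tendsto_nhds]
  intro ε hε
  filter_upwards [loc (ε / 2) (half_pos hε), mvc_eventually_le (tr hu0) hv0] with k hk hk0
  have hk0' : (D k.1).P.u0 ≤ v := hk0
  have e : mvcExt (D k.1).P.u0 (q k).r v = r k.1 v := by
    unfold mvcExt
    rw [if_pos hk0', hqr k]
  have h1 : |mvcExt (D k.1).P.u0 (q k).r v - qT v| ≤ ε / 2 := hk v ⟨le_rfl, le_rfl⟩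
  rw [e] at h1
  rw [Function.comp_apply, Real.dist_eq]
  linarith

/-- **EXIT: the import `P6ImpMacro` of PE Sec. 6** (PE Prop. 5.9 with the two-sided bound of Lemma 5.8), from the contract of unit PAR at `T = c.Tinf`.      TEX[PE:prof:macro-profile] -/
theorem mac_p6_macro {c : P6C} (hc : c.Ok) {cT CT : ℝ} {qT : ℝ → ℝ} (hq : MacPar c.Tinf qT cT CT) :
    P6ImpMacro (fun n => skCPr n 1) c cT CT := fun U D lam x r c1 hc1 hS hlam hfam hmin hx he =>
  ⟨qT, hq.two, mac_p6_macro_q hc hq (fun _ _ _ _ _ => rfl) U D lam x r c1 hc1 hS hlam hfam hmin hx he⟩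

end

end Claimed.Agent.R286
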