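import Mathlib

/-! # Row 286 (S0533), unit MAC: file `Macro/Iface.lean` = merge of Iface, Basic, Approx (file cap, lead 02:45Z).      owner helper67 -/

/-!
# Row 286 (S0533), PE section 5.4-5.6 (profile.tex l.570-913), package P11: THE MACROSCOPIC VARIATIONAL LIMIT.   (architect helper67; prefix `mv`)

## File 1: the interface to the planted calculus (PE eq. (1), Lemma 2.1-2.3, Prop. 2.14) and the trial class.

Everything P11 needs of the hierarchy at size `n` is packed in the structure `MvIface n`: the self-corrected pressure `f b h` and five deterministic functions of the mass `u ∈ (0,1)`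
  `S u = E|X_u|²`, `B u = E‖E[yyᵀ|F_u]‖²`, `H2 u = E tr H_u²`, `C2 u = E tr C_u²`, `Vx u = Var |X_u|²`
for EVERY pair of clocks (`MvClk`: nonnegative, nondecreasing on `[0,1]`; only the values a.e. on `(0,1)` matter).
-/

set_option autoImplicit false

namespace Claimed.Agent.R286

open MeasureTheory Set Filter Topology

noncomputable section

/-- a clock: nonnegative and nondecreasing on `[0,1]` -/
def MvClk (c : ℝ → ℝ) : Prop := MonotoneOn c (Icc (0:ℝ) 1) ∧ 0 ≤ c 0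

/-- the interface (I0)-(I4) of `notes/R286/P11_helper67.md` -/
structure MvIface (n : ℕ) where
  /-- self-corrected pressure `f_n(b,h)` -/
  f : (ℝ → ℝ) → (ℝ → ℝ) → ℝ
  S : (ℝ → ℝ) → (ℝ → ℝ) → ℝ → ℝ
  B : (ℝ → ℝ) → (ℝ → ℝ) → ℝ → ℝ
  H2 : (ℝ → ℝ) → (ℝ → ℝ) → ℝ → ℝ
  C2 : (ℝ → ℝ) → (ℝ → ℝ) → ℝ → ℝ
  Vx : (ℝ → ℝ) → (ℝ → ℝ) → ℝ → ℝ
  /-- (I0) PE Lemma 2.2: `L¹`-Lipschitz -/
  lip : ∀ b h b' h', MvClk b → MvClk h → MvClk b' → MvClk h' →
    |f b h - f b' h'| ≤ 1 / 4 * (∫ u in (0:ℝ)..1, |b u - b' u|) + 1 / 2 * ∫ u in (0:ℝ)..1, |h u - h' u|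
  /-- (I1) PE (1) line 1: right derivative at the base point of an affine segment of clock pairs -/
  deriv : ∀ b h b' h', MvClk b → MvClk h → MvClk b' → MvClk h' →
    HasDerivWithinAt (fun θ : ℝ => f (fun u => b u + θ * (b' u - b u)) (fun u => h u + θ * (h' u - h u)))
      (-(1 / 4) * (∫ u in (0:ℝ)..1, B b h u * (b' u - b u)) - 1 / 2 * ∫ u in (0:ℝ)..1, S b h u * (h' u - h u)) (Ici 0) 0
  S_mono : ∀ b h, MvClk b → MvClk h → MonotoneOn (S b h) (Icc (0:ℝ) 1)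
  S_mem : ∀ b h, MvClk b → MvClk h → ∀ u ∈ Icc (0:ℝ) 1, S b h u ∈ Icc (0:ℝ) 1
  B_mono : ∀ b h, MvClk b → MvClk h → MonotoneOn (B b h) (Icc (0:ℝ) 1)
  B_mem : ∀ b h, MvClk b → MvClk h → ∀ u ∈ Icc (0:ℝ) 1, B b h u ∈ Icc (0:ℝ) 1
  H2_meas : ∀ b h, MvClk b → MvClk h → AEStronglyMeasurable (H2 b h) (volume.restrict (Ioc (0:ℝ) 1))
  H2_mem : ∀ b h, MvClk b → MvClk h → ∀ u ∈ Icc (0:ℝ) 1, H2 b h u ∈ Icc (0:ℝ) 1
  C2_meas : ∀ b h, MvClk b → MvClk h → AEStronglyMeasurable (C2 b h) (volume.restrict (Ioc (0:ℝ) 1))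
  C2_mem : ∀ b h, MvClk b → MvClk h → ∀ u ∈ Icc (0:ℝ) 1, C2 b h u ∈ Icc (0:ℝ) 1
  Vx_meas : ∀ b h, MvClk b → MvClk h → AEStronglyMeasurable (Vx b h) (volume.restrict (Ioc (0:ℝ) 1))
  Vx_mem : ∀ b h, MvClk b → MvClk h → ∀ u ∈ Icc (0:ℝ) 1, Vx b h u ∈ Icc (0:ℝ) 1
  /-- (I2) PE (1) line 2 (susceptibility), integrated: `S(1-) - S(0+) ≤ 1` -/
  susc : ∀ b h, MvClk b → MvClk h → ∀ γ : ℝ, 0 ≤ γ →
    (∀ u v : ℝ, 0 ≤ u → u ≤ v → v ≤ 1 → γ * (v - u) ≤ h v - h u) → (n : ℝ) * γ * (∫ u in (0:ℝ)..1, H2 b h u) ≤ 1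
  /-- (I3) PE Lemma 2.1 -/
  dsq : ∀ b h, MvClk b → MvClk h → ∀ᵐ u ∂(volume.restrict (Ioc (0:ℝ) 1)),
    B b h u - S b h u ^ 2 ≤ Vx b h u + 2 * Real.sqrt (C2 b h u) + C2 b h u
  hc : ∀ b h, MvClk b → MvClk h → ∀ᵐ u ∂(volume.restrict (Ioc (0:ℝ) 1)), u ^ 2 * C2 b h u ≤ H2 b h u
  /-- `D_u² = B_u - S_u² ≥ 0` (variance of the overlap of two continuations split at `u`) -/
  dnn : ∀ b h, MvClk b → MvClk h → ∀ᵐ u ∂(volume.restrict (Ioc (0:ℝ) 1)), S b h u ^ 2 ≤ B b h u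
  /-- (I4) PE (1) line 3 (pinned Brascamp-Lieb) + the two-sided martingale bracket of profile.tex l.659-684 -/
  conc : ∀ b h, MvClk b → MvClk h → ∀ ρ : ℝ, 0 < ρ → ∀ᵐ u ∂(volume.restrict (Ioo ρ (1 - ρ))),
    Real.sqrt (Vx b h u) ≤ (S b h (u + ρ) - S b h (u - ρ)) + 4 / ρ * Real.sqrt (∫ v in (u - ρ)..(u + ρ), H2 b h v / v)

/-- bounded measurable on `[0,1]`: the class of integrands of this package -/
def MvBM (g : ℝ → ℝ) : Prop :=
  AEStronglyMeasurable g (volume.restrict (Ioc (0:ℝ) 1)) ∧ ∃ C : ℝ, ∀ u ∈ Icc (0:ℝ) 1, |g u| ≤ C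

/-! ## the trial class: piecewise linear quantiles on the grid `1/N`, parametrised by their increments -/

/-- the ramp `max 0 (min x 1)` -/
def mvRamp (x : ℝ) : ℝ := max 0 (min x 1)

/-- the piecewise linear function with increments `d j` on the cells `[j/N,(j+1)/N]` -/
def mvZ {N : ℕ} (d : Fin N → ℝ) (u : ℝ) : ℝ := ∑ j : Fin N, d j * mvRamp ((N : ℝ) * u - (j : ℝ))

/-- the compact convex parameter set: increments `≥ lo/N`, total increment `1` -/
def mvK (N : ℕ) (lo : ℝ) : Set (Fin N → ℝ) := {d | (∀ j, lo / (N : ℝ) ≤ d j) ∧ ∑ j, d j = 1}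

/-- the scalar objective `G(z) = f_spin(h + b z) + ¼ ∫ b z²` -/
def mvG (fspin : (ℝ → ℝ) → ℝ) (b h z : ℝ → ℝ) : ℝ :=
  fspin (fun u => h u + b u * z u) + 1 / 4 * ∫ u in (0:ℝ)..1, b u * z u ^ 2

/-- a quantile: a clock with values in `[0,1]` -/
def MvQt (z : ℝ → ℝ) : Prop := MvClk z ∧ z 1 ≤ 1

/-- the error term of the quantitative macroscopic limit -/
def mvErr (n : ℕ) (N : ℕ) (lo bs ε ρ : ℝ) : ℝ :=
  3 * ε + 2 / (N : ℝ) + 2 * lo ^ 2 + 6 * ρ + 32 / (ρ ^ 2 * ((n : ℝ) * (ε * bs * lo)) * ε)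
    + 1 / ((n : ℝ) * (ε * bs * lo) * ε ^ 2) + 2 * Real.sqrt (1 / ((n : ℝ) * (ε * bs * lo) * ε ^ 2))

end

end Claimed.Agent.R286


/-!
# Row 286, P11 (PE Lemma 5.7), file 2: toolbox (clocks, bounded measurable integrands, the trial class).   prefix `mv`
(architect helper67; proofs helper4)
-/

set_option autoImplicit false

namespace Claimed.Agent.R286

open MeasureTheory Set Filter Topology

noncomputable section

/-! ## clocks -/

theorem MvClk.nonneg {c : ℝ → ℝ} (h : MvClk c) {u : ℝ} (hu : u ∈ Icc (0:ℝ) 1) : 0 ≤ c u :=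
  h.2.trans (h.1 (left_mem_Icc.2 zero_le_one) hu hu.1)
theorem MvClk.le_one {c : ℝ → ℝ} (h : MvClk c) {u : ℝ} (hu : u ∈ Icc (0:ℝ) 1) : c u ≤ c 1 :=
  h.1 hu (right_mem_Icc.2 zero_le_one) hu.2
theorem MvClk.const {c : ℝ} (hc : 0 ≤ c) : MvClk (fun _ => c) := ⟨monotoneOn_const, hc⟩
theorem MvClk.add {a b : ℝ → ℝ} (ha : MvClk a) (hb : MvClk b) : MvClk (fun u => a u + b u) :=
  ⟨ha.1.add hb.1, add_nonneg ha.2 hb.2⟩
theorem MvClk.mul {a b : ℝ → ℝ} (ha : MvClk a) (hb : MvClk b) : MvClk (fun u => a u * b u) :=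
  ⟨fun _ hx _ hy hxy => mul_le_mul (ha.1 hx hy hxy) (hb.1 hx hy hxy) (hb.nonneg hx) (ha.nonneg hy), mul_nonneg ha.2 hb.2⟩
theorem MvClk.const_mul {a : ℝ → ℝ} (ha : MvClk a) {c : ℝ} (hc : 0 ≤ c) : MvClk (fun u => c * a u) :=
  ⟨fun _ hx _ hy hxy => mul_le_mul_of_nonneg_left (ha.1 hx hy hxy) hc, mul_nonneg hc ha.2⟩
theorem MvClk.seg {a b : ℝ → ℝ} (ha : MvClk a) (hb : MvClk b) {θ : ℝ} (hθ : θ ∈ Icc (0:ℝ) 1) :
    MvClk (fun u => a u + θ * (b u - a u)) := by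
  have h1 : 0 ≤ 1 - θ := by linarith [hθ.2]
  have h := (ha.const_mul h1).add (hb.const_mul hθ.1)
  have e : (fun u => a u + θ * (b u - a u)) = fun u => (1 - θ) * a u + θ * b u := by
    funext u
    ring
  rw [e]
  exact h
theorem MvQt.mem {z : ℝ → ℝ} (hz : MvQt z) {u : ℝ} (hu : u ∈ Icc (0:ℝ) 1) : z u ∈ Icc (0:ℝ) 1 :=
  ⟨hz.1.nonneg hu, (hz.1.le_one hu).trans hz.2⟩

/-! ## bounded measurable integrands -/

theorem MvBM.ii {g : ℝ → ℝ} (hg : MvBM g) {a b : ℝ} (ha : a ∈ Icc (0:ℝ) 1) (hb : b ∈ Icc (0:ℝ) 1) :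
    IntervalIntegrable g volume a b := by
  obtain ⟨hm, C, hC⟩ := hg
  have hsub : Set.uIoc a b ⊆ Ioc (0:ℝ) 1 := by
    intro x hx
    have hx' : min a b < x ∧ x ≤ max a b := hx
    exact ⟨lt_of_le_of_lt (le_min ha.1 hb.1) hx'.1, hx'.2.trans (max_le ha.2 hb.2)⟩
  rw [intervalIntegrable_iff]
  refine IntegrableOn.of_bound ?_ (hm.mono_measure (Measure.restrict_mono hsub le_rfl)) C ?_
  · exact lt_of_le_of_lt (measure_mono hsub) (by rw [Real.volume_Ioc]; exact ENNReal.ofReal_lt_top)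
  · refine (ae_restrict_iff' measurableSet_uIoc).2 (Eventually.of_forall fun x hx => ?_)
    exact hC x (Ioc_subset_Icc_self (hsub hx))
theorem MvBM.const (c : ℝ) : MvBM (fun _ => c) := ⟨aestronglyMeasurable_const, |c|, fun _ _ => le_rfl⟩
theorem MvBM.add {f g : ℝ → ℝ} (hf : MvBM f) (hg : MvBM g) : MvBM (fun u => f u + g u) := by
  obtain ⟨hf1, C, hC⟩ := hf
  obtain ⟨hg1, C', hC'⟩ := hg
  exact ⟨hf1.add hg1, C + C', fun u hu => (abs_add_le _ _).trans (add_le_add (hC u hu) (hC' u hu))⟩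
theorem MvBM.sub {f g : ℝ → ℝ} (hf : MvBM f) (hg : MvBM g) : MvBM (fun u => f u - g u) := by
  obtain ⟨hf1, C, hC⟩ := hf
  obtain ⟨hg1, C', hC'⟩ := hg
  exact ⟨hf1.sub hg1, C + C', fun u hu => (abs_sub _ _).trans (add_le_add (hC u hu) (hC' u hu))⟩
theorem MvBM.mul {f g : ℝ → ℝ} (hf : MvBM f) (hg : MvBM g) : MvBM (fun u => f u * g u) := by
  obtain ⟨hf1, C, hC⟩ := hf
  obtain ⟨hg1, C', hC'⟩ := hg
  refine ⟨hf1.mul hg1, C * C', fun u hu => ?_⟩
  rw [abs_mul]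
  exact mul_le_mul (hC u hu) (hC' u hu) (abs_nonneg _) ((abs_nonneg _).trans (hC u hu))
theorem MvBM.comp {g : ℝ → ℝ} (hg : MvBM g) {φ : ℝ → ℝ} (hφ : Continuous φ) : MvBM (fun u => φ (g u)) := by
  obtain ⟨hg1, C, hC⟩ := hg
  obtain ⟨K, hK⟩ := (isCompact_Icc (a := -C) (b := C)).exists_bound_of_continuousOn hφ.continuousOn
  exact ⟨hφ.comp_aestronglyMeasurable hg1, K, fun u hu => hK _ (abs_le.1 (hC u hu))⟩
theorem MvBM.of_mono {g : ℝ → ℝ} (h : MonotoneOn g (Icc (0:ℝ) 1)) : MvBM g := by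
  refine ⟨((aemeasurable_restrict_of_monotoneOn measurableSet_Icc h).mono_measure
    (Measure.restrict_mono Ioc_subset_Icc_self le_rfl)).aestronglyMeasurable, max |g 0| |g 1|, fun u hu => ?_⟩
  have h0 := h (left_mem_Icc.2 zero_le_one) hu hu.1
  have h1 := h hu (right_mem_Icc.2 zero_le_one) hu.2
  exact abs_le_max_abs_abs h0 h1
theorem MvBM.of_anti {g : ℝ → ℝ} (h : AntitoneOn g (Icc (0:ℝ) 1)) : MvBM g := by
  refine ⟨((aemeasurable_restrict_of_antitoneOn measurableSet_Icc h).mono_measure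
    (Measure.restrict_mono Ioc_subset_Icc_self le_rfl)).aestronglyMeasurable, max |g 1| |g 0|, fun u hu => ?_⟩
  have h0 := h (left_mem_Icc.2 zero_le_one) hu hu.1
  have h1 := h hu (right_mem_Icc.2 zero_le_one) hu.2
  exact abs_le_max_abs_abs h1 h0
theorem MvBM.of_cont {g : ℝ → ℝ} (h : ContinuousOn g (Icc (0:ℝ) 1)) : MvBM g := by
  obtain ⟨K, hK⟩ := (isCompact_Icc (a := (0:ℝ)) (b := 1)).exists_bound_of_continuousOn h
  exact ⟨(h.aestronglyMeasurable measurableSet_Icc).mono_measure (Measure.restrict_mono Ioc_subset_Icc_self le_rfl), K,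
    fun u hu => hK u hu⟩
theorem MvBM.ite {g : ℝ → ℝ} (hg : MvBM g) (u0 : ℝ) : MvBM (fun u => if u0 ≤ u then g u else 0) := by
  obtain ⟨hg1, C, hC⟩ := hg
  refine ⟨?_, C, fun u hu => ?_⟩
  · have := hg1.indicator (measurableSet_Ici (a := u0))
    refine this.congr (Eventually.of_forall fun u => ?_)
    simp [indicator, mem_Ici]
  · show |if u0 ≤ u then g u else 0| ≤ C
    split_ifs
    · exact hC u hu
    · rw [abs_zero]
      exact (abs_nonneg _).trans (hC u hu)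
theorem MvBM.of_meas {g : ℝ → ℝ} (h : AEStronglyMeasurable g (volume.restrict (Ioc (0:ℝ) 1)))
    (h1 : ∀ u ∈ Icc (0:ℝ) 1, g u ∈ Icc (0:ℝ) 1) : MvBM g :=
  ⟨h, 1, fun u hu => abs_le.2 ⟨by linarith [(h1 u hu).1], (h1 u hu).2⟩⟩
theorem MvClk.bm {c : ℝ → ℝ} (h : MvClk c) : MvBM c := MvBM.of_mono h.1
/-- monotonicity of the integral over `[a,b] ⊆ [0,1]` from an a.e. inequality -/
theorem mv_int_mono {f g : ℝ → ℝ} (hf : MvBM f) (hg : MvBM g) {a b : ℝ} (ha : 0 ≤ a) (hab : a ≤ b) (hb : b ≤ 1)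
    (h : ∀ᵐ u ∂(volume.restrict (Ioc (0:ℝ) 1)), u ∈ Ioo a b → f u ≤ g u) : ∫ u in a..b, f u ≤ ∫ u in a..b, g u := by
  have ha' : a ∈ Icc (0:ℝ) 1 := ⟨ha, hab.trans hb⟩
  have hb' : b ∈ Icc (0:ℝ) 1 := ⟨ha.trans hab, hb⟩
  refine intervalIntegral.integral_mono_ae_restrict hab (hf.ii ha' hb') (hg.ii ha' hb') ?_
  refine (ae_restrict_iff' measurableSet_Icc).2 ?_
  have h1 := (ae_restrict_iff' measurableSet_Ioc).1 h
  have h2 : ∀ᵐ u : ℝ, u ∉ ({a, b} : Set ℝ) := (Set.toFinite ({a, b} : Set ℝ)).countable.ae_notMem volume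
  filter_upwards [h1, h2] with u hu hne huab
  have hua : u ≠ a := fun e => hne (by simp [e])
  have hub : u ≠ b := fun e => hne (by simp [e])
  have hlt : a < u := lt_of_le_of_ne huab.1 (Ne.symm hua)
  have hlt' : u < b := lt_of_le_of_ne huab.2 hub
  exact hu ⟨lt_of_le_of_lt ha hlt, hlt'.le.trans hb⟩ ⟨hlt, hlt'⟩

/-! ## the trial class -/

theorem mvRamp_mono : Monotone mvRamp := fun _ _ h => max_le_max le_rfl (min_le_min h le_rfl)
theorem mvRamp_mem (x : ℝ) : mvRamp x ∈ Icc (0:ℝ) 1 :=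
  ⟨le_max_left _ _, max_le zero_le_one (min_le_right _ _)⟩
theorem mvRamp_cont : Continuous mvRamp := by
  unfold mvRamp
  fun_prop
theorem mvRamp_sum (M : ℕ) (x : ℝ) : ∑ j : Fin M, mvRamp (x - (j : ℝ)) = max 0 (min x (M : ℝ)) := by
  induction M with
  | zero =>
    simp
  | succ M ih =>
    rw [Fin.sum_univ_castSucc]
    simp only [Fin.val_castSucc, Fin.val_last]
    rw [ih]
    unfold mvRamp
    have hM : (0:ℝ) ≤ M := Nat.cast_nonneg M
    push_cast
    rcases le_total x M with h1 | h1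
    · rw [min_eq_left h1, min_eq_left (by linarith : x - M ≤ 1), max_eq_left (by linarith : x - (M:ℝ) ≤ 0),
        min_eq_left (by linarith : x ≤ (M:ℝ) + 1), add_zero]
    · rw [min_eq_right h1, max_eq_right hM]
      rcases le_total x (M + 1) with h2 | h2
      · rw [min_eq_left (by linarith : x - M ≤ 1), max_eq_right (by linarith : (0:ℝ) ≤ x - M), min_eq_left h2,
          max_eq_right (by linarith : (0:ℝ) ≤ x)]
        ring
      · rw [min_eq_right (by linarith : (1:ℝ) ≤ x - M), max_eq_right zero_le_one, min_eq_right h2,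
          max_eq_right (by linarith : (0:ℝ) ≤ (M:ℝ) + 1)]
theorem mvZ_zero {N : ℕ} (d : Fin N → ℝ) : mvZ d 0 = 0 := by
  unfold mvZ
  refine Finset.sum_eq_zero fun j _ => ?_
  have hj : (0:ℝ) ≤ (j : ℕ) := Nat.cast_nonneg _
  have : mvRamp ((N : ℝ) * 0 - (j : ℝ)) = 0 := by
    unfold mvRamp
    rw [min_eq_left (by linarith), max_eq_left (by linarith)]
  rw [this, mul_zero]
theorem mvZ_one {N : ℕ} (d : Fin N → ℝ) : mvZ d 1 = ∑ j, d j := by
  unfold mvZ
  refine Finset.sum_congr rfl fun j _ => ?_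
  have hj : ((j : ℕ) : ℝ) + 1 ≤ N := by exact_mod_cast j.2
  have : mvRamp ((N : ℝ) * 1 - (j : ℝ)) = 1 := by
    unfold mvRamp
    rw [min_eq_right (by linarith), max_eq_right zero_le_one]
  rw [this, mul_one]
theorem mvZ_cont {N : ℕ} (d : Fin N → ℝ) : Continuous (mvZ d) := by
  unfold mvZ
  refine continuous_finsetSum _ fun j _ => continuous_const.mul (mvRamp_cont.comp (by fun_prop))
theorem mvZ_lin {N : ℕ} (d d' : Fin N → ℝ) (θ u : ℝ) :
    mvZ (fun j => d j + θ * (d' j - d j)) u = mvZ d u + θ * (mvZ d' u - mvZ d u) := by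
  unfold mvZ
  rw [← Finset.sum_sub_distrib, Finset.mul_sum, ← Finset.sum_add_distrib]
  exact Finset.sum_congr rfl fun j _ => by ring
theorem mvZ_dist {N : ℕ} (d d' : Fin N → ℝ) (u : ℝ) : |mvZ d u - mvZ d' u| ≤ ∑ j, |d j - d' j| := by
  unfold mvZ
  rw [← Finset.sum_sub_distrib]
  refine (Finset.abs_sum_le_sum_abs _ _).trans (Finset.sum_le_sum fun j _ => ?_)
  rw [← sub_mul, abs_mul]
  have h := mvRamp_mem ((N : ℝ) * u - (j : ℝ))
  calc |d j - d' j| * |mvRamp ((N : ℝ) * u - (j : ℝ))| ≤ |d j - d' j| * 1 := by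
        gcongr
        exact abs_le.2 ⟨by linarith [h.1], h.2⟩
    _ = |d j - d' j| := mul_one _
theorem mvZ_slope {N : ℕ} (hN : 0 < N) {lo : ℝ} {d : Fin N → ℝ} (hd : d ∈ mvK N lo) {u v : ℝ}
    (hu : 0 ≤ u) (huv : u ≤ v) (hv : v ≤ 1) : lo * (v - u) ≤ mvZ d v - mvZ d u := by
  have hN' : (0:ℝ) < N := by exact_mod_cast hN
  have hs : ∀ w : ℝ, 0 ≤ w → w ≤ 1 → ∑ j : Fin N, mvRamp ((N : ℝ) * w - (j : ℝ)) = N * w := by
    intro w h0 h1
    rw [mvRamp_sum, min_eq_left (by nlinarith), max_eq_right (by positivity)]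
  unfold mvZ
  rw [← Finset.sum_sub_distrib]
  calc lo * (v - u) = ∑ j : Fin N, lo / N * (mvRamp ((N : ℝ) * v - (j : ℝ)) - mvRamp ((N : ℝ) * u - (j : ℝ))) := by
        rw [← Finset.mul_sum, Finset.sum_sub_distrib, hs v (hu.trans huv) hv, hs u hu (huv.trans hv)]
        field_simp
    _ ≤ ∑ j : Fin N, (d j * mvRamp ((N : ℝ) * v - (j : ℝ)) - d j * mvRamp ((N : ℝ) * u - (j : ℝ))) := by
        refine Finset.sum_le_sum fun j _ => ?_
        rw [← mul_sub]
        refine mul_le_mul_of_nonneg_right (hd.1 j) (sub_nonneg.2 (mvRamp_mono ?_))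
        have : (N : ℝ) * u ≤ N * v := by gcongr
        linarith
theorem mvZ_qt {N : ℕ} (hN : 0 < N) {lo : ℝ} (hlo : 0 ≤ lo) {d : Fin N → ℝ} (hd : d ∈ mvK N lo) : MvQt (mvZ d) := by
  refine ⟨⟨fun x hx y hy hxy => ?_, (mvZ_zero d).ge⟩, ?_⟩
  · have := mvZ_slope hN hd hx.1 hxy hy.2
    have h2 : 0 ≤ lo * (y - x) := mul_nonneg hlo (sub_nonneg.2 hxy)
    linarith
  · rw [mvZ_one, hd.2]
theorem mvK_compact (N : ℕ) (lo : ℝ) (hlo : 0 ≤ lo) : IsCompact (mvK N lo) := by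
  have hcl : IsClosed (mvK N lo) := by
    have e : mvK N lo = (⋂ j : Fin N, {d : Fin N → ℝ | lo / (N : ℝ) ≤ d j}) ∩ {d | ∑ j, d j = 1} := by
      ext d
      simp [mvK]
    rw [e]
    refine (isClosed_iInter fun j => isClosed_le continuous_const (continuous_apply j)).inter ?_
    exact isClosed_eq (continuous_finsetSum _ fun j _ => continuous_apply j) continuous_const
  refine (isCompact_Icc (a := (fun _ => 0 : Fin N → ℝ)) (b := fun _ => 1)).of_isClosed_subset hcl ?_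
  intro d hd
  have h0 : ∀ j, 0 ≤ d j := fun j => le_trans (by positivity) (hd.1 j)
  refine ⟨fun j => h0 j, fun j => ?_⟩
  rw [← hd.2]
  exact Finset.single_le_sum (fun i _ => h0 i) (Finset.mem_univ j)
theorem mvK_seg {N : ℕ} {lo : ℝ} {d d' : Fin N → ℝ} (hd : d ∈ mvK N lo) (hd' : d' ∈ mvK N lo) {θ : ℝ} (hθ : θ ∈ Icc (0:ℝ) 1) :
    (fun j => d j + θ * (d' j - d j)) ∈ mvK N lo := by
  refine ⟨fun j => ?_, ?_⟩
  · have h1 := hd.1 j
    have h2 := hd'.1 j
    have h3 : 0 ≤ 1 - θ := by linarith [hθ.2]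
    have : d j + θ * (d' j - d j) = (1 - θ) * d j + θ * d' j := by ring
    show lo / (N : ℝ) ≤ d j + θ * (d' j - d j)
    rw [this]
    have e : lo / (N : ℝ) = (1 - θ) * (lo / N) + θ * (lo / N) := by ring
    rw [e]
    exact add_le_add (mul_le_mul_of_nonneg_left h1 h3) (mul_le_mul_of_nonneg_left h2 hθ.1)
  · rw [Finset.sum_add_distrib, ← Finset.mul_sum, Finset.sum_sub_distrib, hd.2, hd'.2]
    ring
theorem mvK_nonempty {N : ℕ} (hN : 0 < N) {lo : ℝ} (hlo : lo ≤ 1) : (mvK N lo).Nonempty := by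
  have hN' : (0:ℝ) < N := by exact_mod_cast hN
  refine ⟨fun _ => 1 / N, fun j => ?_, ?_⟩
  · exact div_le_div_of_nonneg_right hlo hN'.le
  · simp
    field_simp

end

end Claimed.Agent.R286


/-!
# Row 286, P11 (PE Lemma 5.7), file 3: a monotone function `S : [0,1] → [0,1]` is `L²`-close to the trial class.   prefix `mv`

PROOF.  `s 0 = 0`, `s N = 1`, `s j = S (j/N)` (0 < j < N): nondecreasing in `j`.  `I u = ∑_{j<N} (s (j+1) - s j) * mvRamp (N u - j)` is nondecreasing, `I (k/N) = s k` (telescoping: `mvRamp (k - j) = 1` for `j < k`, `0` for `j ≥ k`).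
On the open cell `(k/N,(k+1)/N)` both `S u` and `I u` lie in `[s k, s (k+1)]`, so `∫_cell (S - I)² ≤ (s (k+1) - s k)²/N ≤ (s (k+1) - s k)/N`; sum over `k`: `∫ (S - I)² ≤ 1/N`
(`intervalIntegral.sum_integral_adjacent_intervals`).   Take `d j = (1 - lo) (s (j+1) - s j) + lo/N`: `mvZ d u = (1 - lo) I u + lo u` on `[0,1]` by `mvRamp_sum`; `S - mvZ d = (S - I) + lo (I - u)`, `|I - u| ≤ 1`,
`(x + y)² ≤ 2 x² + 2 y²`.
-/

set_option autoImplicit false

namespace Claimed.Agent.R286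

open MeasureTheory Set Filter Topology

noncomputable section

/-- `mvZ` with nonnegative increments is nondecreasing -/
theorem mvZ_mono_of_nonneg {N : ℕ} {e : Fin N → ℝ} (he : ∀ j, 0 ≤ e j) : Monotone (mvZ e) := by
  intro u v huv
  unfold mvZ
  refine Finset.sum_le_sum fun j _ => mul_le_mul_of_nonneg_left (mvRamp_mono ?_) (he j)
  have : (N : ℝ) * u ≤ (N : ℝ) * v := mul_le_mul_of_nonneg_left huv (Nat.cast_nonneg N)
  linarith

/-- values of `mvZ` at the nodes (telescoping) -/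
theorem mvZ_node {N : ℕ} (hN : 0 < N) (s : ℕ → ℝ) (k : ℕ) (hk : k ≤ N) :
    mvZ (fun j : Fin N => s (j + 1) - s j) ((k : ℝ) / N) = s k - s 0 := by
  have hNr : (0 : ℝ) < N := by exact_mod_cast hN
  unfold mvZ
  rw [Fin.sum_univ_eq_sum_range (fun j => (s (j + 1) - s j) * mvRamp ((N : ℝ) * ((k : ℝ) / N) - (j : ℝ))) N]
  have e1 : ∀ j ∈ Finset.range N, (s (j + 1) - s j) * mvRamp ((N : ℝ) * ((k : ℝ) / N) - (j : ℝ))
      = if j < k then (s (j + 1) - s j) else 0 := by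
    intro j _
    have : (N : ℝ) * ((k : ℝ) / N) = k := by field_simp
    rw [this]
    unfold mvRamp
    split_ifs with h
    · have : (1 : ℝ) ≤ (k : ℝ) - j := by
        have : ((j + 1 : ℕ) : ℝ) ≤ k := by exact_mod_cast h
        push_cast at this; linarith
      rw [min_eq_right this, max_eq_right zero_le_one, mul_one]
    · have : (k : ℝ) - j ≤ 0 := by
        have : (k : ℝ) ≤ j := by exact_mod_cast not_lt.1 h
        linarith
      rw [min_eq_left (this.trans zero_le_one), max_eq_left this, mul_zero]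
  rw [Finset.sum_congr rfl e1, ← Finset.sum_filter]
  have e2 : (Finset.range N).filter (fun j => j < k) = Finset.range k := by
    ext j
    simp only [Finset.mem_filter, Finset.mem_range]
    omega
  rw [e2, Finset.sum_range_sub]
theorem mv_approx {N : ℕ} (hN : 0 < N) {lo : ℝ} (hlo0 : 0 ≤ lo) (hlo : lo ≤ 1) (S : ℝ → ℝ)
    (hS : MonotoneOn S (Icc (0:ℝ) 1)) (hS1 : ∀ u ∈ Icc (0:ℝ) 1, S u ∈ Icc (0:ℝ) 1) :
    ∃ d ∈ mvK N lo, ∫ u in (0:ℝ)..1, (S u - mvZ d u) ^ 2 ≤ 2 / (N : ℝ) + 2 * lo ^ 2 := by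
  classical
  have hNr : (0 : ℝ) < N := by exact_mod_cast hN
  set s : ℕ → ℝ := fun j => if j = 0 then 0 else if N ≤ j then 1 else S ((j : ℝ) / N) with hs
  have hs0 : s 0 = 0 := by simp [hs]
  have hsN : s N = 1 := by simp [hs, hN.ne']
  have hmemN : ∀ j : ℕ, j ≤ N → ((j : ℝ) / N) ∈ Icc (0 : ℝ) 1 := fun j hj =>
    ⟨by positivity, by rw [div_le_one hNr]; exact_mod_cast hj⟩
  have hs_mid : ∀ j : ℕ, j ≠ 0 → j < N → s j = S ((j : ℝ) / N) := by
    intro j h1 h2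
    simp only [hs]
    rw [if_neg h1, if_neg (by omega)]
  have hs_big : ∀ j : ℕ, N ≤ j → s j = 1 := by
    intro j h
    simp only [hs]
    rw [if_neg (by omega), if_pos h]
  have hs_mem : ∀ j, s j ∈ Icc (0 : ℝ) 1 := by
    intro j
    by_cases h1 : j = 0
    · subst h1; rw [hs0]; simp
    by_cases h2 : N ≤ j
    · rw [hs_big j h2]; simp
    · rw [hs_mid j h1 (by omega)]; exact hS1 _ (hmemN j (by omega))
  have hs_mono : ∀ j, s j ≤ s (j + 1) := by
    intro j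
    by_cases h1 : j = 0
    · subst h1; rw [hs0]; exact (hs_mem _).1
    by_cases h2 : N ≤ j + 1
    · rw [hs_big (j + 1) h2]; exact (hs_mem j).2
    · rw [hs_mid j h1 (by omega), hs_mid (j + 1) (by omega) (by omega)]
      refine hS (hmemN j (by omega)) (hmemN (j + 1) (by omega)) ?_
      rw [div_le_div_iff_of_pos_right hNr]
      exact_mod_cast Nat.le_succ j
  -- the interpolant
  set e : Fin N → ℝ := fun j => s (j + 1) - s j with he
  have he0 : ∀ j, 0 ≤ e j := fun j => sub_nonneg.2 (hs_mono j)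
  have hImono : Monotone (mvZ e) := mvZ_mono_of_nonneg he0
  have hInode : ∀ k : ℕ, k ≤ N → mvZ e ((k : ℝ) / N) = s k := by
    intro k hk
    rw [he, mvZ_node hN s k hk, hs0, sub_zero]
  set d : Fin N → ℝ := fun j => (1 - lo) * e j + lo / N with hd
  have hsum_e : ∑ j, e j = 1 := by
    rw [he, Fin.sum_univ_eq_sum_range (fun j => s (j + 1) - s j) N, Finset.sum_range_sub, hsN, hs0, sub_zero]
  have hdK : d ∈ mvK N lo := by
    refine ⟨fun j => ?_, ?_⟩
    · have := mul_nonneg (sub_nonneg.2 hlo) (he0 j)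
      simp only [hd]; linarith
    · simp only [hd]
      rw [Finset.sum_add_distrib, ← Finset.mul_sum, hsum_e, Finset.sum_const, Finset.card_univ, Fintype.card_fin, nsmul_eq_mul]
      field_simp
      ring
  have hZ : ∀ u ∈ Icc (0 : ℝ) 1, mvZ d u = (1 - lo) * mvZ e u + lo * u := by
    intro u hu
    have h1 := mvRamp_sum N ((N : ℝ) * u)
    have h2 : max 0 (min ((N : ℝ) * u) (N : ℝ)) = (N : ℝ) * u := by
      rw [min_eq_left (by nlinarith [hu.2]), max_eq_right (mul_nonneg hNr.le hu.1)]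
    rw [h2] at h1
    unfold mvZ
    simp only [hd, add_mul]
    rw [Finset.sum_add_distrib, ← Finset.mul_sum, h1, Finset.mul_sum]
    congr 1
    · refine Finset.sum_congr rfl fun j _ => by ring
    · field_simp
  refine ⟨d, hdK, ?_⟩
  -- the integrand
  have hBM : MvBM (fun u => (S u - mvZ d u) ^ 2) :=
    ((MvBM.of_mono hS).sub (MvBM.of_cont (mvZ_cont d).continuousOn)).comp (φ := fun x => x ^ 2) (by fun_prop)
  have hcell : ∀ k ∈ Finset.range N, ∫ u in ((k : ℝ) / N)..(((k + 1 : ℕ) : ℝ) / N), (S u - mvZ d u) ^ 2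
      ≤ (2 * (s (k + 1) - s k) + 2 * lo ^ 2) * (1 / N) := by
    intro k hk
    have hkN : k < N := Finset.mem_range.1 hk
    have ha := hmemN k hkN.le
    have hb := hmemN (k + 1) hkN
    have hab : (k : ℝ) / N ≤ ((k + 1 : ℕ) : ℝ) / N := by
      rw [div_le_div_iff_of_pos_right hNr]; exact_mod_cast Nat.le_succ k
    have h1 := mv_int_mono hBM (MvBM.const (2 * (s (k + 1) - s k) + 2 * lo ^ 2)) ha.1 hab hb.2
      (Eventually.of_forall fun u hu => ?_)
    · refine h1.trans (le_of_eq ?_)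
      rw [intervalIntegral.integral_const, smul_eq_mul, mul_comm]
      congr 1
      push_cast
      field_simp
      ring
    · have hu01 : u ∈ Icc (0 : ℝ) 1 := ⟨ha.1.trans hu.1.le, hu.2.le.trans hb.2⟩
      -- bounds for `S u`
      have hSl : s k ≤ S u := by
        by_cases h0 : k = 0
        · subst h0; rw [hs0]; exact (hS1 u hu01).1
        · rw [hs_mid k h0 hkN]; exact hS ha hu01 hu.1.le
      have hSu : S u ≤ s (k + 1) := by
        by_cases h0 : N ≤ k + 1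
        · rw [hs_big _ h0]; exact (hS1 u hu01).2
        · rw [hs_mid (k + 1) (by omega) (by omega)]; exact hS hu01 hb hu.2.le
      have hIl : s k ≤ mvZ e u := by rw [← hInode k hkN.le]; exact hImono hu.1.le
      have hIu : mvZ e u ≤ s (k + 1) := by rw [← hInode (k + 1) hkN]; exact hImono hu.2.le
      have hδ1 : s (k + 1) - s k ≤ 1 := by linarith [(hs_mem (k + 1)).2, (hs_mem k).1]
      have hδ0 : 0 ≤ s (k + 1) - s k := sub_nonneg.2 (hs_mono k)
      have hI01 : mvZ e u ∈ Icc (0 : ℝ) 1 := ⟨(hs_mem k).1.trans hIl, hIu.trans (hs_mem (k + 1)).2⟩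
      rw [hZ u hu01]
      have hx : |S u - mvZ e u| ≤ s (k + 1) - s k := by rw [abs_le]; constructor <;> linarith
      have hy : |mvZ e u - u| ≤ 1 := by rw [abs_le]; constructor <;> linarith [hI01.1, hI01.2, hu01.1, hu01.2]
      have hx2 : (S u - mvZ e u) ^ 2 ≤ s (k + 1) - s k := by
        have : (S u - mvZ e u) ^ 2 ≤ (s (k + 1) - s k) ^ 2 := sq_le_sq' (by linarith [abs_le.1 hx]) (abs_le.1 hx).2
        nlinarith
      have hy2 : (mvZ e u - u) ^ 2 ≤ 1 := by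
        have : (mvZ e u - u) ^ 2 ≤ 1 ^ 2 := sq_le_sq' (by linarith [abs_le.1 hy]) (abs_le.1 hy).2
        simpa using this
      have e3 : S u - ((1 - lo) * mvZ e u + lo * u) = (S u - mvZ e u) + lo * (mvZ e u - u) := by ring
      rw [e3]
      have h4 : ((S u - mvZ e u) + lo * (mvZ e u - u)) ^ 2 ≤ 2 * (S u - mvZ e u) ^ 2 + 2 * (lo * (mvZ e u - u)) ^ 2 := by
        nlinarith [sq_nonneg ((S u - mvZ e u) - lo * (mvZ e u - u))]
      have h5 : (lo * (mvZ e u - u)) ^ 2 ≤ lo ^ 2 := by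
        rw [mul_pow]; nlinarith [sq_nonneg lo]
      linarith
  have hsplit := intervalIntegral.sum_integral_adjacent_intervals (f := fun u => (S u - mvZ d u) ^ 2) (μ := volume)
    (a := fun k : ℕ => (k : ℝ) / N) (n := N) (fun k hk => hBM.ii (hmemN k hk.le) (hmemN (k + 1) hk))
  have e0 : ((0 : ℕ) : ℝ) / N = 0 := by simp
  have e1 : ((N : ℕ) : ℝ) / N = 1 := by field_simp
  rw [e0, e1] at hsplit
  rw [← hsplit]
  refine (Finset.sum_le_sum hcell).trans (le_of_eq ?_)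
  rw [← Finset.sum_mul, Finset.sum_add_distrib, ← Finset.mul_sum, Finset.sum_range_sub, hsN, hs0, Finset.sum_const, Finset.card_range,
    nsmul_eq_mul]
  field_simp
  ring

end

end Claimed.Agent.R286
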