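import Claimed.Agent.R286.Macro.Quant

/-!
# Row 286, P11, file 8: PE Proposition 5.9 (rigidity at macroscopic scales), abstract form.   prefix `mv`   (architect helper67; proofs helper45 [helper lemmas `mvp_`], mv_locunif helper202; 0 sorry)

DIRECT PROOF (no subsequences, no Helly, no limit of `e_k`).   Fix `k`, write `r = r k`, `e = e k`, `bh = T - e∘r`, `hh = (e∘r) r` (clocks, `c ≤ bh ≤ T`).
LOWER:  `F(r) ≥ f(bh,hh) + ¼∫₀¹ e(r) r² - o(1)`  (`I.lip`: `¼(∫|b0-T| + u0 T) + ½(∫|h0| + u0 T) + ¼ u0 T`);   `mv_quant` for `(bh,hh)`: a trial `z` with `G(z) ≤ f(bh,hh) + (T/4) mvErr`;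
  with `q = (e(r) r + (T - e(r)) z)/T` (a quantile):  `hh + bh z = T q`,  `(T-e) z² + e r² = T q² + e (T-e)/T (r-z)²`, so   `F(r) ≥ 𝒫(q) + (c²/(4T)) ∫ (r-z)² - o(1)`.
UPPER:  `F(r) ≤ F(rc) ≤ f(T - e(rc), e(rc) rc) + ¼∫ e(rc) rc² + o(1) ≤ 𝒫(rc) + o(1)` (`mv_guerra` with `z = rc`) `≤ 𝒫(qT) + T ∫|rc - qT| + o(1)`.
HENCE  `𝒫(q) - 𝒫(qT) → 0` and `∫ (r-z)² → 0`;  `hwp`: `∫|q - qT| → 0`;  `|r - q| ≤ |r - z|`, `∫|r-z| ≤ (∫(r-z)²)^{1/2}` (or `|x| ≤ x²/(2κ) + κ/2`).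
-/

set_option autoImplicit false

namespace Claimed.Agent.R286

open MeasureTheory Set Filter Topology

noncomputable section

/-- the scalar Parisi objective on quantiles: `𝒫(q) = f_spin(T q) + (T/4) ∫ q²` -/
def mvP (fspin : (ℝ → ℝ) → ℝ) (T : ℝ) (q : ℝ → ℝ) : ℝ := mvG fspin (fun _ => T) (fun _ => 0) q

/-- the objective (6) of PE: strength profile `e`, omitted mass `u0`, bare endpoint `(b0,h0)` -/
def mvF {n : ℕ} (I : MvIface n) (b0 h0 e : ℝ → ℝ) (u0 : ℝ) (r : ℝ → ℝ) : ℝ :=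
  I.f (fun u => b0 u - (if u0 ≤ u then e (r u) else 0)) (fun u => h0 u + (if u0 ≤ u then e (r u) * r u else 0))
    + 1 / 4 * ∫ u in u0..1, e (r u) * r u ^ 2

/-- the step `T 1_{u < u0}` : integrability and integral -/
theorem mvp_step {u0 : ℝ} (hu0 : u0 ∈ Icc (0:ℝ) 1) (T : ℝ) :
    IntervalIntegrable (fun u : ℝ => if u0 ≤ u then (0:ℝ) else T) volume 0 1 ∧
      ∫ u in (0:ℝ)..1, (if u0 ≤ u then (0:ℝ) else T) = u0 * T := by
  have hfun : (fun u : ℝ => if u0 ≤ u then (0:ℝ) else T) = (Iio u0).indicator (fun _ => T) := by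
    funext u
    by_cases h : u0 ≤ u
    · simp [h, Set.indicator]
    · simp [h, Set.indicator, not_le.mp h]
  constructor
  · rw [hfun]
    rw [intervalIntegrable_iff_integrableOn_Ioc_of_le zero_le_one]
    exact (integrableOn_const (by simp)).indicator measurableSet_Iio
  · rw [hfun, intervalIntegral.integral_of_le zero_le_one, integral_indicator measurableSet_Iio,
      Measure.restrict_restrict measurableSet_Iio]
    have : Iio u0 ∩ Ioc (0:ℝ) 1 = Ioo 0 u0 := by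
      ext x; simp only [mem_inter_iff, mem_Iio, mem_Ioc, mem_Ioo]
      constructor
      · rintro ⟨h1, h2, _⟩; exact ⟨h2, h1⟩
      · rintro ⟨h1, h2⟩; exact ⟨h2, h1, by linarith [hu0.2]⟩
    rw [this, setIntegral_const]
    simp [Measure.real, hu0.1]

theorem mvp_ii {g : ℝ → ℝ} (hg : MvBM g) : IntervalIntegrable g volume 0 1 :=
  hg.ii ⟨le_rfl, zero_le_one⟩ ⟨zero_le_one, le_rfl⟩

/-- `𝒫` is `L¹`-Lipschitz on quantiles -/
theorem mvP_lip {n : ℕ} (I : MvIface n) (fspin : (ℝ → ℝ) → ℝ) (hsp : ∀ K, MvClk K → I.f (fun _ => 0) K = fspin K) {T : ℝ} (hT : 0 ≤ T)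
    {q q' : ℝ → ℝ} (hq : MvQt q) (hq' : MvQt q') : |mvP fspin T q - mvP fspin T q'| ≤ T * ∫ u in (0:ℝ)..1, |q u - q' u| := by
  have hK : MvClk (fun u => 0 + T * q u) := by simpa using hq.1.const_mul hT
  have hK' : MvClk (fun u => 0 + T * q' u) := by simpa using hq'.1.const_mul hT
  have h0 : MvClk (fun _ : ℝ => (0:ℝ)) := MvClk.const le_rfl
  have hl := I.lip (fun _ => 0) (fun u => 0 + T * q u) (fun _ => 0) (fun u => 0 + T * q' u) h0 hK h0 hK'
  rw [hsp _ hK, hsp _ hK'] at hl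
  have hd : MvBM (fun u => |q u - q' u|) := (hq.1.bm.sub hq'.1.bm).comp continuous_abs
  have e1 : ∫ u in (0:ℝ)..1, |(0 + T * q u) - (0 + T * q' u)| = T * ∫ u in (0:ℝ)..1, |q u - q' u| := by
    rw [← intervalIntegral.integral_const_mul]
    refine intervalIntegral.integral_congr fun u _ => ?_
    show |(0 + T * q u) - (0 + T * q' u)| = T * |q u - q' u|
    rw [show (0 + T * q u) - (0 + T * q' u) = T * (q u - q' u) by ring, abs_mul, abs_of_nonneg hT]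
  have e0 : ∫ u in (0:ℝ)..1, |(0:ℝ) - 0| = 0 := by simp
  rw [e1, e0] at hl
  have hq2 : MvBM (fun u => T * q u ^ 2) := (MvBM.const T).mul (hq.1.bm.comp (continuous_pow 2))
  have hq2' : MvBM (fun u => T * q' u ^ 2) := (MvBM.const T).mul (hq'.1.bm.comp (continuous_pow 2))
  have e2 : |(∫ u in (0:ℝ)..1, T * q u ^ 2) - ∫ u in (0:ℝ)..1, T * q' u ^ 2| ≤ 2 * (T * ∫ u in (0:ℝ)..1, |q u - q' u|) := by
    rw [← intervalIntegral.integral_sub (mvp_ii hq2) (mvp_ii hq2'), ← intervalIntegral.integral_const_mul,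
      ← intervalIntegral.integral_const_mul]
    refine (intervalIntegral.abs_integral_le_integral_abs zero_le_one).trans ?_
    refine intervalIntegral.integral_mono_on zero_le_one (mvp_ii ((hq2.sub hq2').comp continuous_abs))
      (mvp_ii ((MvBM.const 2).mul ((MvBM.const T).mul hd))) fun u hu => ?_
    have a1 := hq.mem hu
    have a2 := hq'.mem hu
    rw [show T * q u ^ 2 - T * q' u ^ 2 = T * ((q u - q' u) * (q u + q' u)) by ring, abs_mul, abs_mul,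
      abs_of_nonneg hT]
    have : |q u + q' u| ≤ 2 := by rw [abs_le]; constructor <;> linarith [a1.1, a1.2, a2.1, a2.2]
    have h3 : |q u - q' u| * |q u + q' u| ≤ |q u - q' u| * 2 := mul_le_mul_of_nonneg_left this (abs_nonneg _)
    nlinarith [mul_le_mul_of_nonneg_left h3 hT]
  unfold mvP mvG
  have := abs_le.mp hl
  have := abs_le.mp e2
  rw [abs_le]
  constructor <;> linarith


/-! ### the auxiliary clocks `T - e∘r`, `(e∘r) r` -/

theorem mvp_T {T c : ℝ} {e : ℝ → ℝ} (he : ∀ x ∈ Icc (0:ℝ) 1, c ≤ e x ∧ e x ≤ T - c) : 2 * c ≤ T := by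
  have := he 0 ⟨le_rfl, zero_le_one⟩
  linarith [this.1, this.2]

theorem mvp_er_anti {e r : ℝ → ℝ} (hea : AntitoneOn e (Icc (0:ℝ) 1)) (hr : MvQt r) :
    AntitoneOn (fun u => e (r u)) (Icc (0:ℝ) 1) := fun _ hu _ hv huv =>
  hea (hr.mem hu) (hr.mem hv) (hr.1.1 hu hv huv)

theorem mvp_bh_clk {T c : ℝ} (hc : 0 < c) {e r : ℝ → ℝ} (he : ∀ x ∈ Icc (0:ℝ) 1, c ≤ e x ∧ e x ≤ T - c)
    (hea : AntitoneOn e (Icc (0:ℝ) 1)) (hr : MvQt r) : MvClk (fun u => T - e (r u)) := by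
  refine ⟨fun u hu v hv huv => ?_, ?_⟩
  · have := mvp_er_anti hea hr hu hv huv
    show T - e (r u) ≤ T - e (r v)
    linarith
  · have := (he _ (hr.mem (u := 0) ⟨le_rfl, zero_le_one⟩)).2
    linarith

theorem mvp_hh_clk {T c : ℝ} (hc : 0 < c) {e r : ℝ → ℝ} (he : ∀ x ∈ Icc (0:ℝ) 1, c ≤ e x ∧ e x ≤ T - c)
    (hem : MonotoneOn (fun x => x * e x) (Icc (0:ℝ) 1)) (hr : MvQt r) : MvClk (fun u => e (r u) * r u) := by
  refine ⟨fun u hu v hv huv => ?_, ?_⟩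
  · have := hem (hr.mem hu) (hr.mem hv) (hr.1.1 hu hv huv)
    show e (r u) * r u ≤ e (r v) * r v
    simp only [] at this
    linarith
  · have h0 := hr.mem (u := 0) ⟨le_rfl, zero_le_one⟩
    have := (he _ h0).1
    exact mul_nonneg (by linarith) h0.1

/-- the `L¹` cost of replacing the bare endpoint by `(T,0)` and of the omitted mass -/
theorem mvp_err {n : ℕ} (I : MvIface n) {T c : ℝ} (hc : 0 < c) {b0 h0 e r : ℝ → ℝ} {u0 : ℝ}
    (hb0i : IntervalIntegrable b0 volume 0 1) (hh0i : IntervalIntegrable h0 volume 0 1)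
    (hu0 : u0 ∈ Ico (0:ℝ) 1) (he : ∀ x ∈ Icc (0:ℝ) 1, c ≤ e x ∧ e x ≤ T - c)
    (hea : AntitoneOn e (Icc (0:ℝ) 1)) (hem : MonotoneOn (fun x => x * e x) (Icc (0:ℝ) 1)) (hr : MvQt r)
    (hRb : MvClk (fun u => b0 u - (if u0 ≤ u then e (r u) else 0)))
    (hRh : MvClk (fun u => h0 u + (if u0 ≤ u then e (r u) * r u else 0))) :
    |I.f (fun u => b0 u - (if u0 ≤ u then e (r u) else 0)) (fun u => h0 u + (if u0 ≤ u then e (r u) * r u else 0))
        - I.f (fun u => T - e (r u)) (fun u => e (r u) * r u)| ≤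
      1 / 4 * ((∫ u in (0:ℝ)..1, |b0 u - T|) + u0 * T) + 1 / 2 * ((∫ u in (0:ℝ)..1, |h0 u|) + u0 * T) := by
  have hbh := mvp_bh_clk hc he hea hr
  have hhh := mvp_hh_clk hc he hem hr
  have hl := I.lip _ _ _ _ hRb hRh hbh hhh
  have hu0' : u0 ∈ Icc (0:ℝ) 1 := ⟨hu0.1, hu0.2.le⟩
  obtain ⟨hsi, hsv⟩ := mvp_step hu0' T
  have hT := mvp_T he
  have b1 : ∫ u in (0:ℝ)..1, |(b0 u - (if u0 ≤ u then e (r u) else 0)) - (T - e (r u))| ≤
      (∫ u in (0:ℝ)..1, |b0 u - T|) + u0 * T := by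
    rw [← hsv, ← intervalIntegral.integral_add (hb0i.sub intervalIntegrable_const).abs hsi]
    refine intervalIntegral.integral_mono_on zero_le_one (mvp_ii ((hRb.bm.sub hbh.bm).comp continuous_abs))
      ((hb0i.sub intervalIntegrable_const).abs.add hsi) fun u hu => ?_
    have h1 := he _ (hr.mem hu)
    by_cases h : u0 ≤ u
    · simp only [h, if_true]
      rw [show b0 u - e (r u) - (T - e (r u)) = b0 u - T by ring]; simp
    · simp only [h, if_false]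
      rw [show b0 u - 0 - (T - e (r u)) = (b0 u - T) + e (r u) by ring]
      refine (abs_add_le _ _).trans ?_
      rw [abs_of_nonneg (by linarith : 0 ≤ e (r u))]
      linarith
  have b2 : ∫ u in (0:ℝ)..1, |(h0 u + (if u0 ≤ u then e (r u) * r u else 0)) - e (r u) * r u| ≤
      (∫ u in (0:ℝ)..1, |h0 u|) + u0 * T := by
    rw [← hsv, ← intervalIntegral.integral_add hh0i.abs hsi]
    refine intervalIntegral.integral_mono_on zero_le_one (mvp_ii ((hRh.bm.sub hhh.bm).comp continuous_abs))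
      (hh0i.abs.add hsi) fun u hu => ?_
    have h1 := he _ (hr.mem hu)
    have h2 := hr.mem hu
    by_cases h : u0 ≤ u
    · simp only [h, if_true]
      rw [show h0 u + e (r u) * r u - e (r u) * r u = h0 u by ring]; simp
    · simp only [h, if_false]
      rw [show h0 u + 0 - e (r u) * r u = h0 u + -(e (r u) * r u) by ring]
      refine (abs_add_le _ _).trans ?_
      rw [abs_neg, abs_of_nonneg (mul_nonneg (by linarith) h2.1)]
      have : e (r u) * r u ≤ T * 1 := mul_le_mul (by linarith) h2.2 h2.1 (by linarith)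
      linarith
  linarith

/-- the penalty integrand -/
theorem mvp_pen_bm {e r : ℝ → ℝ} (hea : AntitoneOn e (Icc (0:ℝ) 1)) (hr : MvQt r) :
    MvBM (fun u => e (r u) * r u ^ 2) :=
  (MvBM.of_anti (mvp_er_anti hea hr)).mul (hr.1.bm.comp (continuous_pow 2))

theorem mvp_pen_split {T c : ℝ} (hc : 0 < c) {e r : ℝ → ℝ} {u0 : ℝ} (hu0 : u0 ∈ Ico (0:ℝ) 1)
    (he : ∀ x ∈ Icc (0:ℝ) 1, c ≤ e x ∧ e x ≤ T - c) (hea : AntitoneOn e (Icc (0:ℝ) 1)) (hr : MvQt r) :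
    (∫ u in u0..1, e (r u) * r u ^ 2) ≤ ∫ u in (0:ℝ)..1, e (r u) * r u ^ 2 ∧
      (∫ u in (0:ℝ)..1, e (r u) * r u ^ 2) ≤ (∫ u in u0..1, e (r u) * r u ^ 2) + u0 * T := by
  have hbm := mvp_pen_bm hea hr
  have hu0' : u0 ∈ Icc (0:ℝ) 1 := ⟨hu0.1, hu0.2.le⟩
  have i1 := hbm.ii (a := 0) (b := u0) ⟨le_rfl, zero_le_one⟩ hu0'
  have i2 := hbm.ii (a := u0) (b := 1) hu0' ⟨zero_le_one, le_rfl⟩
  have hs := intervalIntegral.integral_add_adjacent_intervals i1 i2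
  have hpt : ∀ u ∈ Icc (0:ℝ) u0, 0 ≤ e (r u) * r u ^ 2 ∧ e (r u) * r u ^ 2 ≤ T := by
    intro u hu
    have hu' : u ∈ Icc (0:ℝ) 1 := ⟨hu.1, hu.2.trans hu0.2.le⟩
    have h1 := he _ (hr.mem hu')
    have h2 := hr.mem hu'
    have h3 : r u ^ 2 ≤ 1 := by nlinarith [h2.1, h2.2]
    refine ⟨mul_nonneg (by linarith) (sq_nonneg _), ?_⟩
    have : e (r u) * r u ^ 2 ≤ T * 1 := mul_le_mul (by linarith) h3 (sq_nonneg _) (by linarith)
    linarith
  have l1 : 0 ≤ ∫ u in (0:ℝ)..u0, e (r u) * r u ^ 2 :=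
    intervalIntegral.integral_nonneg hu0.1 fun u hu => (hpt u hu).1
  have l2 : ∫ u in (0:ℝ)..u0, e (r u) * r u ^ 2 ≤ u0 * T := by
    have := intervalIntegral.integral_mono_on hu0.1 i1 (intervalIntegrable_const (c := T)) fun u hu => (hpt u hu).2
    simpa using this
  constructor <;> linarith

/-- one-size upper bound -/
theorem mvF_upper {n : ℕ} (I : MvIface n) (fspin : (ℝ → ℝ) → ℝ) (hsp : ∀ K, MvClk K → I.f (fun _ => 0) K = fspin K)
    {T c : ℝ} (hc : 0 < c) {b0 h0 e r : ℝ → ℝ} {u0 : ℝ} (hb0i : IntervalIntegrable b0 volume 0 1) (hh0i : IntervalIntegrable h0 volume 0 1)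
    (hu0 : u0 ∈ Ico (0:ℝ) 1) (he : ∀ x ∈ Icc (0:ℝ) 1, c ≤ e x ∧ e x ≤ T - c)
    (hea : AntitoneOn e (Icc (0:ℝ) 1)) (hem : MonotoneOn (fun x => x * e x) (Icc (0:ℝ) 1)) (hr : MvQt r)
    (hRb : MvClk (fun u => b0 u - (if u0 ≤ u then e (r u) else 0)))
    (hRh : MvClk (fun u => h0 u + (if u0 ≤ u then e (r u) * r u else 0))) :
    mvF I b0 h0 e u0 r ≤ mvP fspin T r + ((∫ u in (0:ℝ)..1, |b0 u - T|) + (∫ u in (0:ℝ)..1, |h0 u|) + 2 * T * u0) := by
  have hbh := mvp_bh_clk hc he hea hr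
  have hhh := mvp_hh_clk hc he hem hr
  have herr := abs_le.mp (mvp_err I hc hb0i hh0i hu0 he hea hem hr hRb hRh)
  have hg := mv_guerra I fspin hsp hbh hhh hr
  have hT := mvp_T he
  have hpen := mvp_pen_split hc hu0 he hea hr
  have hfun : (fun u => e (r u) * r u + (T - e (r u)) * r u) = fun u => 0 + T * r u := by
    funext u; ring
  have hint : (∫ u in (0:ℝ)..1, (T - e (r u)) * r u ^ 2) =
      (∫ u in (0:ℝ)..1, T * r u ^ 2) - ∫ u in (0:ℝ)..1, e (r u) * r u ^ 2 := by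
    rw [← intervalIntegral.integral_sub (mvp_ii ((MvBM.const T).mul (hr.1.bm.comp (continuous_pow 2))))
      (mvp_ii (mvp_pen_bm hea hr))]
    refine intervalIntegral.integral_congr fun u _ => ?_
    show (T - e (r u)) * r u ^ 2 = T * r u ^ 2 - e (r u) * r u ^ 2
    ring
  have n1 : 0 ≤ ∫ u in (0:ℝ)..1, |b0 u - T| := intervalIntegral.integral_nonneg zero_le_one fun u _ => abs_nonneg _
  have n2 : 0 ≤ ∫ u in (0:ℝ)..1, |h0 u| := intervalIntegral.integral_nonneg zero_le_one fun u _ => abs_nonneg _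
  have n3 : 0 ≤ u0 * T := mul_nonneg hu0.1 (by linarith)
  unfold mvG at hg
  rw [hfun, hint] at hg
  unfold mvF mvP mvG
  linarith [herr.1, herr.2, hpen.1, hpen.2]


theorem mvp_err_nonneg (n N : ℕ) {lo bs ε ρ : ℝ} (hlo : 0 ≤ lo) (hbs : 0 ≤ bs) (hε : 0 ≤ ε) (hρ : 0 ≤ ρ) :
    0 ≤ mvErr n N lo bs ε ρ := by
  unfold mvErr; positivity

/-- the pointwise algebra of the lower bound -/
theorem mvp_alg {T c E R Z : ℝ} (hc : 0 < c) (hE : c ≤ E) (hE' : E ≤ T - c) :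
    T * (T⁻¹ * (E * R + (T - E) * Z)) ^ 2 + c ^ 2 / T * (R - Z) ^ 2 ≤ (T - E) * Z ^ 2 + E * R ^ 2 := by
  have hT : 0 < T := by linarith
  have h1 : T * (T⁻¹ * (E * R + (T - E) * Z)) ^ 2 + c ^ 2 / T * (R - Z) ^ 2 =
      ((E * R + (T - E) * Z) ^ 2 + c ^ 2 * (R - Z) ^ 2) / T := by
    field_simp
  rw [h1, div_le_iff₀ hT]
  have h2 : c ^ 2 ≤ E * (T - E) := by nlinarith [mul_nonneg (sub_nonneg.mpr hE) (by linarith : 0 ≤ T - E)]
  have h3 := mul_le_mul_of_nonneg_right h2 (sq_nonneg (R - Z))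
  nlinarith [h3]

/-- one-size lower bound -/
theorem mvF_lower {n : ℕ} (hn : 0 < n) (I : MvIface n) (fspin : (ℝ → ℝ) → ℝ) (hsp : ∀ K, MvClk K → I.f (fun _ => 0) K = fspin K)
    {T c : ℝ} (hc : 0 < c) {b0 h0 e r : ℝ → ℝ} {u0 : ℝ} (hb0i : IntervalIntegrable b0 volume 0 1) (hh0i : IntervalIntegrable h0 volume 0 1)
    (hu0 : u0 ∈ Ico (0:ℝ) 1) (he : ∀ x ∈ Icc (0:ℝ) 1, c ≤ e x ∧ e x ≤ T - c)
    (hea : AntitoneOn e (Icc (0:ℝ) 1)) (hem : MonotoneOn (fun x => x * e x) (Icc (0:ℝ) 1)) (hr : MvQt r)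
    (hRb : MvClk (fun u => b0 u - (if u0 ≤ u then e (r u) else 0)))
    (hRh : MvClk (fun u => h0 u + (if u0 ≤ u then e (r u) * r u else 0)))
    {N : ℕ} (hN : 0 < N) {lo ε ρ : ℝ} (hlo : 0 < lo) (hlo1 : lo ≤ 1) (hε : 0 < ε) (hε1 : ε ≤ 1) (hρ : 0 < ρ) (hρ1 : ρ ≤ 1) :
    ∃ q z : ℝ → ℝ, MvQt q ∧ MvQt z ∧ (∀ u ∈ Icc (0:ℝ) 1, |r u - q u| ≤ |r u - z u|) ∧
      mvP fspin T q + c ^ 2 / (4 * T) * (∫ u in (0:ℝ)..1, (r u - z u) ^ 2) ≤
        mvF I b0 h0 e u0 r + (T / 4 * mvErr n N lo c ε ρ + (∫ u in (0:ℝ)..1, |b0 u - T|) + (∫ u in (0:ℝ)..1, |h0 u|) + 2 * T * u0) := by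
  have hbh := mvp_bh_clk hc he hea hr
  have hhh := mvp_hh_clk hc he hem hr
  have herr := abs_le.mp (mvp_err I hc hb0i hh0i hu0 he hea hem hr hRb hRh)
  have hT := mvp_T he
  have hTpos : 0 < T := by linarith
  have hpen := mvp_pen_split hc hu0 he hea hr
  obtain ⟨d, hd, hqu⟩ := mv_quant hn I fspin hsp hbh hhh hc
    (fun u hu => by have := (he _ (hr.mem hu)).2; linarith) hN hlo hlo1 hε hε1 hρ hρ1
  have hz : MvQt (mvZ d) := mvZ_qt hN hlo.le hd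
  set z := mvZ d with hzdef
  have hqc : MvClk (fun u => T⁻¹ * (e (r u) * r u + (T - e (r u)) * z u)) :=
    (hhh.add (hbh.mul hz.1)).const_mul (inv_nonneg.mpr hTpos.le)
  have h11 : (1:ℝ) ∈ Icc (0:ℝ) 1 := ⟨zero_le_one, le_rfl⟩
  have hq1 : T⁻¹ * (e (r 1) * r 1 + (T - e (r 1)) * z 1) ≤ 1 := by
    have a1 := he _ (hr.mem h11)
    have a2 := hr.mem h11
    have a3 := hz.mem h11
    rw [inv_mul_le_iff₀ hTpos]
    nlinarith [mul_le_mul_of_nonneg_left a2.2 (by linarith : 0 ≤ e (r 1)),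
      mul_le_mul_of_nonneg_left a3.2 (by linarith : 0 ≤ T - e (r 1))]
  refine ⟨fun u => T⁻¹ * (e (r u) * r u + (T - e (r u)) * z u), z, ⟨hqc, hq1⟩, hz, fun u hu => ?_, ?_⟩
  · have a1 := he _ (hr.mem hu)
    have : r u - T⁻¹ * (e (r u) * r u + (T - e (r u)) * z u) = (T⁻¹ * (T - e (r u))) * (r u - z u) := by
      field_simp; ring
    show |r u - T⁻¹ * (e (r u) * r u + (T - e (r u)) * z u)| ≤ |r u - z u|
    rw [this, abs_mul]
    have h0 : 0 ≤ T⁻¹ * (T - e (r u)) := mul_nonneg (inv_nonneg.mpr hTpos.le) (by linarith)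
    have h1 : T⁻¹ * (T - e (r u)) ≤ 1 := by rw [inv_mul_le_iff₀ hTpos]; linarith
    rw [abs_of_nonneg h0]
    exact mul_le_of_le_one_left (abs_nonneg _) h1
  · have hfun : (fun u => e (r u) * r u + (T - e (r u)) * z u) =
        fun u => 0 + T * (T⁻¹ * (e (r u) * r u + (T - e (r u)) * z u)) := by
      funext u; field_simp; ring
    have hqbm : MvBM (fun u => T⁻¹ * (e (r u) * r u + (T - e (r u)) * z u)) := hqc.bm
    have i1 : MvBM (fun u => T * (T⁻¹ * (e (r u) * r u + (T - e (r u)) * z u)) ^ 2) :=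
      (MvBM.const T).mul (hqbm.comp (continuous_pow 2))
    have i2 : MvBM (fun u => (r u - z u) ^ 2) := (hr.1.bm.sub hz.1.bm).comp (continuous_pow 2)
    have i3 : MvBM (fun u => (T - e (r u)) * z u ^ 2) := hbh.bm.mul (hz.1.bm.comp (continuous_pow 2))
    have i4 := mvp_pen_bm hea hr
    have hint : (∫ u in (0:ℝ)..1, T * (T⁻¹ * (e (r u) * r u + (T - e (r u)) * z u)) ^ 2) +
        c ^ 2 / T * (∫ u in (0:ℝ)..1, (r u - z u) ^ 2) ≤
        (∫ u in (0:ℝ)..1, (T - e (r u)) * z u ^ 2) + ∫ u in (0:ℝ)..1, e (r u) * r u ^ 2 := by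
      rw [← intervalIntegral.integral_const_mul, ← intervalIntegral.integral_add (mvp_ii i1)
        (mvp_ii ((MvBM.const _).mul i2)), ← intervalIntegral.integral_add (mvp_ii i3) (mvp_ii i4)]
      refine intervalIntegral.integral_mono_on zero_le_one (mvp_ii (i1.add ((MvBM.const _).mul i2)))
        (mvp_ii (i3.add i4)) fun u hu => ?_
      have a1 := he _ (hr.mem hu)
      exact mvp_alg hc a1.1 a1.2
    have hE0 := mvp_err_nonneg n N (lo := lo) (bs := c) (ε := ε) (ρ := ρ) hlo.le hc.le hε.le hρ.le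
    have hb1 : (T - e (r 1)) / 4 * mvErr n N lo c ε ρ ≤ T / 4 * mvErr n N lo c ε ρ := by
      have a1 := he _ (hr.mem h11)
      exact mul_le_mul_of_nonneg_right (by linarith) hE0
    have n1 : 0 ≤ ∫ u in (0:ℝ)..1, |b0 u - T| := intervalIntegral.integral_nonneg zero_le_one fun u _ => abs_nonneg _
    have n2 : 0 ≤ ∫ u in (0:ℝ)..1, |h0 u| := intervalIntegral.integral_nonneg zero_le_one fun u _ => abs_nonneg _
    have n3 : 0 ≤ u0 * T := mul_nonneg hu0.1 (by linarith)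
    have hc4 : c ^ 2 / (4 * T) * (∫ u in (0:ℝ)..1, (r u - z u) ^ 2) =
        1 / 4 * (c ^ 2 / T * ∫ u in (0:ℝ)..1, (r u - z u) ^ 2) := by
      field_simp
    unfold mvG at hqu
    rw [hfun] at hqu
    simp only [] at hqu
    unfold mvF mvP mvG
    rw [hc4]
    linarith [herr.1, herr.2, hpen.1, hpen.2]

/-- `∫|x| ≤ (2/δ) ∫ x² + δ/8` -/
theorem mvp_l1_l2 {g : ℝ → ℝ} (hg : MvBM g) {δ : ℝ} (hδ : 0 < δ) :
    ∫ u in (0:ℝ)..1, |g u| ≤ 2 / δ * (∫ u in (0:ℝ)..1, g u ^ 2) + δ / 8 := by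
  have h1 : ∫ u in (0:ℝ)..1, (2 / δ * g u ^ 2 + δ / 8) = 2 / δ * (∫ u in (0:ℝ)..1, g u ^ 2) + δ / 8 := by
    rw [intervalIntegral.integral_add (mvp_ii ((MvBM.const _).mul (hg.comp (continuous_pow 2)))) intervalIntegrable_const,
      intervalIntegral.integral_const_mul]
    simp
  rw [← h1]
  refine intervalIntegral.integral_mono_on zero_le_one (mvp_ii (hg.comp continuous_abs))
    (mvp_ii (((MvBM.const _).mul (hg.comp (continuous_pow 2))).add (MvBM.const _))) fun u _ => ?_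
  have h2 : 0 ≤ (2 / δ) * (|g u| - δ / 4) ^ 2 := by positivity
  have h3 : (2 / δ) * (|g u| - δ / 4) ^ 2 = 2 / δ * g u ^ 2 - |g u| + δ / 8 := by
    rw [← sq_abs (g u)]; field_simp; ring
  linarith

/-- PE Proposition 5.9 (abstract): minimisers of (6) at macroscopic strength converge in `L¹` to the Parisi quantile -/
theorem mv_profile (fspin : (ℝ → ℝ) → ℝ) {T c : ℝ} (hc : 0 < c) (qT : ℝ → ℝ) (hqT : MvQt qT)
    (hmin : ∀ q, MvQt q → mvP fspin T qT ≤ mvP fspin T q)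
    (hwp : ∀ δ > 0, ∃ η > 0, ∀ q, MvQt q → mvP fspin T q ≤ mvP fspin T qT + η → ∫ u in (0:ℝ)..1, |q u - qT u| ≤ δ)
    (nn : ℕ → ℕ) (hnn : Tendsto nn atTop atTop) (I : ∀ k, MvIface (nn k))
    (hsp : ∀ k K, MvClk K → (I k).f (fun _ => 0) K = fspin K)
    (b0 h0 e : ℕ → ℝ → ℝ) (u0 : ℕ → ℝ) (R : ℕ → Set (ℝ → ℝ)) (r rc : ℕ → ℝ → ℝ)
    (hb0i : ∀ k, IntervalIntegrable (b0 k) volume 0 1) (hh0i : ∀ k, IntervalIntegrable (h0 k) volume 0 1)
    (hb0 : Tendsto (fun k => ∫ u in (0:ℝ)..1, |b0 k u - T|) atTop (𝓝 0))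
    (hh0 : Tendsto (fun k => ∫ u in (0:ℝ)..1, |h0 k u|) atTop (𝓝 0))
    (hu0 : ∀ k, u0 k ∈ Ico (0:ℝ) 1) (hu0l : Tendsto u0 atTop (𝓝 0))
    (he : ∀ k, ∀ x ∈ Icc (0:ℝ) 1, c ≤ e k x ∧ e k x ≤ T - c)
    (hea : ∀ k, AntitoneOn (e k) (Icc (0:ℝ) 1)) (hem : ∀ k, MonotoneOn (fun x => x * e k x) (Icc (0:ℝ) 1))
    (hRq : ∀ k, ∀ s ∈ R k, MvQt s)
    (hRb : ∀ k, ∀ s ∈ R k, MvClk (fun u => b0 k u - (if u0 k ≤ u then e k (s u) else 0)))
    (hRh : ∀ k, ∀ s ∈ R k, MvClk (fun u => h0 k u + (if u0 k ≤ u then e k (s u) * s u else 0)))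
    (hr : ∀ k, r k ∈ R k) (hrmin : ∀ k, ∀ s ∈ R k, mvF (I k) (b0 k) (h0 k) (e k) (u0 k) (r k) ≤ mvF (I k) (b0 k) (h0 k) (e k) (u0 k) s)
    (hrc : ∀ k, rc k ∈ R k) (hrcl : Tendsto (fun k => ∫ u in (0:ℝ)..1, |rc k u - qT u|) atTop (𝓝 0)) :
    Tendsto (fun k => ∫ u in (0:ℝ)..1, |r k u - qT u|) atTop (𝓝 0) := by
  have hT := mvp_T (he 0)
  have hTpos : 0 < T := by linarith
  rw [Metric.tendsto_nhds]
  intro δ hδ
  obtain ⟨η, hη, hwp'⟩ := hwp (δ / 4) (by positivity)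
  set θ : ℝ := min η (c ^ 2 * δ ^ 2 / (64 * T)) with hθdef
  have hθ : 0 < θ := lt_min hη (by positivity)
  obtain ⟨N, lo, ε, ρ, hN, hlo, hlo1, hε, hε1, hρ, hρ1, hErr⟩ := mvErr_small hc (div_pos hθ hTpos)
  have hA : Tendsto (fun k => (∫ u in (0:ℝ)..1, |b0 k u - T|) + (∫ u in (0:ℝ)..1, |h0 k u|) + 2 * T * u0 k) atTop (𝓝 0) := by
    have := (hb0.add hh0).add (hu0l.const_mul (2 * T))
    simpa using this
  have hC : Tendsto (fun k => T * ∫ u in (0:ℝ)..1, |rc k u - qT u|) atTop (𝓝 0) := by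
    simpa using hrcl.const_mul T
  filter_upwards [hnn.eventually hErr, hnn.eventually (eventually_gt_atTop 0),
    hA.eventually (gt_mem_nhds (show (0:ℝ) < θ / 8 by positivity)),
    hC.eventually (gt_mem_nhds (show (0:ℝ) < θ / 4 by positivity))] with k hk1 hk2 hk3 hk4
  have hrq := hRq k _ (hr k)
  have hrcq := hRq k _ (hrc k)
  obtain ⟨q, z, hq, hz, hqz, hlow⟩ := mvF_lower hk2 (I k) fspin (hsp k) hc (hb0i k) (hh0i k) (hu0 k) (he k) (hea k) (hem k)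
    hrq (hRb k _ (hr k)) (hRh k _ (hr k)) hN hlo hlo1 hε hε1 hρ hρ1
  have hup := mvF_upper (I k) fspin (hsp k) hc (hb0i k) (hh0i k) (hu0 k) (he k) (hea k) (hem k)
    hrcq (hRb k _ (hrc k)) (hRh k _ (hrc k))
  have hlip := (abs_le.mp (mvP_lip (I k) fspin (hsp k) hTpos.le hrcq hqT)).2
  have hmn := hrmin k _ (hrc k)
  have hTE : T / 4 * mvErr (nn k) N lo c ε ρ ≤ θ / 4 := by
    have := mul_le_mul_of_nonneg_left hk1 (by positivity : 0 ≤ T / 4)
    have e1 : T / 4 * (θ / T) = θ / 4 := by field_simp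
    linarith
  have hsq0 : 0 ≤ ∫ u in (0:ℝ)..1, (r k u - z u) ^ 2 :=
    intervalIntegral.integral_nonneg zero_le_one fun u _ => sq_nonneg _
  have hcT : 0 < c ^ 2 / (4 * T) := by positivity
  -- the two consequences
  have hmain : mvP fspin T q + c ^ 2 / (4 * T) * (∫ u in (0:ℝ)..1, (r k u - z u) ^ 2) ≤ mvP fspin T qT + θ := by
    linarith
  have hPq : mvP fspin T q ≤ mvP fspin T qT + η := by
    have := mul_nonneg hcT.le hsq0
    linarith [min_le_left η (c ^ 2 * δ ^ 2 / (64 * T))]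
  have hsq : ∫ u in (0:ℝ)..1, (r k u - z u) ^ 2 ≤ δ ^ 2 / 16 := by
    have h1 : c ^ 2 / (4 * T) * (∫ u in (0:ℝ)..1, (r k u - z u) ^ 2) ≤ c ^ 2 * δ ^ 2 / (64 * T) := by
      linarith [hmin q hq, min_le_right η (c ^ 2 * δ ^ 2 / (64 * T))]
    have h2 : c ^ 2 * δ ^ 2 / (64 * T) = c ^ 2 / (4 * T) * (δ ^ 2 / 16) := by field_simp; ring
    rw [h2] at h1
    exact le_of_mul_le_mul_left h1 hcT
  have hqq := hwp' q hq hPq
  have h12 := mvp_l1_l2 (hrq.1.bm.sub hz.1.bm) hδ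
  have hrz : ∫ u in (0:ℝ)..1, |r k u - z u| ≤ δ / 4 := by
    have : 2 / δ * (∫ u in (0:ℝ)..1, (r k u - z u) ^ 2) ≤ 2 / δ * (δ ^ 2 / 16) :=
      mul_le_mul_of_nonneg_left hsq (by positivity)
    have e2 : 2 / δ * (δ ^ 2 / 16) = δ / 8 := by field_simp; ring
    linarith
  have hrq' : ∫ u in (0:ℝ)..1, |r k u - q u| ≤ ∫ u in (0:ℝ)..1, |r k u - z u| :=
    intervalIntegral.integral_mono_on zero_le_one (mvp_ii ((hrq.1.bm.sub hq.1.bm).comp continuous_abs))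
      (mvp_ii ((hrq.1.bm.sub hz.1.bm).comp continuous_abs)) hqz
  have htri : ∫ u in (0:ℝ)..1, |r k u - qT u| ≤ (∫ u in (0:ℝ)..1, |r k u - q u|) + ∫ u in (0:ℝ)..1, |q u - qT u| := by
    rw [← intervalIntegral.integral_add (mvp_ii ((hrq.1.bm.sub hq.1.bm).comp continuous_abs))
      (mvp_ii ((hq.1.bm.sub hqT.1.bm).comp continuous_abs))]
    refine intervalIntegral.integral_mono_on zero_le_one (mvp_ii ((hrq.1.bm.sub hqT.1.bm).comp continuous_abs))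
      (mvp_ii (((hrq.1.bm.sub hq.1.bm).comp continuous_abs).add ((hq.1.bm.sub hqT.1.bm).comp continuous_abs))) fun u _ => ?_
    exact abs_sub_le _ _ _
  have hnn0 : 0 ≤ ∫ u in (0:ℝ)..1, |r k u - qT u| :=
    intervalIntegral.integral_nonneg zero_le_one fun u _ => abs_nonneg _
  rw [Real.dist_eq, sub_zero, abs_of_nonneg hnn0]
  linarith


/-- averages of a clock lie between the end values -/
theorem mv_locunif_avg {z : ℝ → ℝ} (hz : MvClk z) {u v : ℝ} (hu : 0 ≤ u) (huv : u ≤ v) (hv : v ≤ 1) :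
    (v - u) * z u ≤ ∫ x in u..v, z x ∧ ∫ x in u..v, z x ≤ (v - u) * z v := by
  have hu' : u ∈ Icc (0:ℝ) 1 := ⟨hu, huv.trans hv⟩
  have hv' : v ∈ Icc (0:ℝ) 1 := ⟨hu.trans huv, hv⟩
  have hii := hz.bm.ii hu' hv'
  constructor
  · have := intervalIntegral.integral_mono_on huv (intervalIntegrable_const (c := z u)) hii
      (fun x hx => hz.1 hu' ⟨hu.trans hx.1, hx.2.trans hv⟩ hx.1)
    rwa [intervalIntegral.integral_const, smul_eq_mul] at this
  · have := intervalIntegral.integral_mono_on huv hii (intervalIntegrable_const (c := z v))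
      (fun x hx => hz.1 ⟨hu.trans hx.1, hx.2.trans hv⟩ hv' hx.2)
    rwa [intervalIntegral.integral_const, smul_eq_mul] at this

/-- the difference of the averages is bounded by the `L¹` distance -/
theorem mv_locunif_diff {z w : ℝ → ℝ} (hz : MvClk z) (hw : MvClk w) {u v : ℝ} (hu : 0 ≤ u) (huv : u ≤ v) (hv : v ≤ 1) :
    |(∫ x in u..v, z x) - ∫ x in u..v, w x| ≤ ∫ x in (0:ℝ)..1, |z x - w x| := by
  have hu' : u ∈ Icc (0:ℝ) 1 := ⟨hu, huv.trans hv⟩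
  have hv' : v ∈ Icc (0:ℝ) 1 := ⟨hu.trans huv, hv⟩
  have hbm : MvBM (fun x => |z x - w x|) := (hz.bm.sub hw.bm).comp (φ := fun x => |x|) continuous_abs
  rw [← intervalIntegral.integral_sub (hz.bm.ii hu' hv') (hw.bm.ii hu' hv')]
  refine (intervalIntegral.abs_integral_le_integral_abs huv).trans ?_
  exact intervalIntegral.integral_mono_interval hu huv hv (Eventually.of_forall fun x => abs_nonneg _)
    (hbm.ii (left_mem_Icc.2 zero_le_one) (right_mem_Icc.2 zero_le_one))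

/-- `L¹` convergence of quantiles to a quantile continuous on `(0,1)` is locally uniform.
PROOF: for `u ∈ [a,b]`, `τ` small: `r_k u ≤ (1/τ) ∫_u^{u+τ} r_k ≤ (1/τ) ∫_u^{u+τ} q + (1/τ) ‖r_k - q‖₁ ≤ q (u+τ) + ‖r_k - q‖₁/τ`, same below; uniform continuity of `q` on `[a/2,(1+b)/2]`. -/
theorem mv_locunif (q : ℝ → ℝ) (hq : MvQt q) (hqc : ContinuousOn q (Ioo (0:ℝ) 1)) (r : ℕ → ℝ → ℝ) (hr : ∀ k, MvQt (r k))
    (hl : Tendsto (fun k => ∫ u in (0:ℝ)..1, |r k u - q u|) atTop (𝓝 0)) {a b : ℝ} (ha : 0 < a) (hab : a ≤ b) (hb : b < 1) :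
    ∀ δ > 0, ∀ᶠ k in atTop, ∀ u ∈ Icc a b, |r k u - q u| ≤ δ := by
  intro δ hδ
  have hsub : Icc (a / 2) ((1 + b) / 2) ⊆ Ioo (0:ℝ) 1 := fun x hx => ⟨by linarith [hx.1], by linarith [hx.2]⟩
  have huc : UniformContinuousOn q (Icc (a / 2) ((1 + b) / 2)) :=
    isCompact_Icc.uniformContinuousOn_of_continuous (hqc.mono hsub)
  rw [Metric.uniformContinuousOn_iff] at huc
  obtain ⟨τ0, hτ0, hq0⟩ := huc (δ / 2) (by linarith)
  obtain ⟨τ, hτd⟩ : ∃ τ, τ = min (τ0 / 2) (min (a / 2) ((1 - b) / 2)) := ⟨_, rfl⟩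
  have hτ : 0 < τ := by
    rw [hτd]
    exact lt_min (by linarith) (lt_min (by linarith) (by linarith))
  have hτ1 : τ ≤ τ0 / 2 := hτd ▸ min_le_left _ _
  have hτ2 : τ ≤ a / 2 := hτd ▸ (min_le_right _ _).trans (min_le_left _ _)
  have hτ3 : τ ≤ (1 - b) / 2 := hτd ▸ (min_le_right _ _).trans (min_le_right _ _)
  have hev : ∀ᶠ k in atTop, ∫ u in (0:ℝ)..1, |r k u - q u| < τ * (δ / 2) :=
    hl.eventually (gt_mem_nhds (by positivity))
  filter_upwards [hev] with k hk u hu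
  have hup : u + τ ≤ 1 := by linarith [hu.2]
  have hlo : 0 ≤ u - τ := by linarith [hu.1]
  have hu0 : 0 ≤ u := by linarith [hu.1]
  have hu1 : u ≤ 1 := by linarith [hu.2]
  have hmem : u ∈ Icc (a / 2) ((1 + b) / 2) := ⟨by linarith [hu.1], by linarith [hu.2]⟩
  have hmemp : u + τ ∈ Icc (a / 2) ((1 + b) / 2) := ⟨by linarith [hu.1], by linarith [hu.2]⟩
  have hmemm : u - τ ∈ Icc (a / 2) ((1 + b) / 2) := ⟨by linarith [hu.1], by linarith [hu.2]⟩
  have hqp : q (u + τ) ≤ q u + δ / 2 := by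
    have := hq0 (u + τ) hmemp u hmem (by rw [Real.dist_eq]; rw [abs_of_nonneg (by linarith)]; linarith)
    rw [Real.dist_eq] at this
    linarith [(abs_lt.1 this).2]
  have hqm : q u - δ / 2 ≤ q (u - τ) := by
    have := hq0 (u - τ) hmemm u hmem (by rw [Real.dist_eq, abs_sub_comm]; rw [abs_of_nonneg (by linarith)]; linarith)
    rw [Real.dist_eq] at this
    linarith [(abs_lt.1 this).1]
  -- upper
  have h1 := (mv_locunif_avg (hr k).1 hu0 (by linarith : u ≤ u + τ) hup).1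
  have h2 := (mv_locunif_avg hq.1 hu0 (by linarith : u ≤ u + τ) hup).2
  have h3 := abs_le.1 (mv_locunif_diff (hr k).1 hq.1 hu0 (by linarith : u ≤ u + τ) hup)
  -- lower
  have h4 := (mv_locunif_avg (hr k).1 hlo (by linarith : u - τ ≤ u) hu1).2
  have h5 := (mv_locunif_avg hq.1 hlo (by linarith : u - τ ≤ u) hu1).1
  have h6 := abs_le.1 (mv_locunif_diff (hr k).1 hq.1 hlo (by linarith : u - τ ≤ u) hu1)
  have e1 : u + τ - u = τ := by ring
  have e2 : u - (u - τ) = τ := by ring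
  rw [e1] at h1 h2
  rw [e2] at h4 h5
  rw [abs_le]
  constructor
  · have : τ * (q u - δ / 2 - δ / 2) ≤ τ * r k u := by
      have := mul_le_mul_of_nonneg_left hqm hτ.le
      nlinarith [h6.1]
    have := le_of_mul_le_mul_left this hτ
    linarith
  · have : τ * r k u ≤ τ * (q u + δ / 2 + δ / 2) := by
      have := mul_le_mul_of_nonneg_left hqp hτ.le
      nlinarith [h3.2]
    have := le_of_mul_le_mul_left this hτ
    linarith

end

end Claimed.Agent.R286
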