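import Claimed.Agent.R286.Exit.ClkPr
import Claimed.Agent.R286.Exit.ClkSus
import Claimed.Agent.R286.Exit.ClkStat
import Claimed.Agent.R286.Exit.ClkSite
import Claimed.Agent.R286.Macro.Iface
import Claimed.Agent.R286.Defs.Clk
import Claimed.Agent.R286.Macro.Profile

/-! # Row 286 (S0533), unit MAC: file `Macro/Contract.lean` = merge of Supply, Contract (file cap, lead 02:45Z).      owner helper67 -/

/-!
# Row 286 (S0533), unit MAC, file Supply: the interface `MvIface n` of the SK model from the exits (G1)-(G4) of PE Prop 2.14 (`Exit/ClkPr, ClkSus, ClkStat`, helper42).      (owner helper67; prefix `mac_`)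
-/

set_option autoImplicit false

namespace Claimed.Agent.R286

open MeasureTheory Set Filter Topology

noncomputable section

theorem mac_adm {b h : ℝ → ℝ} (hb : MvClk b) (hh : MvClk h) : CkAdm 1 b h := ⟨hb, hh⟩

theorem mac_posA_ok {u : ℝ} (hu : u ∈ Icc (0:ℝ) 1) : (ghPosA u).Ok 1 := by
  refine ⟨hu.1, hu.2, ?_, ?_⟩ <;> simp [GhPos.lam, ghPosA]

theorem mac_posA_le {u v : ℝ} (huv : u ≤ v) : ghPosA u ≤ ghPosA v := by
  unfold ghPosA
  rw [Prod.Lex.toLex_le_toLex]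
  rcases huv.lt_or_eq with h | h
  · exact Or.inl h
  · exact Or.inr ⟨h, le_rfl⟩

theorem mac_posA_u (u : ℝ) : (ghPosA u).u = u := rfl

theorem mac_seg_eq (s : ℝ) (c c' : ℝ → ℝ) : ckSeg s c c' = fun u => c u + s * (c' u - c u) := by
  funext u; unfold ckSeg; ring

theorem mac_seg_zero (c c' : ℝ → ℝ) : ckSeg 0 c c' = c := by
  funext u; unfold ckSeg; ring

variable (n : ℕ) (hn : 0 < n)

/-- `S`, `B`, `E tr H²`, `E tr C²`, `Var|X|²` as functions of the mass (after the jump) -/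
def macS (b h : ℝ → ℝ) (u : ℝ) : ℝ := skCS n 1 b h (ghPosA u)
def macB (b h : ℝ → ℝ) (u : ℝ) : ℝ := skCB n 1 b h (ghPosA u)
def macH2 (b h : ℝ → ℝ) (u : ℝ) : ℝ := ckH2 n 1 b h (ghPosA u)
def macC2 (b h : ℝ → ℝ) (u : ℝ) : ℝ := ckC2 n 1 b h (ghPosA u)
def macVx (b h : ℝ → ℝ) (u : ℝ) : ℝ := ckVx n 1 b h (ghPosA u)
/-- the pressure with terminal mass `1` -/
def macF (b h : ℝ → ℝ) : ℝ := skCPr n 1 b h

include hn

theorem mac_lip (b h b' h' : ℝ → ℝ) (hb : MvClk b) (hh : MvClk h) (hb' : MvClk b') (hh' : MvClk h') :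
    |macF n b h - macF n b' h'| ≤ 1 / 4 * (∫ u in (0:ℝ)..1, |b u - b' u|) + 1 / 2 * ∫ u in (0:ℝ)..1, |h u - h' u| :=
  exit_clk_pr_lip hn one_pos (mac_adm hb hh) (mac_adm hb' hh')

theorem mac_deriv (b h b' h' : ℝ → ℝ) (hb : MvClk b) (hh : MvClk h) (hb' : MvClk b') (hh' : MvClk h') :
    HasDerivWithinAt (fun θ : ℝ => macF n (fun u => b u + θ * (b' u - b u)) (fun u => h u + θ * (h' u - h u)))
      (-(1 / 4) * (∫ u in (0:ℝ)..1, macB n b h u * (b' u - b u)) - 1 / 2 * ∫ u in (0:ℝ)..1, macS n b h u * (h' u - h u)) (Ici 0) 0 := by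
  have h1 := (exit_clk_pr_deriv hn one_pos (mac_adm hb hh) (mac_adm hb' hh')).1 0 (by simp)
  have h2 : HasDerivWithinAt (fun s => skCPr n 1 (ckSeg s b b') (ckSeg s h h')) (ckDPr n 1 b h b' h' 0) (Ici 0) 0 :=
    h1.mono_of_mem_nhdsWithin (Icc_mem_nhdsGE (by norm_num : (0:ℝ) < 1))
  have e1 : (fun θ : ℝ => macF n (fun u => b u + θ * (b' u - b u)) (fun u => h u + θ * (h' u - h u)))
      = fun s => skCPr n 1 (ckSeg s b b') (ckSeg s h h') := by
    funext s; rw [mac_seg_eq, mac_seg_eq]; rfl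
  have e2 : (-(1 / 4) * (∫ u in (0:ℝ)..1, macB n b h u * (b' u - b u)) - 1 / 2 * ∫ u in (0:ℝ)..1, macS n b h u * (h' u - h u))
      = ckDPr n 1 b h b' h' 0 := by
    unfold ckDPr; rw [mac_seg_zero, mac_seg_zero]; rfl
  rw [e1, e2]
  exact h2

theorem mac_S_mono (b h : ℝ → ℝ) (hb : MvClk b) (hh : MvClk h) : MonotoneOn (macS n b h) (Icc (0:ℝ) 1) := by
  intro u hu v hv huv
  exact (exit_clk_SB hn one_pos (mac_adm hb hh) (mac_posA_ok hu) (mac_posA_ok hv) (mac_posA_le huv)).2.1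

theorem mac_S_mem (b h : ℝ → ℝ) (hb : MvClk b) (hh : MvClk h) (u : ℝ) (hu : u ∈ Icc (0:ℝ) 1) : macS n b h u ∈ Icc (0:ℝ) 1 := by
  obtain ⟨h0, -, -, h3, h4⟩ := exit_clk_SB hn one_pos (mac_adm hb hh) (mac_posA_ok hu) (mac_posA_ok hu) le_rfl
  exact ⟨h0, by unfold macS; nlinarith⟩

theorem mac_B_mono (b h : ℝ → ℝ) (hb : MvClk b) (hh : MvClk h) : MonotoneOn (macB n b h) (Icc (0:ℝ) 1) := by
  intro u hu v hv huv
  exact (exit_clk_SB hn one_pos (mac_adm hb hh) (mac_posA_ok hu) (mac_posA_ok hv) (mac_posA_le huv)).2.2.1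

theorem mac_B_mem (b h : ℝ → ℝ) (hb : MvClk b) (hh : MvClk h) (u : ℝ) (hu : u ∈ Icc (0:ℝ) 1) : macB n b h u ∈ Icc (0:ℝ) 1 := by
  obtain ⟨h0, -, -, h3, h4⟩ := exit_clk_SB hn one_pos (mac_adm hb hh) (mac_posA_ok hu) (mac_posA_ok hu) le_rfl
  exact ⟨le_trans (sq_nonneg _) h3, h4⟩

theorem mac_H2_meas (b h : ℝ → ℝ) (hb : MvClk b) (hh : MvClk h) : AEStronglyMeasurable (macH2 n b h) (volume.restrict (Ioc (0:ℝ) 1)) :=
  (exit_clk_intble hn one_pos (mac_adm hb hh)).2.2.1.1.aestronglyMeasurable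

theorem mac_H2_mem (b h : ℝ → ℝ) (hb : MvClk b) (hh : MvClk h) (u : ℝ) (hu : u ∈ Icc (0:ℝ) 1) : macH2 n b h u ∈ Icc (0:ℝ) 1 := by
  obtain ⟨h1, h2⟩ := exit_clk_H2 hn one_pos (mac_adm hb hh) (mac_posA_ok hu)
  obtain ⟨-, h4, h5, -, -⟩ := exit_clk_D2 hn one_pos (mac_adm hb hh) (mac_posA_ok hu)
  exact ⟨le_trans (mul_nonneg (sq_nonneg _) h4) h1, by unfold macH2; nlinarith⟩

theorem mac_C2_meas (b h : ℝ → ℝ) (hb : MvClk b) (hh : MvClk h) : AEStronglyMeasurable (macC2 n b h) (volume.restrict (Ioc (0:ℝ) 1)) :=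
  (exit_clk_intble hn one_pos (mac_adm hb hh)).2.2.2.1.1.aestronglyMeasurable

theorem mac_C2_mem (b h : ℝ → ℝ) (hb : MvClk b) (hh : MvClk h) (u : ℝ) (hu : u ∈ Icc (0:ℝ) 1) : macC2 n b h u ∈ Icc (0:ℝ) 1 := by
  obtain ⟨-, h4, h5, -, -⟩ := exit_clk_D2 hn one_pos (mac_adm hb hh) (mac_posA_ok hu)
  exact ⟨h4, h5⟩

theorem mac_Vx_meas (b h : ℝ → ℝ) (hb : MvClk b) (hh : MvClk h) : AEStronglyMeasurable (macVx n b h) (volume.restrict (Ioc (0:ℝ) 1)) :=
  (exit_clk_intble hn one_pos (mac_adm hb hh)).2.2.2.2.1.aestronglyMeasurable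

theorem mac_Vx_mem (b h : ℝ → ℝ) (hb : MvClk b) (hh : MvClk h) (u : ℝ) (hu : u ∈ Icc (0:ℝ) 1) : macVx n b h u ∈ Icc (0:ℝ) 1 := by
  obtain ⟨h3, h4, -, -, h6⟩ := exit_clk_D2 hn one_pos (mac_adm hb hh) (mac_posA_ok hu)
  obtain ⟨-, -, -, -, h8⟩ := exit_clk_SB hn one_pos (mac_adm hb hh) (mac_posA_ok hu) (mac_posA_ok hu) le_rfl
  exact ⟨h3, by unfold macVx; nlinarith [sq_nonneg (skCS n 1 b h (ghPosA u))]⟩

theorem mac_susc (b h : ℝ → ℝ) (hb : MvClk b) (hh : MvClk h) (γ : ℝ) (hγ : 0 ≤ γ)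
    (hsl : ∀ u v : ℝ, 0 ≤ u → u ≤ v → v ≤ 1 → γ * (v - u) ≤ h v - h u) : (n : ℝ) * γ * (∫ u in (0:ℝ)..1, macH2 n b h u) ≤ 1 := by
  have h1 := exit_clk_sus_int hn one_pos (mac_adm hb hh) (u := 0) (v := 1) le_rfl zero_le_one le_rfl (fun _ => γ)
    (fun _ _ => hγ) intervalIntegrable_const (by
      intro s t hs hst ht
      rw [intervalIntegral.integral_const, smul_eq_mul, mul_comm]
      exact hsl s t hs hst ht)
  obtain ⟨h0, -, -, -, -⟩ := exit_clk_SB hn one_pos (mac_adm hb hh) (mac_posA_ok (u := 0) (by simp)) (mac_posA_ok (u := 0) (by simp)) le_rfl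
  obtain ⟨h0', -, -, h3, h4⟩ := exit_clk_SB hn one_pos (mac_adm hb hh) (mac_posA_ok (u := 1) (by simp)) (mac_posA_ok (u := 1) (by simp)) le_rfl
  rw [intervalIntegral.integral_const_mul] at h1
  have h5 : skCS n 1 b h (ghPosA 1) ≤ 1 := by nlinarith
  calc (n : ℝ) * γ * (∫ u in (0:ℝ)..1, macH2 n b h u) = n * (γ * ∫ u in (0:ℝ)..1, ckH2 n 1 b h (ghPosA u)) := by unfold macH2; ring
    _ ≤ skCS n 1 b h (ghPosA 1) - skCS n 1 b h (ghPosA 0) := h1
    _ ≤ 1 := by linarith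

theorem mac_dsq (b h : ℝ → ℝ) (hb : MvClk b) (hh : MvClk h) : ∀ᵐ u ∂(volume.restrict (Ioc (0:ℝ) 1)),
    macB n b h u - macS n b h u ^ 2 ≤ macVx n b h u + 2 * Real.sqrt (macC2 n b h u) + macC2 n b h u := by
  filter_upwards [ae_restrict_mem measurableSet_Ioc] with u hu
  exact (exit_clk_D2 hn one_pos (mac_adm hb hh) (mac_posA_ok ⟨hu.1.le, hu.2⟩)).2.2.2.1

theorem mac_hc (b h : ℝ → ℝ) (hb : MvClk b) (hh : MvClk h) : ∀ᵐ u ∂(volume.restrict (Ioc (0:ℝ) 1)), u ^ 2 * macC2 n b h u ≤ macH2 n b h u := by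
  filter_upwards [ae_restrict_mem measurableSet_Ioc] with u hu
  exact (exit_clk_H2 hn one_pos (mac_adm hb hh) (mac_posA_ok ⟨hu.1.le, hu.2⟩)).1

theorem mac_dnn (b h : ℝ → ℝ) (hb : MvClk b) (hh : MvClk h) : ∀ᵐ u ∂(volume.restrict (Ioc (0:ℝ) 1)), macS n b h u ^ 2 ≤ macB n b h u := by
  filter_upwards [ae_restrict_mem measurableSet_Ioc] with u hu
  exact (exit_clk_SB hn one_pos (mac_adm hb hh) (mac_posA_ok ⟨hu.1.le, hu.2⟩) (mac_posA_ok ⟨hu.1.le, hu.2⟩) le_rfl).2.2.2.1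

theorem mac_conc (b h : ℝ → ℝ) (hb : MvClk b) (hh : MvClk h) (ρ : ℝ) (hρ : 0 < ρ) : ∀ᵐ u ∂(volume.restrict (Ioo ρ (1 - ρ))),
    Real.sqrt (macVx n b h u) ≤ (macS n b h (u + ρ) - macS n b h (u - ρ)) + 4 / ρ * Real.sqrt (∫ v in (u - ρ)..(u + ρ), macH2 n b h v / v) := by
  filter_upwards [ae_restrict_mem measurableSet_Ioo] with u hu
  have hu01 : u ∈ Icc (0:ℝ) 1 := ⟨by linarith [hu.1], by linarith [hu.2]⟩
  exact exit_clk_Vx hn one_pos (mac_adm hb hh) (mac_posA_ok hu01) hρ (by rw [mac_posA_u]; linarith [hu.1]) (by rw [mac_posA_u]; linarith [hu.2])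

/-- the SK interface at size `n ≥ 1` -/
def macIface : MvIface n where
  f := macF n
  S := macS n
  B := macB n
  H2 := macH2 n
  C2 := macC2 n
  Vx := macVx n
  lip := mac_lip n hn
  deriv := mac_deriv n hn
  S_mono := mac_S_mono n hn
  S_mem := mac_S_mem n hn
  B_mono := mac_B_mono n hn
  B_mem := mac_B_mem n hn
  H2_meas := mac_H2_meas n hn
  H2_mem := mac_H2_mem n hn
  C2_meas := mac_C2_meas n hn
  C2_mem := mac_C2_mem n hn
  Vx_meas := mac_Vx_meas n hn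
  Vx_mem := mac_Vx_mem n hn
  susc := mac_susc n hn
  dsq := mac_dsq n hn
  hc := mac_hc n hn
  dnn := mac_dnn n hn
  conc := mac_conc n hn

end

end Claimed.Agent.R286


/-!
# Row 286 (S0533), unit MAC (PE Sec. 5.4-5.6, profile.tex l.570-913, package P11): CONTRACT      (owner helper67; ADV helper279; prefix `mac_`)

## IMPORTS (supplies; each is a named sorried theorem with an owner)
* `mac_supply_iface`   (PROVED from `exit_clk_pr_deriv, exit_clk_pr_lip, exit_clk_SB, exit_clk_D2, exit_clk_H2, exit_clk_intble, exit_clk_sus_int, exit_clk_Vx`; OWNER of those: PE Sec2, 118 / 42 / 150): the planted calculus of general clocks at size `n`, packed as `MvIface n` (Macro/Iface.lean) for the SK numbers `skCPr`, `skCS`, `skCB` of Defs/Clk.lean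
                       = exports (G1)-(G4) of the science ledger (142, D6) + the bracket of profile.tex l.659-684.      `H2, C2, Vx` are EXISTENTIAL: any functions with the listed inequalities will do.
* `mac_supply_site`    OWNER PE Sec2: `f_n(0,K) = f_1(0,K)` (independence across sites).
* from PAR (BOX-C, 183; 159, 149, 279): the Parisi quantile `qT`, its minimality and WELL-POSEDNESS (hypotheses `hmin`, `hwp` of `mac_profile`).
## EXITS
* `mac_guerra`, `mac_quant`, `mac_limit`, `mac_limit_var`  = PE Lemma 5.7 (upper bound; quantitative lower bound, the form used by LL 06-global l.236-275; limit; varying paths).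
* `mac_profile`        = PE Prop 5.9 in model-free form (any strength profiles `e k`, any feasible classes `R k`): users PE Sec6 (14), LL 06/07.      Concrete form in the vocabulary of Cmp/Defs: helper279.
* `mv_locunif` (Macro/Profile.lean): `L¹` ⇒ locally uniform.
TERMINAL MASS `a ≠ 1` (ledger D4): rescale the masses, `u = a u'`, `f/a`: all fields of `MvIface` are invariant for `a ≥ 1`; ask 67 if a user needs it.
TEXDROP[PE:prof:scalar-minimizer] belongs to unit PAR (BOX-C).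
-/

set_option autoImplicit false

namespace Claimed.Agent.R286

open MeasureTheory Set Filter Topology

noncomputable section

/-- **SUPPLY**, PROVED in Macro/Supply.lean from the exits `Exit/ClkPr, ClkSus, ClkStat` (owner PE Sec2: 118 / 42 / 150).   TEX[PE:lem:found-source] TEX[PE:lem:found-pressure] TEX[PE:lem:found-moments] TEX[PE:prop:found-limits] -/
theorem mac_supply_iface (n : ℕ) (hn : 0 < n) : ∃ I : MvIface n,
    (∀ b h, MvClk b → MvClk h → I.f b h = skCPr n 1 b h) ∧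
    (∀ b h, MvClk b → MvClk h → ∀ u ∈ Ioo (0:ℝ) 1, I.S b h u = skCS n 1 b h (ghPosA u)) ∧
    (∀ b h, MvClk b → MvClk h → ∀ u ∈ Ioo (0:ℝ) 1, I.B b h u = skCB n 1 b h (ghPosA u)) :=
  ⟨macIface n hn, fun _ _ _ _ => rfl, fun _ _ _ _ _ _ => rfl, fun _ _ _ _ _ _ => rfl⟩

/-- **SUPPLY** (owner PE Sec2): without matrix clock the sites are independent -/
theorem mac_supply_site (n : ℕ) (hn : 0 < n) (K : ℝ → ℝ) (hK : MvClk K) :
    skCPr n 1 (fun _ => 0) K = skCPr 1 1 (fun _ => 0) K := exit_clk_site hn one_pos K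

/-- an interface at size `n` is an interface at every smaller size (only `susc` mentions `n`) -/
def MvIface.weaken {n m : ℕ} (hmn : m ≤ n) (I : MvIface n) : MvIface m where
  f := I.f
  S := I.S
  B := I.B
  H2 := I.H2
  C2 := I.C2
  Vx := I.Vx
  lip := I.lip
  deriv := I.deriv
  S_mono := I.S_mono
  S_mem := I.S_mem
  B_mono := I.B_mono
  B_mem := I.B_mem
  H2_meas := I.H2_meas
  H2_mem := I.H2_mem
  C2_meas := I.C2_meas
  C2_mem := I.C2_mem
  Vx_meas := I.Vx_meas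
  Vx_mem := I.Vx_mem
  susc := by
    intro b h hb hh γ hγ hsl
    have h1 := I.susc b h hb hh γ hγ hsl
    have h2 : 0 ≤ ∫ u in (0:ℝ)..1, I.H2 b h u :=
      intervalIntegral.integral_nonneg zero_le_one (fun u hu => (I.H2_mem b h hb hh u hu).1)
    have h3 : (m : ℝ) ≤ n := by exact_mod_cast hmn
    calc (m : ℝ) * γ * (∫ u in (0:ℝ)..1, I.H2 b h u) ≤ (n : ℝ) * γ * (∫ u in (0:ℝ)..1, I.H2 b h u) := by
          apply mul_le_mul_of_nonneg_right _ h2
          exact mul_le_mul_of_nonneg_right h3 hγ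
      _ ≤ 1 := h1
  dsq := I.dsq
  hc := I.hc
  dnn := I.dnn
  conc := I.conc

/-- the SK interface at size `n` (at `n = 0`: the one of size `1`) -/
def macI (n : ℕ) : MvIface n :=
  if hn : 0 < n then Classical.choose (mac_supply_iface n hn)
  else (Classical.choose (mac_supply_iface 1 one_pos)).weaken (by omega)

/-- the one-site pressure `f_spin(K) = f_1(0,K)` -/
def macSpin (K : ℝ → ℝ) : ℝ := skCPr 1 1 (fun _ => 0) K

theorem macI_f {n : ℕ} (hn : 0 < n) {b h : ℝ → ℝ} (hb : MvClk b) (hh : MvClk h) : (macI n).f b h = skCPr n 1 b h := by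
  unfold macI
  rw [dif_pos hn]
  exact (Classical.choose_spec (mac_supply_iface n hn)).1 b h hb hh

theorem macI_spin (n : ℕ) (K : ℝ → ℝ) (hK : MvClk K) : (macI n).f (fun _ => 0) K = macSpin K := by
  have h0 : MvClk (fun _ : ℝ => (0:ℝ)) := MvClk.const le_rfl
  by_cases hn : 0 < n
  · rw [macI_f hn h0 hK, mac_supply_site n hn K hK]; rfl
  · unfold macI
    rw [dif_neg hn]
    exact (Classical.choose_spec (mac_supply_iface 1 one_pos)).1 _ K h0 hK

/-- **EXIT** Guerra's bound.   TEX[PE:prof:macro-variational] -/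
theorem mac_guerra {n : ℕ} (hn : 0 < n) {b h z : ℝ → ℝ} (hb : MvClk b) (hh : MvClk h) (hz : MvQt z) :
    skCPr n 1 b h ≤ mvG macSpin b h z := by
  rw [← macI_f hn hb hh]
  exact mv_guerra (macI n) macSpin (macI_spin n) hb hh hz

/-- **EXIT** PE Lemma 5.7, quantitative (used by LL 06-global).   TEX[PE:prof:macro-variational] -/
theorem mac_quant {n : ℕ} (hn : 0 < n) {b h : ℝ → ℝ} (hb : MvClk b) (hh : MvClk h) {bs : ℝ} (hbs : 0 < bs) (hb1 : ∀ u ∈ Icc (0:ℝ) 1, bs ≤ b u)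
    {N : ℕ} (hN : 0 < N) {lo ε ρ : ℝ} (hlo : 0 < lo) (hlo1 : lo ≤ 1) (hε : 0 < ε) (hε1 : ε ≤ 1) (hρ : 0 < ρ) (hρ1 : ρ ≤ 1) :
    ∃ z : ℝ → ℝ, MvQt z ∧ mvG macSpin b h z ≤ skCPr n 1 b h + b 1 / 4 * mvErr n N lo bs ε ρ := by
  obtain ⟨d, hd, h1⟩ := mv_quant hn (macI n) macSpin (macI_spin n) hb hh hbs hb1 hN hlo hlo1 hε hε1 hρ hρ1
  rw [macI_f hn hb hh] at h1
  exact ⟨mvZ d, mvZ_qt hN hlo.le hd, h1⟩

/-- **EXIT** PE Lemma 5.7 (the generalised Parisi formula).   TEX[PE:prof:macro-variational] -/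
theorem mac_limit {b h : ℝ → ℝ} (hb : MvClk b) (hh : MvClk h) {bs : ℝ} (hbs : 0 < bs) (hb1 : ∀ u ∈ Icc (0:ℝ) 1, bs ≤ b u) :
    Tendsto (fun n => skCPr n 1 b h) atTop (𝓝 (⨅ z : {z : ℝ → ℝ // MvQt z}, mvG macSpin b h z.1)) := by
  have h1 := mv_limit macI macSpin macI_spin hb hh hbs hb1
  refine h1.congr' ?_
  filter_upwards [eventually_gt_atTop 0] with n hn
  exact macI_f hn hb hh

end

end Claimed.Agent.R286
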