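import Claimed.Agent.R286.Macro.Profile
import Claimed.Agent.R286.Cmp.Num

/-! # Row 286 (S0533), unit MAC: file `Macro/Inst.lean` = merge of Comp, Inst (file cap, lead 02:45Z).      owner helper67 -/

/-!
# Row 286, P11 (PE Proposition 5.9, profile.tex l.873-882), file 9: COMPETITORS in the class (5).   (helper279; prefix `mvc`)

* `mvc_mkQ`     a bi-Lipschitz increasing map `ρ : [u0,1] → [rmin,1]` with slopes in `[s,S]`, `n^(-3δ) S ≤ 1 ≤ n^δ s`, is the quantile of a feasible `CmQ P`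
                (`k ≤ n^(-3δ)`, `M ≥ n^δ`; the inverse quantile is `Function.invFunOn`).
* `mvcRho`      the affine adjustment of a trial quantile `mvZ d` to the end points `(u0, rmin)`.
* `mvc_comp`    for every quantile `qT`, grid `N`, floor `lo`: a feasible `CmQ P` whose quantile is `L¹`-close to `qT`.
-/

set_option autoImplicit false

namespace Claimed.Agent.R286

open MeasureTheory Set Filter Topology

noncomputable section

/-- a bi-Lipschitz increasing map onto `[rmin,1]` is a feasible quantile -/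
theorem mvc_mkQ {cE D0 : ℝ} (hc : 0 < cE) {P : CmCall} (h : P.Ok cE D0)
    {ρ : ℝ → ℝ} {s S : ℝ} (hs : 0 < s)
    (h0 : ρ P.u0 = P.rmin) (h1 : ρ 1 = 1)
    (hlo : ∀ u v : ℝ, P.u0 ≤ u → u ≤ v → v ≤ 1 → s * (v - u) ≤ ρ v - ρ u)
    (hhi : ∀ u v : ℝ, P.u0 ≤ u → u ≤ v → v ≤ 1 → ρ v - ρ u ≤ S * (v - u))
    (hk : P.N ^ (-(3 * P.dl)) * S ≤ 1) (hM : 1 ≤ P.N ^ P.dl * s) :
    ∃ q : CmQ P, ∀ u ∈ Icc P.u0 1, q.r u = ρ u := by
  have hu01 : P.u0 ≤ 1 := h.u01.trans (by norm_num)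
  have hN := cm_N_pos h
  have hNk : 0 < P.N ^ (-(3 * P.dl)) := Real.rpow_pos_of_pos hN _
  have hNd : 0 < P.N ^ P.dl := Real.rpow_pos_of_pos hN _
  -- strict monotonicity and continuity
  have hmono : ∀ u v : ℝ, P.u0 ≤ u → u ≤ v → v ≤ 1 → ρ u ≤ ρ v := fun u v a b c => by
    have := hlo u v a b c
    nlinarith [mul_nonneg hs.le (sub_nonneg.2 b)]
  have hinj : ∀ u ∈ Icc P.u0 1, ∀ v ∈ Icc P.u0 1, ρ u = ρ v → u = v := by
    intro u hu v hv e
    rcases le_total u v with a | a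
    · have := hlo u v hu.1 a hv.2
      rw [e, sub_self] at this
      have h2 : v - u ≤ 0 := by
        by_contra hcon
        rw [not_le] at hcon
        nlinarith [mul_pos hs hcon]
      linarith
    · have := hlo v u hv.1 a hu.2
      rw [e, sub_self] at this
      have h2 : u - v ≤ 0 := by
        by_contra hcon
        rw [not_le] at hcon
        nlinarith [mul_pos hs hcon]
      linarith
  have hS0 : 0 ≤ S := by
    by_contra hcon
    rw [not_le] at hcon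
    rcases eq_or_lt_of_le hu01 with e | e
    · -- degenerate: u0 = 1 is excluded by `u01`
      have := h.u01
      rw [e] at this
      norm_num at this
    · have a1 := hhi P.u0 1 le_rfl hu01 le_rfl
      have a2 := hlo P.u0 1 le_rfl hu01 le_rfl
      nlinarith [mul_pos hs (sub_pos.2 e), mul_pos (neg_pos.2 hcon) (sub_pos.2 e)]
  have hcont : ContinuousOn ρ (Icc P.u0 1) := by
    have hL : LipschitzOnWith (Real.toNNReal S) ρ (Icc P.u0 1) := by
      refine LipschitzOnWith.of_dist_le_mul fun u hu v hv => ?_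
      rw [Real.dist_eq, Real.dist_eq, Real.coe_toNNReal _ hS0]
      rcases le_total u v with a | a
      · have b1 := hhi u v hu.1 a hv.2
        have b2 := hmono u v hu.1 a hv.2
        rw [abs_sub_comm, abs_of_nonneg (sub_nonneg.2 b2), abs_sub_comm, abs_of_nonneg (sub_nonneg.2 a)]
        exact b1
      · have b1 := hhi v u hv.1 a hu.2
        have b2 := hmono v u hv.1 a hu.2
        rw [abs_of_nonneg (sub_nonneg.2 b2), abs_of_nonneg (sub_nonneg.2 a)]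
        exact b1
    exact hL.continuousOn
  have hsurj : ∀ t ∈ Icc P.rmin 1, ∃ u ∈ Icc P.u0 1, ρ u = t := by
    intro t ht
    have := intermediate_value_Icc hu01 hcont
    rw [h0, h1] at this
    obtain ⟨u, hu, e⟩ := this ht
    exact ⟨u, hu, e⟩
  set al : ℝ → ℝ := Function.invFunOn ρ (Icc P.u0 1) with hal
  have hal_mem : ∀ t ∈ Icc P.rmin 1, al t ∈ Icc P.u0 1 := fun t ht =>
    Function.invFunOn_mem (hsurj t ht)
  have hal_eq : ∀ t ∈ Icc P.rmin 1, ρ (al t) = t := fun t ht =>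
    Function.invFunOn_eq (hsurj t ht)
  have hρ_mem : ∀ u ∈ Icc P.u0 1, ρ u ∈ Icc P.rmin 1 := fun u hu =>
    ⟨h0 ▸ hmono P.u0 u le_rfl hu.1 hu.2, h1 ▸ hmono u 1 hu.1 hu.2 le_rfl⟩
  have hal_ρ : ∀ u ∈ Icc P.u0 1, al (ρ u) = u := fun u hu =>
    hinj _ (hal_mem _ (hρ_mem u hu)) u hu (hal_eq _ (hρ_mem u hu))
  have hr1 : P.rmin ≤ 1 := (hρ_mem P.u0 ⟨le_rfl, hu01⟩).2.trans' (le_of_eq h0.symm)
  have hal_mono : ∀ t1 t2 : ℝ, P.rmin ≤ t1 → t1 ≤ t2 → t2 ≤ 1 → al t1 ≤ al t2 := by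
    intro t1 t2 a b c
    by_contra hcon
    rw [not_le] at hcon
    have m1 := hal_mem t1 ⟨a, b.trans c⟩
    have m2 := hal_mem t2 ⟨a.trans b, c⟩
    have := hlo (al t2) (al t1) m2.1 hcon.le m1.2
    rw [hal_eq t1 ⟨a, b.trans c⟩, hal_eq t2 ⟨a.trans b, c⟩] at this
    nlinarith [mul_pos hs (sub_pos.2 hcon)]
  -- two-sided slope of the inverse
  have hal_lo : ∀ t1 t2 : ℝ, P.rmin ≤ t1 → t1 ≤ t2 → t2 ≤ 1 → t2 - t1 ≤ S * (al t2 - al t1) := by
    intro t1 t2 a b c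
    have m1 := hal_mem t1 ⟨a, b.trans c⟩
    have m2 := hal_mem t2 ⟨a.trans b, c⟩
    have := hhi (al t1) (al t2) m1.1 (hal_mono t1 t2 a b c) m2.2
    rwa [hal_eq t1 ⟨a, b.trans c⟩, hal_eq t2 ⟨a.trans b, c⟩] at this
  have hal_hi : ∀ t1 t2 : ℝ, P.rmin ≤ t1 → t1 ≤ t2 → t2 ≤ 1 → s * (al t2 - al t1) ≤ t2 - t1 := by
    intro t1 t2 a b c
    have m1 := hal_mem t1 ⟨a, b.trans c⟩
    have m2 := hal_mem t2 ⟨a.trans b, c⟩
    have := hlo (al t1) (al t2) m1.1 (hal_mono t1 t2 a b c) m2.2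
    rwa [hal_eq t1 ⟨a, b.trans c⟩, hal_eq t2 ⟨a.trans b, c⟩] at this
  have hal_cont : ContinuousOn al (Icc P.rmin 1) := by
    have hL : LipschitzOnWith (Real.toNNReal s⁻¹) al (Icc P.rmin 1) := by
      refine LipschitzOnWith.of_dist_le_mul fun u hu v hv => ?_
      rw [Real.dist_eq, Real.dist_eq, Real.coe_toNNReal _ (inv_nonneg.2 hs.le)]
      rcases le_total u v with a | a
      · have b1 := hal_hi u v hu.1 a hv.2
        have b2 := hal_mono u v hu.1 a hv.2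
        rw [abs_sub_comm, abs_of_nonneg (sub_nonneg.2 b2), abs_sub_comm, abs_of_nonneg (sub_nonneg.2 a),
          inv_mul_eq_div, le_div_iff₀ hs]
        linarith
      · have b1 := hal_hi v u hv.1 a hu.2
        have b2 := hal_mono v u hv.1 a hu.2
        rw [abs_of_nonneg (sub_nonneg.2 b2), abs_of_nonneg (sub_nonneg.2 a), inv_mul_eq_div, le_div_iff₀ hs]
        linarith
    exact hL.continuousOn
  refine ⟨⟨al, ρ, ?_, ?_, ?_, ?_, hρ_mem, hal_ρ, hal_eq⟩, fun u _ => rfl⟩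
  · rw [← h0]; exact hal_ρ _ ⟨le_rfl, hu01⟩
  · have := hal_ρ 1 ⟨hu01, le_rfl⟩
    rwa [h1] at this
  · -- floor
    intro r1 r2 a b c
    have hsub : Icc r1 r2 ⊆ Ici (0:ℝ) := fun x hx => h.r0.trans (a.trans hx.1)
    have hki : IntervalIntegrable P.k volume r1 r2 :=
      ((cm_k_cont hc h).mono hsub).intervalIntegrable_of_Icc b
    have e1 : ∫ t in r1..r2, P.k t ≤ ∫ _t in r1..r2, P.N ^ (-(3 * P.dl)) :=
      intervalIntegral.integral_mono_on b hki intervalIntegrable_const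
        (fun x hx => cm_k_le hc h (hsub hx))
    rw [intervalIntegral.integral_const, smul_eq_mul] at e1
    have e2 := hal_lo r1 r2 a b c
    have e3 := hal_mono r1 r2 a b c
    calc ∫ t in r1..r2, P.k t ≤ (r2 - r1) * P.N ^ (-(3 * P.dl)) := e1
      _ ≤ (S * (al r2 - al r1)) * P.N ^ (-(3 * P.dl)) := mul_le_mul_of_nonneg_right e2 hNk.le
      _ = (P.N ^ (-(3 * P.dl)) * S) * (al r2 - al r1) := by ring
      _ ≤ 1 * (al r2 - al r1) := mul_le_mul_of_nonneg_right hk (sub_nonneg.2 e3)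
      _ = al r2 - al r1 := one_mul _
  · -- cap
    intro r1 r2 a b c
    have hsub : Icc r1 r2 ⊆ Icc P.rmin 1 := Icc_subset_Icc a c
    have hMi : IntervalIntegrable (fun t => P.M (al t)) volume r1 r2 :=
      ((cm_M_cont (P := P)).comp_continuousOn (hal_cont.mono hsub)).intervalIntegrable_of_Icc b
    have e1 : ∫ _t in r1..r2, P.N ^ P.dl ≤ ∫ t in r1..r2, P.M (al t) :=
      intervalIntegral.integral_mono_on b intervalIntegrable_const hMi
        (fun x hx => cm_M_ge hc h (h.u00.trans (hal_mem x (hsub hx)).1))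
    rw [intervalIntegral.integral_const, smul_eq_mul] at e1
    have e2 := hal_hi r1 r2 a b c
    have e3 := hal_mono r1 r2 a b c
    calc al r2 - al r1 = 1 * (al r2 - al r1) := (one_mul _).symm
      _ ≤ (P.N ^ P.dl * s) * (al r2 - al r1) := mul_le_mul_of_nonneg_right hM (sub_nonneg.2 e3)
      _ = P.N ^ P.dl * (s * (al r2 - al r1)) := by ring
      _ ≤ P.N ^ P.dl * (r2 - r1) := mul_le_mul_of_nonneg_left e2 hNd.le
      _ = (r2 - r1) * P.N ^ P.dl := by ring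
      _ ≤ ∫ t in r1..r2, P.M (al t) := e1

/-- upper slope of a trial quantile -/
theorem mvcZ_slope_hi {N : ℕ} {lo : ℝ} (hlo : 0 ≤ lo) {d : Fin N → ℝ} (hd : d ∈ mvK N lo) {u v : ℝ}
    (hu : 0 ≤ u) (huv : u ≤ v) (hv : v ≤ 1) : mvZ d v - mvZ d u ≤ (N : ℝ) * (v - u) := by
  have hN0 : (0:ℝ) ≤ (N : ℝ) := Nat.cast_nonneg N
  have hd0 : ∀ j, 0 ≤ d j := fun j => (div_nonneg hlo hN0).trans (hd.1 j)
  have hd1 : ∀ j, d j ≤ 1 := fun j => by
    rw [← hd.2]
    exact Finset.single_le_sum (fun i _ => hd0 i) (Finset.mem_univ j)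
  have e1 : mvZ d v - mvZ d u = ∑ j : Fin N, d j * (mvRamp ((N : ℝ) * v - (j : ℝ)) - mvRamp ((N : ℝ) * u - (j : ℝ))) := by
    unfold mvZ
    rw [← Finset.sum_sub_distrib]
    exact Finset.sum_congr rfl fun j _ => by ring
  have e2 : ∑ j : Fin N, d j * (mvRamp ((N : ℝ) * v - (j : ℝ)) - mvRamp ((N : ℝ) * u - (j : ℝ)))
      ≤ ∑ j : Fin N, (mvRamp ((N : ℝ) * v - (j : ℝ)) - mvRamp ((N : ℝ) * u - (j : ℝ))) := by
    refine Finset.sum_le_sum fun j _ => ?_
    have : 0 ≤ mvRamp ((N : ℝ) * v - (j : ℝ)) - mvRamp ((N : ℝ) * u - (j : ℝ)) :=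
      sub_nonneg.2 (mvRamp_mono (by nlinarith))
    nlinarith [hd1 j]
  have e3 : ∑ j : Fin N, (mvRamp ((N : ℝ) * v - (j : ℝ)) - mvRamp ((N : ℝ) * u - (j : ℝ))) = (N : ℝ) * (v - u) := by
    rw [Finset.sum_sub_distrib, mvRamp_sum, mvRamp_sum]
    have a1 : (N : ℝ) * v ≤ N := by nlinarith
    have a2 : (N : ℝ) * u ≤ N := by nlinarith
    rw [min_eq_left a1, min_eq_left a2, max_eq_right (mul_nonneg hN0 (hu.trans huv)), max_eq_right (mul_nonneg hN0 hu)]
    ring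
  rw [e1]
  exact e2.trans (le_of_eq e3)

/-- affine adjustment of a trial quantile to the end points `(u0, rmin)` -/
def mvcRho (u0 rmin : ℝ) (z : ℝ → ℝ) (u : ℝ) : ℝ := rmin + (1 - rmin) * z ((u - u0) / (1 - u0))

/-- extension by `0` below the omitted mass -/
def mvcExt (u0 : ℝ) (r : ℝ → ℝ) (u : ℝ) : ℝ := if u0 ≤ u then r u else 0

/-- `∫ |g| ≤ √A` if `∫ g² ≤ A` on `[0,1]` -/
theorem mvc_l1_le_sqrt {g : ℝ → ℝ} (hg : MvBM g) {A : ℝ} (hA : 0 < A) (h : ∫ u in (0:ℝ)..1, g u ^ 2 ≤ A) :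
    ∫ u in (0:ℝ)..1, |g u| ≤ Real.sqrt A := by
  set κ := Real.sqrt A with hκ
  have hκ0 : 0 < κ := Real.sqrt_pos.2 hA
  have hκ2 : κ * κ = A := Real.mul_self_sqrt hA.le
  have z0 : (0:ℝ) ∈ Icc (0:ℝ) 1 := ⟨le_rfl, zero_le_one⟩
  have z1 : (1:ℝ) ∈ Icc (0:ℝ) 1 := ⟨zero_le_one, le_rfl⟩
  have hsq : MvBM (fun u => g u ^ 2) := hg.comp (φ := fun x => x ^ 2) (by fun_prop)
  have habs : MvBM (fun u => |g u|) := hg.comp (φ := fun x => |x|) continuous_abs
  have hr : MvBM (fun u => (2 * κ)⁻¹ * g u ^ 2 + κ / 2) := ((MvBM.const _).mul hsq).add (MvBM.const _)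
  have e1 : ∫ u in (0:ℝ)..1, |g u| ≤ ∫ u in (0:ℝ)..1, ((2 * κ)⁻¹ * g u ^ 2 + κ / 2) := by
    refine intervalIntegral.integral_mono_on zero_le_one (habs.ii z0 z1) (hr.ii z0 z1) fun u _ => ?_
    have : 0 ≤ (|g u| - κ) ^ 2 := sq_nonneg _
    have h2 : |g u| ^ 2 = g u ^ 2 := sq_abs _
    rw [inv_mul_eq_div, ← sub_nonneg]
    have : g u ^ 2 / (2 * κ) + κ / 2 - |g u| = (|g u| - κ) ^ 2 / (2 * κ) := by
      field_simp
      nlinarith
    rw [this]
    positivity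
  have e2 : ∫ u in (0:ℝ)..1, ((2 * κ)⁻¹ * g u ^ 2 + κ / 2) = (2 * κ)⁻¹ * (∫ u in (0:ℝ)..1, g u ^ 2) + κ / 2 := by
    rw [intervalIntegral.integral_add (((MvBM.const _).mul hsq).ii z0 z1) intervalIntegrable_const,
      intervalIntegral.integral_const_mul, intervalIntegral.integral_const]
    simp
  rw [e2] at e1
  have e3 : (2 * κ)⁻¹ * (∫ u in (0:ℝ)..1, g u ^ 2) ≤ (2 * κ)⁻¹ * A :=
    mul_le_mul_of_nonneg_left h (by positivity)
  have e4 : (2 * κ)⁻¹ * A = κ / 2 := by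
    rw [← hκ2]
    field_simp
  linarith

/-- **competitors**: every quantile is `L¹`-approximated by feasible quantiles of the class (5) -/
theorem mvc_comp {cE D0 : ℝ} (hc : 0 < cE) {P : CmCall} (h : P.Ok cE D0) (hr : P.rmin ≤ 1 / 2)
    {N : ℕ} (hN : 0 < N) {lo : ℝ} (hlo : 0 < lo) (hlo1 : lo ≤ 1)
    (hk : P.N ^ (-(3 * P.dl)) * (2 * (N : ℝ)) ≤ 1) (hM : 1 ≤ P.N ^ P.dl * (lo / 2))
    (qT : ℝ → ℝ) (hqT : MvQt qT) :
    ∃ q : CmQ P, ∫ u in (0:ℝ)..1, |mvcExt P.u0 q.r u - qT u| ≤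
      Real.sqrt (2 / (N : ℝ) + 2 * lo ^ 2) + P.rmin + (N : ℝ) * P.u0 := by
  have hNr : (0:ℝ) < (N : ℝ) := Nat.cast_pos.2 hN
  have z0 : (0:ℝ) ∈ Icc (0:ℝ) 1 := ⟨le_rfl, zero_le_one⟩
  have z1 : (1:ℝ) ∈ Icc (0:ℝ) 1 := ⟨zero_le_one, le_rfl⟩
  obtain ⟨d, hd, hdist⟩ := mv_approx hN hlo.le hlo1 qT hqT.1.1 (fun u hu => hqT.mem hu)
  set z := mvZ d with hz
  have hzq : MvQt z := mvZ_qt hN hlo.le hd
  have hu0 := h.u00
  have hu1 : 0 < 1 - P.u0 := by linarith [h.u01]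
  have hu2 : (1:ℝ) / 2 ≤ 1 - P.u0 := by linarith [h.u01]
  have hr0 := h.r0
  -- the change of variable
  have hcv : ∀ u : ℝ, P.u0 ≤ u → u ≤ 1 → (u - P.u0) / (1 - P.u0) ∈ Icc (0:ℝ) 1 := fun u a b =>
    ⟨div_nonneg (by linarith) hu1.le, (div_le_one hu1).2 (by linarith)⟩
  have hcvd : ∀ u v : ℝ, (v - P.u0) / (1 - P.u0) - (u - P.u0) / (1 - P.u0) = (v - u) / (1 - P.u0) := fun u v => by
    rw [← sub_div]; congr 1; ring
  obtain ⟨q, hq⟩ := mvc_mkQ hc h (ρ := mvcRho P.u0 P.rmin z) (s := lo / 2) (S := 2 * (N : ℝ)) (by positivity)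
    (by simp [mvcRho, hz, mvZ_zero])
    (by
      have : (1 - P.u0) / (1 - P.u0) = 1 := div_self hu1.ne'
      simp only [mvcRho, this, hz, mvZ_one, hd.2]; ring)
    (by
      intro u v a b c
      have m1 := hcv u a (b.trans c)
      have m2 := hcv v (a.trans b) c
      have hle : (u - P.u0) / (1 - P.u0) ≤ (v - P.u0) / (1 - P.u0) :=
        div_le_div_of_nonneg_right (by linarith) hu1.le
      have e := mvZ_slope hN hd m1.1 hle m2.2
      rw [hcvd] at e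
      have e2 : v - u ≤ (v - u) / (1 - P.u0) := by
        rw [le_div_iff₀ hu1]
        nlinarith
      have e3 : lo * (v - u) ≤ z ((v - P.u0) / (1 - P.u0)) - z ((u - P.u0) / (1 - P.u0)) :=
        (mul_le_mul_of_nonneg_left e2 hlo.le).trans e
      have e4 : 0 ≤ lo * (v - u) := mul_nonneg hlo.le (by linarith)
      simp only [mvcRho]
      nlinarith)
    (by
      intro u v a b c
      have m1 := hcv u a (b.trans c)
      have m2 := hcv v (a.trans b) c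
      have hle : (u - P.u0) / (1 - P.u0) ≤ (v - P.u0) / (1 - P.u0) :=
        div_le_div_of_nonneg_right (by linarith) hu1.le
      have e := mvcZ_slope_hi hlo.le hd m1.1 hle m2.2
      rw [hcvd] at e
      have e2 : (v - u) / (1 - P.u0) ≤ 2 * (v - u) := by
        rw [div_le_iff₀ hu1]
        nlinarith
      have e3 : z ((v - P.u0) / (1 - P.u0)) - z ((u - P.u0) / (1 - P.u0)) ≤ (N : ℝ) * (2 * (v - u)) :=
        e.trans (mul_le_mul_of_nonneg_left e2 hNr.le)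
      have e4 : 0 ≤ z ((v - P.u0) / (1 - P.u0)) - z ((u - P.u0) / (1 - P.u0)) :=
        sub_nonneg.2 (hzq.1.1 m1 m2 hle)
      simp only [mvcRho]
      nlinarith)
    hk hM
  refine ⟨q, ?_⟩
  -- pointwise bound
  have hpt : ∀ u ∈ Icc (0:ℝ) 1, |mvcExt P.u0 q.r u - qT u| ≤ |qT u - z u| + (P.rmin + (N : ℝ) * P.u0) := by
    intro u hu
    have hzu := hzq.mem hu
    unfold mvcExt
    split_ifs with hc0
    · rw [hq u ⟨hc0, hu.2⟩]
      have m1 := hcv u hc0 hu.2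
      have hz1 := hzq.mem m1
      -- `|u' - u| ≤ u0`
      have hle : (u - P.u0) / (1 - P.u0) ≤ u := by
        rw [div_le_iff₀ hu1]
        nlinarith [hu.2]
      have hdiff : u - (u - P.u0) / (1 - P.u0) ≤ P.u0 := by
        have : u - P.u0 ≤ (u - P.u0) / (1 - P.u0) := by
          rw [le_div_iff₀ hu1]
          nlinarith
        linarith
      have e := mvcZ_slope_hi hlo.le hd m1.1 hle hu.2
      have e0 : 0 ≤ z u - z ((u - P.u0) / (1 - P.u0)) := sub_nonneg.2 (hzq.1.1 m1 hu hle)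
      have e1 : z u - z ((u - P.u0) / (1 - P.u0)) ≤ (N : ℝ) * P.u0 :=
        e.trans (mul_le_mul_of_nonneg_left hdiff hNr.le)
      have e2 : mvcRho P.u0 P.rmin z u - qT u
          = (z u - qT u) + P.rmin * (1 - z ((u - P.u0) / (1 - P.u0))) - (z u - z ((u - P.u0) / (1 - P.u0))) := by
        simp only [mvcRho]; ring
      have e3 : 0 ≤ P.rmin * (1 - z ((u - P.u0) / (1 - P.u0))) := mul_nonneg hr0 (by linarith [hz1.2])
      have e4 : P.rmin * (1 - z ((u - P.u0) / (1 - P.u0))) ≤ P.rmin := by nlinarith [hz1.1]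
      rw [e2, abs_le]
      have a1 := neg_abs_le (qT u - z u)
      have a2 := le_abs_self (qT u - z u)
      constructor <;> nlinarith
    · rw [not_le] at hc0
      have e := mvcZ_slope_hi hlo.le hd le_rfl hu.1 hu.2
      rw [mvZ_zero, sub_zero, sub_zero] at e
      have e1 : z u ≤ (N : ℝ) * P.u0 := e.trans (mul_le_mul_of_nonneg_left hc0.le hNr.le)
      have hq0 := (hqT.mem hu).1
      rw [zero_sub, abs_neg, abs_of_nonneg hq0]
      have a2 := le_abs_self (qT u - z u)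
      linarith
  have hzbm : MvBM z := hzq.1.bm
  have hqbm : MvBM qT := hqT.1.bm
  have hg : MvBM (fun u => qT u - z u) := hqbm.sub hzbm
  have hgabs : MvBM (fun u => |qT u - z u|) := hg.comp (φ := fun x => |x|) continuous_abs
  have hA : (0:ℝ) < 2 / (N : ℝ) + 2 * lo ^ 2 := by positivity
  have hl1 := mvc_l1_le_sqrt hg hA hdist
  -- measurability of the extension
  have hext : MvBM (fun u => mvcExt P.u0 (mvcRho P.u0 P.rmin z) u) := by
    have hcont : Continuous (mvcRho P.u0 P.rmin z) := by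
      unfold mvcRho
      have := mvZ_cont d
      fun_prop
    exact (MvBM.of_cont hcont.continuousOn).ite P.u0
  have hcongr : ∀ u ∈ Icc (0:ℝ) 1, mvcExt P.u0 q.r u = mvcExt P.u0 (mvcRho P.u0 P.rmin z) u := by
    intro u hu
    unfold mvcExt
    split_ifs with hc0
    · exact hq u ⟨hc0, hu.2⟩
    · rfl
  have hI : ∫ u in (0:ℝ)..1, |mvcExt P.u0 q.r u - qT u| = ∫ u in (0:ℝ)..1, |mvcExt P.u0 (mvcRho P.u0 P.rmin z) u - qT u| := by
    refine intervalIntegral.integral_congr fun u hu => ?_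
    rw [uIcc_of_le zero_le_one] at hu
    simp only [hcongr u hu]
  have hlhs : MvBM (fun u => |mvcExt P.u0 (mvcRho P.u0 P.rmin z) u - qT u|) :=
    (hext.sub hqbm).comp (φ := fun x => |x|) continuous_abs
  have hrhs : MvBM (fun u => |qT u - z u| + (P.rmin + (N : ℝ) * P.u0)) := hgabs.add (MvBM.const _)
  have e1 : ∫ u in (0:ℝ)..1, |mvcExt P.u0 (mvcRho P.u0 P.rmin z) u - qT u|
      ≤ ∫ u in (0:ℝ)..1, (|qT u - z u| + (P.rmin + (N : ℝ) * P.u0)) :=
    intervalIntegral.integral_mono_on zero_le_one (hlhs.ii z0 z1) (hrhs.ii z0 z1)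
      (fun u hu => by rw [← hcongr u hu]; exact hpt u hu)
  rw [intervalIntegral.integral_add (hgabs.ii z0 z1) intervalIntegrable_const, intervalIntegral.integral_const] at e1
  rw [hI]
  simp only [sub_zero, one_smul] at e1
  linarith

end

end Claimed.Agent.R286


/-!
# Row 286, P11, file 10: PE Proposition 5.9 (rigidity at macroscopic scales) FOR THE CALLS OF PE SECTION 3.   (helper279; prefix `mvc`)

* `mvc_profile`    the abstract statement along an ARBITRARY filter `l` (frame D1: ultrafilters), competitors in the form `∀ δ, ∀ᶠ k, ∃ s ∈ R k, ‖s - qT‖₁ ≤ δ`;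
                   from the one-size bounds `mvF_lower`, `mvF_upper`, `mvP_lip`, `mvErr_small` of helper67.
* `mvc_locunif`    `L¹` convergence of quantiles to a quantile continuous on `(0,1)` is locally uniform (any filter).
* `mvc_inst`       the concrete statement: `CmCall`, `CmQ`, strength `lam`, profile `P.e lam`.
* `mvc_two_sided`  the two-sided comparison with the mass used by PE Section 6.
-/

set_option autoImplicit false

namespace Claimed.Agent.R286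

open MeasureTheory Set Filter Topology

noncomputable section

theorem mvc_tendsto_zero {ι : Type*} {l : Filter ι} {X : ι → ℝ} (h0 : ∀ k, 0 ≤ X k)
    (h : ∀ δ > 0, ∀ᶠ k in l, X k ≤ δ) : Tendsto X l (𝓝 0) := by
  rw [Metric.tendsto_nhds]
  intro ε hε
  filter_upwards [h (ε / 2) (half_pos hε)] with k hk
  rw [Real.dist_eq, sub_zero, abs_of_nonneg (h0 k)]
  linarith

theorem mvc_eventually_le {ι : Type*} {l : Filter ι} {X : ι → ℝ} (h : Tendsto X l (𝓝 0)) {δ : ℝ} (hδ : 0 < δ) :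
    ∀ᶠ k in l, X k ≤ δ :=
  ((tendsto_order.1 h).2 δ hδ).mono fun _ hk => hk.le

theorem mvc_abs_sub_bm {f g : ℝ → ℝ} (hf : MvBM f) (hg : MvBM g) : MvBM (fun u => |f u - g u|) :=
  (hf.sub hg).comp (φ := fun x => |x|) continuous_abs

/-- PE Proposition 5.9, abstract, along an arbitrary filter -/
theorem mvc_profile {ι : Type*} (l : Filter ι) (fspin : (ℝ → ℝ) → ℝ) {T c : ℝ} (hT : 0 < T) (hc : 0 < c)
    (qT : ℝ → ℝ) (hqT : MvQt qT)
    (hmin : ∀ q, MvQt q → mvP fspin T qT ≤ mvP fspin T q)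
    (hwp : ∀ δ > 0, ∃ η > 0, ∀ q, MvQt q → mvP fspin T q ≤ mvP fspin T qT + η → ∫ u in (0:ℝ)..1, |q u - qT u| ≤ δ)
    (nn : ι → ℕ) (hnn : Tendsto nn l atTop) (I : ∀ k, MvIface (nn k))
    (hsp : ∀ k K, MvClk K → (I k).f (fun _ => 0) K = fspin K)
    (b0 h0 e : ι → ℝ → ℝ) (u0 : ι → ℝ) (R : ι → Set (ℝ → ℝ)) (r : ι → ℝ → ℝ)
    (hb0i : ∀ k, IntervalIntegrable (b0 k) volume 0 1) (hh0i : ∀ k, IntervalIntegrable (h0 k) volume 0 1)
    (hb0 : Tendsto (fun k => ∫ u in (0:ℝ)..1, |b0 k u - T|) l (𝓝 0))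
    (hh0 : Tendsto (fun k => ∫ u in (0:ℝ)..1, |h0 k u|) l (𝓝 0))
    (hu0 : ∀ k, u0 k ∈ Ico (0:ℝ) 1) (hu0l : Tendsto u0 l (𝓝 0))
    (he : ∀ k, ∀ x ∈ Icc (0:ℝ) 1, c ≤ e k x ∧ e k x ≤ T - c)
    (hea : ∀ k, AntitoneOn (e k) (Icc (0:ℝ) 1)) (hem : ∀ k, MonotoneOn (fun x => x * e k x) (Icc (0:ℝ) 1))
    (hRq : ∀ k, ∀ s ∈ R k, MvQt s)
    (hRb : ∀ k, ∀ s ∈ R k, MvClk (fun u => b0 k u - (if u0 k ≤ u then e k (s u) else 0)))
    (hRh : ∀ k, ∀ s ∈ R k, MvClk (fun u => h0 k u + (if u0 k ≤ u then e k (s u) * s u else 0)))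
    (hr : ∀ k, r k ∈ R k)
    (hrmin : ∀ k, ∀ s ∈ R k, mvF (I k) (b0 k) (h0 k) (e k) (u0 k) (r k) ≤ mvF (I k) (b0 k) (h0 k) (e k) (u0 k) s)
    (hcomp : ∀ δ > 0, ∀ᶠ k in l, ∃ s ∈ R k, ∫ u in (0:ℝ)..1, |s u - qT u| ≤ δ) :
    Tendsto (fun k => ∫ u in (0:ℝ)..1, |r k u - qT u|) l (𝓝 0) := by
  have z0 : (0:ℝ) ∈ Icc (0:ℝ) 1 := ⟨le_rfl, zero_le_one⟩
  have z1 : (1:ℝ) ∈ Icc (0:ℝ) 1 := ⟨zero_le_one, le_rfl⟩
  refine mvc_tendsto_zero (fun k => intervalIntegral.integral_nonneg zero_le_one fun u _ => abs_nonneg _) ?_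
  intro δ hδ
  obtain ⟨η, hη, hwp'⟩ := hwp (δ / 2) (half_pos hδ)
  set η' : ℝ := min η (c ^ 2 / (4 * T) * (δ ^ 2 / 4)) with hη'
  have hη'0 : 0 < η' := lt_min hη (by positivity)
  obtain ⟨N, lo, ε, ρ, hN, hlo, hlo1, hε, hε1, hρ, hρ1, hErr⟩ := mvErr_small hc (δ := η' / T) (by positivity)
  filter_upwards [hnn.eventually hErr, hnn.eventually (eventually_gt_atTop 0),
    mvc_eventually_le hb0 (δ := η' / 12) (by positivity), mvc_eventually_le hh0 (δ := η' / 12) (by positivity),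
    mvc_eventually_le hu0l (δ := η' / (24 * T)) (by positivity), hcomp (η' / (4 * T)) (by positivity)]
    with k hk1 hk2 hk3 hk4 hk5 hk6
  obtain ⟨s, hsR, hs⟩ := hk6
  obtain ⟨q, z, hq, hz, hrq, hlow⟩ := mvF_lower hk2 (I k) fspin (hsp k) hc (hb0i k) (hh0i k) (hu0 k) (he k) (hea k) (hem k)
    (hRq k _ (hr k)) (hRb k _ (hr k)) (hRh k _ (hr k)) hN hlo hlo1 hε hε1 hρ hρ1
  have hup := mvF_upper (I k) fspin (hsp k) hc (hb0i k) (hh0i k) (hu0 k) (he k) (hea k) (hem k)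
    (hRq k _ hsR) (hRb k _ hsR) (hRh k _ hsR)
  have hlip := mvP_lip (I k) fspin (hsp k) hT.le (hRq k _ hsR) hqT
  have hlip' : mvP fspin T s ≤ mvP fspin T qT + T * ∫ u in (0:ℝ)..1, |s u - qT u| := by
    have := (abs_le.1 hlip).2
    linarith
  have hmn := hrmin k s hsR
  have e1 : T / 4 * mvErr (nn k) N lo c ε ρ ≤ η' / 4 := by
    have : T / 4 * mvErr (nn k) N lo c ε ρ ≤ T / 4 * (η' / T) := mul_le_mul_of_nonneg_left hk1 (by positivity)
    have h2 : T / 4 * (η' / T) = η' / 4 := by field_simp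
    linarith
  have e2 : 2 * T * u0 k ≤ η' / 12 := by
    have : 2 * T * u0 k ≤ 2 * T * (η' / (24 * T)) := mul_le_mul_of_nonneg_left hk5 (by positivity)
    have h2 : 2 * T * (η' / (24 * T)) = η' / 12 := by field_simp; ring
    linarith
  have e3 : T * ∫ u in (0:ℝ)..1, |s u - qT u| ≤ η' / 4 := by
    have : T * ∫ u in (0:ℝ)..1, |s u - qT u| ≤ T * (η' / (4 * T)) := mul_le_mul_of_nonneg_left hs hT.le
    have h2 : T * (η' / (4 * T)) = η' / 4 := by field_simp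
    linarith
  have hX0 : 0 ≤ ∫ u in (0:ℝ)..1, (r k u - z u) ^ 2 :=
    intervalIntegral.integral_nonneg zero_le_one fun u _ => sq_nonneg _
  have hcT : 0 < c ^ 2 / (4 * T) := by positivity
  have key : mvP fspin T q + c ^ 2 / (4 * T) * (∫ u in (0:ℝ)..1, (r k u - z u) ^ 2) ≤ mvP fspin T qT + η' := by
    linarith
  have k1 : mvP fspin T q ≤ mvP fspin T qT + η := by
    have := mul_nonneg hcT.le hX0
    have h2 : η' ≤ η := min_le_left _ _
    linarith
  have k2 : ∫ u in (0:ℝ)..1, (r k u - z u) ^ 2 ≤ δ ^ 2 / 4 := by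
    have h1 := hmin q hq
    have h2 : η' ≤ c ^ 2 / (4 * T) * (δ ^ 2 / 4) := min_le_right _ _
    have h3 : c ^ 2 / (4 * T) * (∫ u in (0:ℝ)..1, (r k u - z u) ^ 2) ≤ c ^ 2 / (4 * T) * (δ ^ 2 / 4) := by linarith
    exact le_of_mul_le_mul_left h3 hcT
  have hrbm : MvBM (r k) := (hRq k _ (hr k)).1.bm
  have hzbm : MvBM z := hz.1.bm
  have hqbm : MvBM q := hq.1.bm
  have hTbm : MvBM qT := hqT.1.bm
  have k3 : ∫ u in (0:ℝ)..1, |r k u - z u| ≤ δ / 2 := by
    have := mvc_l1_le_sqrt (hrbm.sub hzbm) (A := δ ^ 2 / 4) (by positivity) k2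
    have h2 : Real.sqrt (δ ^ 2 / 4) = δ / 2 := by
      rw [show δ ^ 2 / 4 = (δ / 2) ^ 2 by ring]
      exact Real.sqrt_sq (by positivity)
    rwa [h2] at this
  have k4 := hwp' q hq k1
  have k5 : ∫ u in (0:ℝ)..1, |r k u - qT u| ≤ ∫ u in (0:ℝ)..1, (|r k u - z u| + |q u - qT u|) := by
    refine intervalIntegral.integral_mono_on zero_le_one ((mvc_abs_sub_bm hrbm hTbm).ii z0 z1)
      (((mvc_abs_sub_bm hrbm hzbm).add (mvc_abs_sub_bm hqbm hTbm)).ii z0 z1) fun u hu => ?_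
    have := hrq u hu
    have h2 : |r k u - qT u| ≤ |r k u - q u| + |q u - qT u| := abs_sub_le _ _ _
    linarith
  rw [intervalIntegral.integral_add ((mvc_abs_sub_bm hrbm hzbm).ii z0 z1) ((mvc_abs_sub_bm hqbm hTbm).ii z0 z1)] at k5
  linarith

/-! ## locally uniform convergence -/

/-- one-size upper bound at a point -/
theorem mvc_pt_le {r q : ℝ → ℝ} (hr : MvQt r) (hq : MvQt q) {u τ : ℝ} (hu : 0 ≤ u) (hτ : 0 ≤ τ) (hu1 : u + τ ≤ 1) :
    τ * r u ≤ τ * q (u + τ) + ∫ v in (0:ℝ)..1, |r v - q v| := by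
  have z0 : (0:ℝ) ∈ Icc (0:ℝ) 1 := ⟨le_rfl, zero_le_one⟩
  have z1 : (1:ℝ) ∈ Icc (0:ℝ) 1 := ⟨zero_le_one, le_rfl⟩
  have mu : u ∈ Icc (0:ℝ) 1 := ⟨hu, by linarith⟩
  have mv : u + τ ∈ Icc (0:ℝ) 1 := ⟨by linarith, hu1⟩
  have hle : u ≤ u + τ := by linarith
  have hd := mvc_abs_sub_bm hr.1.bm hq.1.bm
  have e1 : ∫ _v in u..(u + τ), r u ≤ ∫ v in u..(u + τ), (q (u + τ) + |r v - q v|) := by
    refine intervalIntegral.integral_mono_on hle intervalIntegrable_const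
      (((MvBM.const _).add hd).ii mu mv) fun v hv => ?_
    have mvv : v ∈ Icc (0:ℝ) 1 := ⟨hu.trans hv.1, hv.2.trans hu1⟩
    have a1 := hr.1.1 mu mvv hv.1
    have a2 := hq.1.1 mvv mv hv.2
    have a3 := le_abs_self (r v - q v)
    linarith
  rw [intervalIntegral.integral_add intervalIntegrable_const (hd.ii mu mv), intervalIntegral.integral_const,
    intervalIntegral.integral_const] at e1
  have e2 : ∫ v in u..(u + τ), |r v - q v| ≤ ∫ v in (0:ℝ)..1, |r v - q v| :=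
    intervalIntegral.integral_mono_interval hu hle hu1 (Eventually.of_forall fun v => abs_nonneg _) (hd.ii z0 z1)
  simp only [add_sub_cancel_left, smul_eq_mul] at e1
  linarith

/-- one-size lower bound at a point -/
theorem mvc_pt_ge {r q : ℝ → ℝ} (hr : MvQt r) (hq : MvQt q) {u τ : ℝ} (hu : 0 ≤ u - τ) (hτ : 0 ≤ τ) (hu1 : u ≤ 1) :
    τ * q (u - τ) ≤ τ * r u + ∫ v in (0:ℝ)..1, |r v - q v| := by
  have z0 : (0:ℝ) ∈ Icc (0:ℝ) 1 := ⟨le_rfl, zero_le_one⟩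
  have z1 : (1:ℝ) ∈ Icc (0:ℝ) 1 := ⟨zero_le_one, le_rfl⟩
  have mu : u ∈ Icc (0:ℝ) 1 := ⟨by linarith, hu1⟩
  have mv : u - τ ∈ Icc (0:ℝ) 1 := ⟨hu, by linarith⟩
  have hle : u - τ ≤ u := by linarith
  have hd := mvc_abs_sub_bm hr.1.bm hq.1.bm
  have e1 : ∫ _v in (u - τ)..u, q (u - τ) ≤ ∫ v in (u - τ)..u, (r u + |r v - q v|) := by
    refine intervalIntegral.integral_mono_on hle intervalIntegrable_const
      (((MvBM.const _).add hd).ii mv mu) fun v hv => ?_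
    have mvv : v ∈ Icc (0:ℝ) 1 := ⟨hu.trans hv.1, hv.2.trans hu1⟩
    have a1 := hr.1.1 mvv mu hv.2
    have a2 := hq.1.1 mv mvv hv.1
    have a3 := neg_abs_le (r v - q v)
    linarith
  rw [intervalIntegral.integral_add intervalIntegrable_const (hd.ii mv mu), intervalIntegral.integral_const,
    intervalIntegral.integral_const] at e1
  have e2 : ∫ v in (u - τ)..u, |r v - q v| ≤ ∫ v in (0:ℝ)..1, |r v - q v| :=
    intervalIntegral.integral_mono_interval hu hle hu1 (Eventually.of_forall fun v => abs_nonneg _) (hd.ii z0 z1)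
  simp only [sub_sub_cancel, smul_eq_mul] at e1
  linarith

/-- `L¹` convergence of quantiles to a quantile continuous on `(0,1)` is locally uniform (any filter) -/
theorem mvc_locunif {ι : Type*} (l : Filter ι) (q : ℝ → ℝ) (hq : MvQt q) (hqc : ContinuousOn q (Ioo (0:ℝ) 1))
    (r : ι → ℝ → ℝ) (hr : ∀ k, MvQt (r k))
    (hl : Tendsto (fun k => ∫ u in (0:ℝ)..1, |r k u - q u|) l (𝓝 0)) {a b : ℝ} (ha : 0 < a) (hab : a ≤ b) (hb : b < 1) :
    ∀ δ > 0, ∀ᶠ k in l, ∀ u ∈ Icc a b, |r k u - q u| ≤ δ := by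
  intro δ hδ
  have hK : IsCompact (Icc (a / 2) ((1 + b) / 2)) := isCompact_Icc
  have hsub : Icc (a / 2) ((1 + b) / 2) ⊆ Ioo (0:ℝ) 1 := fun x hx => ⟨by linarith [hx.1], by linarith [hx.2]⟩
  have huc := hK.uniformContinuousOn_of_continuous (hqc.mono hsub)
  rw [Metric.uniformContinuousOn_iff] at huc
  obtain ⟨τ0, hτ0, huc⟩ := huc (δ / 2) (half_pos hδ)
  set τ : ℝ := min (τ0 / 2) (min (a / 2) ((1 - b) / 2)) with hτ
  have hτpos : 0 < τ := lt_min (half_pos hτ0) (lt_min (half_pos ha) (by linarith))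
  have hτ1 : τ ≤ τ0 / 2 := min_le_left _ _
  have hτ2 : τ ≤ a / 2 := (min_le_right _ _).trans (min_le_left _ _)
  have hτ3 : τ ≤ (1 - b) / 2 := (min_le_right _ _).trans (min_le_right _ _)
  filter_upwards [mvc_eventually_le hl (δ := τ * (δ / 2)) (by positivity)] with k hk u hu
  have m0 : u ∈ Icc (a / 2) ((1 + b) / 2) := ⟨by linarith [hu.1], by linarith [hu.2]⟩
  have m1 : u + τ ∈ Icc (a / 2) ((1 + b) / 2) := ⟨by linarith [hu.1], by linarith [hu.2]⟩
  have m2 : u - τ ∈ Icc (a / 2) ((1 + b) / 2) := ⟨by linarith [hu.1], by linarith [hu.2]⟩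
  have c1 := huc (u + τ) m1 u m0 (by rw [Real.dist_eq]; simp only [add_sub_cancel_left]; rw [abs_of_pos hτpos]; linarith)
  have c2 := huc (u - τ) m2 u m0 (by
    rw [Real.dist_eq, show u - τ - u = -τ by ring, abs_neg, abs_of_pos hτpos]; linarith)
  rw [Real.dist_eq] at c1 c2
  have p1 := mvc_pt_le (hr k) hq (u := u) (τ := τ) (by linarith [hu.1]) hτpos.le (by linarith [hu.2])
  have p2 := mvc_pt_ge (hr k) hq (u := u) (τ := τ) (by linarith [hu.1]) hτpos.le (by linarith [hu.2])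
  have c1' := (abs_lt.1 c1).2
  have c2' := (abs_lt.1 c2).1
  rw [abs_le]
  constructor
  · have : τ * (q u - δ) ≤ τ * r k u := by nlinarith
    have := le_of_mul_le_mul_left this hτpos
    linarith
  · have : τ * r k u ≤ τ * (q u + δ) := by nlinarith
    have := le_of_mul_le_mul_left this hτpos
    linarith

/-! ## the calls of PE Section 3 -/

/-- the extension of a feasible quantile is a quantile -/
theorem mvcExt_qt {cE D0 : ℝ} (hc : 0 < cE) {P : CmCall} (h : P.Ok cE D0) (q : CmQ P) : MvQt (mvcExt P.u0 q.r) := by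
  have hu01 : P.u0 ≤ 1 := h.u01.trans (by norm_num)
  have hm := (cm_q_r_strictMono hc h q).monotoneOn
  refine ⟨⟨?_, ?_⟩, ?_⟩
  · intro u hu v hv huv
    unfold mvcExt
    split_ifs with a b b
    · exact hm ⟨a, hu.2⟩ ⟨b, hv.2⟩ huv
    · exact absurd (a.trans huv) b
    · exact h.r0.trans (q.r_mem v ⟨b, hv.2⟩).1
    · exact le_rfl
  · unfold mvcExt
    split_ifs with a
    · exact h.r0.trans (q.r_mem 0 ⟨a, zero_le_one⟩).1
    · exact le_rfl
  · unfold mvcExt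
    rw [if_pos hu01]
    exact (q.r_mem 1 ⟨hu01, le_rfl⟩).2

theorem mvcExt_bq {P : CmCall} (q : CmQ P) (lam : ℝ) (b0 : ℝ → ℝ) :
    (fun u => b0 u - (if P.u0 ≤ u then P.e lam (mvcExt P.u0 q.r u) else 0)) = q.bq lam b0 := by
  funext u
  unfold CmQ.bq mvcExt
  split_ifs <;> simp

theorem mvcExt_hq {P : CmCall} (q : CmQ P) (lam : ℝ) (h0 : ℝ → ℝ) :
    (fun u => h0 u + (if P.u0 ≤ u then P.e lam (mvcExt P.u0 q.r u) * mvcExt P.u0 q.r u else 0)) = q.hq lam h0 := by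
  funext u
  unfold CmQ.hq mvcExt
  split_ifs <;> simp

theorem mvcExt_F {P : CmCall} (hu01 : P.u0 ≤ 1) (I : MvIface P.n) (q : CmQ P) (lam : ℝ) (b0 h0 : ℝ → ℝ) :
    mvF I b0 h0 (fun x => P.e lam x) P.u0 (mvcExt P.u0 q.r) = I.f (q.bq lam b0) (q.hq lam h0) + q.pen lam := by
  unfold mvF
  rw [mvcExt_bq, mvcExt_hq]
  congr 1
  unfold CmQ.pen
  congr 1
  refine intervalIntegral.integral_congr fun u hu => ?_
  rw [uIcc_of_le hu01] at hu
  simp only [mvcExt, if_pos hu.1]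

/-- `n^δ → ∞` along the calls -/
theorem mvc_pow_large {ι : Type*} {l : Filter ι} {cE D0 m0 : ℝ} (hm0 : 0 < m0) (P : ι → CmCall) (hP : ∀ k, (P k).Ok cE D0)
    (hPm : ∀ k, m0 ≤ (P k).m) (hn : Tendsto (fun k => (P k).n) l atTop) (K : ℝ) :
    ∀ᶠ k in l, K ≤ (P k).N ^ (P k).dl := by
  have h1 : Tendsto (fun k => ((P k).n : ℝ)) l atTop := tendsto_natCast_atTop_atTop.comp hn
  have h2 : Tendsto (fun k => ((P k).n : ℝ) ^ (m0 / 10000)) l atTop :=
    (tendsto_rpow_atTop (by positivity)).comp h1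
  filter_upwards [h2.eventually (eventually_ge_atTop K)] with k hk
  refine hk.trans ?_
  have hN : (1:ℝ) ≤ (P k).N := by linarith [cm_N_ge (hP k)]
  have : m0 / 10000 ≤ (P k).dl := by
    unfold CmCall.dl
    linarith [hPm k]
  exact Real.rpow_le_rpow_of_exponent_le hN this

/-- lower bound of the removed covariance at macroscopic strength -/
theorem mvc_e_ge {P : CmCall} (hd : 0 < P.d) {c lam x : ℝ} (hc : 0 < c) (hl : c ≤ lam) (hl2 : lam ≤ P.d ^ 2)
    (hx : x ∈ Icc (0:ℝ) 1) : c / (2 + 1 / c) ≤ P.e lam x := by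
  have hlam : 0 < lam := hc.trans_le hl
  refine le_trans ?_ (cm_e_ge P hd hlam.le hx.1)
  have hd3 : 0 < P.d ^ 3 := by positivity
  -- `1/d ≤ 1 + 1/c`
  have h1 : 1 / P.d ≤ 1 + 1 / c := by
    rcases le_total 1 P.d with a | a
    · have : 1 / P.d ≤ 1 := (div_le_one hd).2 a
      have : 0 < 1 / c := by positivity
      linarith
    · have : c ≤ P.d := by nlinarith
      have : 1 / P.d ≤ 1 / c := one_div_le_one_div_of_le hc this
      linarith
  have h2 : lam * x / P.d ^ 3 ≤ 1 / P.d := by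
    rw [div_le_div_iff₀ hd3 hd]
    have : lam * x ≤ P.d ^ 2 := by nlinarith [hx.1, hx.2]
    nlinarith
  have h3 : 0 ≤ lam * x / P.d ^ 3 := by have := hx.1; positivity
  have h4 : 0 < 1 / c := by positivity
  calc c / (2 + 1 / c) ≤ lam / (2 + 1 / c) := div_le_div_of_nonneg_right hl (by positivity)
    _ ≤ lam / (1 + lam * x / P.d ^ 3) := div_le_div_of_nonneg_left hlam.le (by positivity) (by linarith)

/-- **PE Proposition 5.9** for the calls of PE Section 3, `L¹` form.      TEX[PE:prof:macro-profile]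
`hlam`: macroscopic strength (from `x ≥ c`, `e(x) ≥ c x²`: `lam ≥ e(x) ≥ c³`).   The hypothesis (4) enters only through `b0 → T`, `h0 → 0` in `L¹` (so a common prelimit temperature `T_k → T` is allowed). -/
theorem mvc_inst {ι : Type*} (l : Filter ι) (fspin : (ℝ → ℝ) → ℝ) {T c cE D0 m0 : ℝ} (hT : 0 < T) (hc : 0 < c) (hcE : 0 < cE)
    (hm0 : 0 < m0) (qT : ℝ → ℝ) (hqT : MvQt qT)
    (hmin : ∀ q, MvQt q → mvP fspin T qT ≤ mvP fspin T q)
    (hwp : ∀ δ > 0, ∃ η > 0, ∀ q, MvQt q → mvP fspin T q ≤ mvP fspin T qT + η → ∫ u in (0:ℝ)..1, |q u - qT u| ≤ δ)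
    (P : ι → CmCall) (hP : ∀ k, (P k).Ok cE D0) (hPm : ∀ k, m0 ≤ (P k).m)
    (hn : Tendsto (fun k => (P k).n) l atTop)
    (I : ∀ k, MvIface (P k).n) (hsp : ∀ k K, MvClk K → (I k).f (fun _ => 0) K = fspin K)
    (lam : ι → ℝ) (hlam : ∀ k, c ≤ lam k) (hlam2 : ∀ k, lam k ≤ (P k).d ^ 2) (hd : ∀ k, (P k).d ^ 2 ≤ T - c)
    (b0 h0 : ι → ℝ → ℝ)
    (hb0i : ∀ k, IntervalIntegrable (b0 k) volume 0 1) (hh0i : ∀ k, IntervalIntegrable (h0 k) volume 0 1)
    (hb0 : Tendsto (fun k => ∫ u in (0:ℝ)..1, |b0 k u - T|) l (𝓝 0))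
    (hh0 : Tendsto (fun k => ∫ u in (0:ℝ)..1, |h0 k u|) l (𝓝 0))
    (hu0l : Tendsto (fun k => (P k).u0) l (𝓝 0))
    (hadm : ∀ k, ∀ q' : CmQ (P k), MvClk (q'.bq (lam k) (b0 k)) ∧ MvClk (q'.hq (lam k) (h0 k)))
    (q : ∀ k, CmQ (P k))
    (hq : ∀ k, ∀ q' : CmQ (P k), (I k).f ((q k).bq (lam k) (b0 k)) ((q k).hq (lam k) (h0 k)) + (q k).pen (lam k)
      ≤ (I k).f (q'.bq (lam k) (b0 k)) (q'.hq (lam k) (h0 k)) + q'.pen (lam k)) :
    Tendsto (fun k => ∫ u in (0:ℝ)..1, |mvcExt (P k).u0 (q k).r u - qT u|) l (𝓝 0) := by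
  have hu01 : ∀ k, (P k).u0 ≤ 1 := fun k => (hP k).u01.trans (by norm_num)
  have hc' : 0 < c / (2 + 1 / c) := by positivity
  have hcc : c / (2 + 1 / c) ≤ c := by
    have : 0 < 1 / c := by positivity
    exact div_le_self hc.le (by linarith)
  have hl0 : ∀ k, 0 ≤ lam k := fun k => hc.le.trans (hlam k)
  refine mvc_profile l fspin hT hc' qT hqT hmin hwp (fun k => (P k).n) hn I hsp b0 h0
    (fun k x => (P k).e (lam k) x) (fun k => (P k).u0)
    (fun k => {s | ∃ q' : CmQ (P k), s = mvcExt (P k).u0 q'.r}) (fun k => mvcExt (P k).u0 (q k).r)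
    hb0i hh0i hb0 hh0 (fun k => ⟨(hP k).u00, lt_of_le_of_lt (hP k).u01 (by norm_num)⟩) hu0l ?_ ?_ ?_ ?_ ?_ ?_ ?_ ?_ ?_
  · intro k x hx
    exact ⟨mvc_e_ge (hP k).d0 hc (hlam k) (hlam2 k) hx,
      by linarith [cm_e_le (P k) (hl0 k) x, hlam2 k, hd k]⟩
  · exact fun k => (cm_e_anti (P k) (hP k).d0 (hl0 k)).antitoneOn _
  · exact fun k => (cm_re_mono (P k) (hP k).d0 (hl0 k)).mono fun x hx => hx.1
  · rintro k s ⟨q', rfl⟩
    exact mvcExt_qt hcE (hP k) q'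
  · rintro k s ⟨q', rfl⟩
    simp only [mvcExt_bq]
    exact (hadm k q').1
  · rintro k s ⟨q', rfl⟩
    simp only [mvcExt_hq]
    exact (hadm k q').2
  · exact fun k => ⟨q k, rfl⟩
  · rintro k s ⟨q', rfl⟩
    rw [mvcExt_F (hu01 k), mvcExt_F (hu01 k)]
    exact hq k q'
  · -- competitors
    intro δ hδ
    obtain ⟨N, hN⟩ := exists_nat_gt (16 / δ ^ 2)
    have hN0 : 0 < N := by
      have : (0:ℝ) < (N : ℝ) := lt_trans (by positivity) hN
      exact_mod_cast this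
    have hNr : (0:ℝ) < (N : ℝ) := Nat.cast_pos.2 hN0
    set lo : ℝ := min 1 (δ / 4) with hlo
    have hlo0 : 0 < lo := lt_min one_pos (by positivity)
    have hlo1 : lo ≤ 1 := min_le_left _ _
    have hlo2 : lo ≤ δ / 4 := min_le_right _ _
    have hsq : Real.sqrt (2 / (N : ℝ) + 2 * lo ^ 2) ≤ δ / 2 := by
      rw [show δ / 2 = Real.sqrt ((δ / 2) ^ 2) from (Real.sqrt_sq (by positivity)).symm]
      refine Real.sqrt_le_sqrt ?_
      have a1 : 2 / (N : ℝ) ≤ δ ^ 2 / 8 := by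
        rw [div_le_div_iff₀ hNr (by norm_num)]
        have : 16 < (N : ℝ) * δ ^ 2 := by
          rwa [div_lt_iff₀ (by positivity)] at hN
        linarith
      have a2 : lo ^ 2 ≤ (δ / 4) ^ 2 := pow_le_pow_left₀ hlo0.le hlo2 2
      nlinarith
    set K : ℝ := max (2 * (N : ℝ)) (max (2 / lo) (max (cE⁻¹ ^ 2 * 2) (cE⁻¹ ^ 2 * (4 / δ)))) with hK
    filter_upwards [mvc_pow_large hm0 P hP hPm hn K, mvc_eventually_le hu0l (δ := δ / (4 * (N : ℝ))) (by positivity)]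
      with k hk1 hk2
    have hNk := cm_N_pos (hP k)
    have hN1 : (1:ℝ) ≤ (P k).N := by linarith [cm_N_ge (hP k)]
    have hdl := cm_dl_pos (hP k)
    set W : ℝ := (P k).N ^ (P k).dl with hW
    have hW0 : 0 < W := Real.rpow_pos_of_pos hNk _
    have k1 : 2 * (N : ℝ) ≤ W := (le_max_left _ _).trans hk1
    have k2 : 2 / lo ≤ W := ((le_max_left _ _).trans (le_max_right _ _)).trans hk1
    have k3 : cE⁻¹ ^ 2 * 2 ≤ W :=
      ((le_max_left _ _).trans ((le_max_right _ _).trans (le_max_right _ _))).trans hk1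
    have k4 : cE⁻¹ ^ 2 * (4 / δ) ≤ W :=
      ((le_max_right _ _).trans ((le_max_right _ _).trans (le_max_right _ _))).trans hk1
    -- `rmin ≤ cE⁻² / W`
    have hrm : (P k).rmin ≤ cE⁻¹ ^ 2 / W := by
      have a1 := cm_rmin_le hcE (hP k)
      have a2 : (P k).L ≤ cE⁻¹ ^ 2 := by
        refine (cm_L_le_us (P := P k)).trans ((cm_us_le hcE (hP k)).trans ?_)
        have : (P k).N ^ (-(1 / 6 : ℝ) - 2 * (P k).m) ≤ 1 :=
          Real.rpow_le_one_of_one_le_of_nonpos hN1 (by linarith [(hP k).m0])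
        have h0 : 0 ≤ cE⁻¹ ^ 2 := by positivity
        nlinarith
      have a3 : (P k).N ^ (-(P k).dl) = W⁻¹ := Real.rpow_neg hNk.le _
      rw [a3] at a1
      calc (P k).rmin ≤ W⁻¹ * (P k).L := a1
        _ ≤ W⁻¹ * cE⁻¹ ^ 2 := mul_le_mul_of_nonneg_left a2 (inv_nonneg.2 hW0.le)
        _ = cE⁻¹ ^ 2 / W := by rw [div_eq_mul_inv, mul_comm]
    have hr2 : (P k).rmin ≤ 1 / 2 := by
      refine hrm.trans ?_
      rw [div_le_iff₀ hW0]
      linarith
    have hr4 : (P k).rmin ≤ δ / 4 := by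
      refine hrm.trans ?_
      rw [div_le_iff₀ hW0]
      have : cE⁻¹ ^ 2 * (4 / δ) * (δ / 4) ≤ W * (δ / 4) := mul_le_mul_of_nonneg_right k4 (by positivity)
      have e : cE⁻¹ ^ 2 * (4 / δ) * (δ / 4) = cE⁻¹ ^ 2 := by field_simp
      linarith
    have hkk : (P k).N ^ (-(3 * (P k).dl)) * (2 * (N : ℝ)) ≤ 1 := by
      have a1 : (P k).N ^ (-(3 * (P k).dl)) ≤ (P k).N ^ (-(P k).dl) :=
        Real.rpow_le_rpow_of_exponent_le hN1 (by linarith)
      have a3 : (P k).N ^ (-(P k).dl) = W⁻¹ := Real.rpow_neg hNk.le _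
      rw [a3] at a1
      calc (P k).N ^ (-(3 * (P k).dl)) * (2 * (N : ℝ)) ≤ W⁻¹ * (2 * (N : ℝ)) :=
            mul_le_mul_of_nonneg_right a1 (by positivity)
        _ ≤ W⁻¹ * W := mul_le_mul_of_nonneg_left k1 (inv_nonneg.2 hW0.le)
        _ = 1 := inv_mul_cancel₀ hW0.ne'
    have hMM : 1 ≤ (P k).N ^ (P k).dl * (lo / 2) := by
      have : 2 / lo * (lo / 2) ≤ W * (lo / 2) := mul_le_mul_of_nonneg_right k2 (by positivity)
      have e : 2 / lo * (lo / 2) = 1 := by field_simp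
      linarith
    obtain ⟨q', hq'⟩ := mvc_comp hcE (hP k) hr2 hN0 hlo0 hlo1 hkk hMM qT hqT
    refine ⟨_, ⟨q', rfl⟩, hq'.trans ?_⟩
    have hNu : (N : ℝ) * (P k).u0 ≤ δ / 4 := by
      have : (N : ℝ) * (P k).u0 ≤ (N : ℝ) * (δ / (4 * (N : ℝ))) := mul_le_mul_of_nonneg_left hk2 hNr.le
      have e : (N : ℝ) * (δ / (4 * (N : ℝ))) = δ / 4 := by field_simp
      linarith
    linarith

end

end Claimed.Agent.R286
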