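import Claimed.Agent.R286.Macro.Iface

/-! # Row 286 (S0533), unit MAC: file `Macro/Interp.lean` = merge of Conc, Interp (file cap, lead 02:45Z).      owner helper67 -/

/-!
# Row 286, P11 (PE Lemma 5.7, profile.tex l.636-706), file 4: integrated concentration of the overlap when the field clock has slope `≥ γ`.   prefix `mv`

PROOF (simpler than the paper: no partition into level sets of `S`).   `J := ∫₀¹ H2 ≤ 1/(nγ)` by `I.susc`.
* `mv_conc_C2`:  a.e. `C2 u ≤ H2 u / u² ≤ H2 u / ε²` on `(ε,1)` (`I.hc`):  `∫_ε^1 C2 ≤ J/ε² ≤ R := 1/(nγε²)`.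
* `mv_conc_sqrt`:  `√x ≤ x/(2κ) + κ/2` with `κ = √R`:  `∫_ε^1 √C2 ≤ √R`.
* `mv_conc_Vx`:  if `ε + ρ ≤ 1 - ρ`: for a.e. `u ∈ (ε+ρ, 1-ρ)` (`I.conc`), with `ΔS u = S (u+ρ) - S (u-ρ) ∈ [0,1]` and `∫_{u-ρ}^{u+ρ} H2 v / v ≤ J/ε`:   `Vx u ≤ 2 ΔS u + 32/(ρ² nγ ε)`;
  `∫_{ε+ρ}^{1-ρ} ΔS = ∫_{1-2ρ}^{1} S - ∫_{ε}^{ε+2ρ} S ≤ 2ρ` (translation of the interval integral);  the two end strips cost `≤ 2ρ` (`Vx ≤ 1`).   If `ε + ρ > 1 - ρ` then `∫_ε^1 Vx ≤ 1 - ε < 2ρ`.   So `∫_ε^1 Vx ≤ 6ρ + 32/(ρ² nγ ε)`.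
* `mv_conc`:  `B - S² ≤ 1` on `(0,ε)`, `I.dsq` on `(ε,1)`.
-/

set_option autoImplicit false

namespace Claimed.Agent.R286

open MeasureTheory Set Filter Topology

noncomputable section

/-- monotonicity of the interval integral from an a.e. inequality on the open interval -/
theorem mv_int_mono' {f g : ℝ → ℝ} {a b : ℝ} (hab : a ≤ b) (hf : IntervalIntegrable f volume a b)
    (hg : IntervalIntegrable g volume a b) (h : ∀ᵐ u ∂volume, u ∈ Ioo a b → f u ≤ g u) :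
    ∫ u in a..b, f u ≤ ∫ u in a..b, g u := by
  refine intervalIntegral.integral_mono_ae_restrict hab hf hg ?_
  rw [← Measure.restrict_congr_set (Ioo_ae_eq_Icc (a := a) (b := b) (μ := volume))]
  exact (ae_restrict_iff' measurableSet_Ioo).2 h

/-- the integral of a nonnegative function over a subinterval -/
theorem mv_int_sub {g : ℝ → ℝ} (hg : MvBM g) (h0 : ∀ u ∈ Icc (0:ℝ) 1, 0 ≤ g u) {a b : ℝ} (ha : 0 ≤ a) (hab : a ≤ b) (hb : b ≤ 1) :
    ∫ u in a..b, g u ≤ ∫ u in (0:ℝ)..1, g u := by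
  have m0 : (0:ℝ) ∈ Icc (0:ℝ) 1 := ⟨le_rfl, zero_le_one⟩
  have m1 : (1:ℝ) ∈ Icc (0:ℝ) 1 := ⟨zero_le_one, le_rfl⟩
  have ma : a ∈ Icc (0:ℝ) 1 := ⟨ha, hab.trans hb⟩
  have mb : b ∈ Icc (0:ℝ) 1 := ⟨ha.trans hab, hb⟩
  have e1 := intervalIntegral.integral_add_adjacent_intervals (hg.ii m0 ma) (hg.ii ma m1)
  have e2 := intervalIntegral.integral_add_adjacent_intervals (hg.ii ma mb) (hg.ii mb m1)
  have p1 : 0 ≤ ∫ u in (0:ℝ)..a, g u := intervalIntegral.integral_nonneg ha fun u hu => h0 u ⟨hu.1, hu.2.trans (hab.trans hb)⟩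
  have p2 : 0 ≤ ∫ u in b..1, g u := intervalIntegral.integral_nonneg hb fun u hu => h0 u ⟨(ha.trans hab).trans hu.1, hu.2⟩
  linarith

/-- the integral of a function with values in `[0,1]` over a subinterval is at most its length -/
theorem mv_int_le_len {g : ℝ → ℝ} (hg : MvBM g) (h1 : ∀ u ∈ Icc (0:ℝ) 1, g u ≤ 1) {a b : ℝ} (ha : 0 ≤ a) (hab : a ≤ b) (hb : b ≤ 1) :
    ∫ u in a..b, g u ≤ b - a := by
  have := mv_int_mono hg (MvBM.const 1) ha hab hb (Eventually.of_forall fun u hu => h1 u ⟨ha.trans hu.1.le, hu.2.le.trans hb⟩)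
  simpa using this
theorem mv_conc_H2 {n : ℕ} (hn : 0 < n) (I : MvIface n) {b h : ℝ → ℝ} (hb : MvClk b) (hh : MvClk h) {γ : ℝ} (hγ : 0 < γ)
    (hsl : ∀ u v : ℝ, 0 ≤ u → u ≤ v → v ≤ 1 → γ * (v - u) ≤ h v - h u) :
    ∫ u in (0:ℝ)..1, I.H2 b h u ≤ 1 / ((n : ℝ) * γ) := by
  have hn' : (0:ℝ) < n := by exact_mod_cast hn
  have := I.susc b h hb hh γ hγ.le hsl
  rw [le_div_iff₀ (by positivity)]
  linarith

theorem mv_conc_C2 {n : ℕ} (hn : 0 < n) (I : MvIface n) {b h : ℝ → ℝ} (hb : MvClk b) (hh : MvClk h) {γ ε : ℝ} (hγ : 0 < γ)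
    (hsl : ∀ u v : ℝ, 0 ≤ u → u ≤ v → v ≤ 1 → γ * (v - u) ≤ h v - h u) (hε : 0 < ε) (hε1 : ε ≤ 1) :
    ∫ u in ε..1, I.C2 b h u ≤ 1 / ((n : ℝ) * γ * ε ^ 2) := by
  have hn' : (0:ℝ) < n := by exact_mod_cast hn
  have hC : MvBM (I.C2 b h) := MvBM.of_meas (I.C2_meas b h hb hh) (I.C2_mem b h hb hh)
  have hH : MvBM (I.H2 b h) := MvBM.of_meas (I.H2_meas b h hb hh) (I.H2_mem b h hb hh)
  have h1 : ∫ u in ε..1, I.C2 b h u ≤ ∫ u in ε..1, (1 / ε ^ 2) * I.H2 b h u := by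
    refine mv_int_mono hC ((MvBM.const (1 / ε ^ 2)).mul hH) hε.le hε1 le_rfl ?_
    filter_upwards [I.hc b h hb hh] with u hu hmem
    have hu01 : u ∈ Icc (0:ℝ) 1 := ⟨hε.le.trans hmem.1.le, hmem.2.le⟩
    have hc0 := (I.C2_mem b h hb hh u hu01).1
    have h2 : ε ^ 2 * I.C2 b h u ≤ u ^ 2 * I.C2 b h u :=
      mul_le_mul_of_nonneg_right (pow_le_pow_left₀ hε.le hmem.1.le 2) hc0
    rw [div_mul_eq_mul_div, one_mul, le_div_iff₀ (by positivity)]
    linarith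
  rw [intervalIntegral.integral_const_mul] at h1
  have h2 := mv_int_sub hH (fun u hu => (I.H2_mem b h hb hh u hu).1) hε.le hε1 le_rfl
  have h3 := mv_conc_H2 hn I hb hh hγ hsl
  calc ∫ u in ε..1, I.C2 b h u ≤ 1 / ε ^ 2 * ∫ u in ε..1, I.H2 b h u := h1
    _ ≤ 1 / ε ^ 2 * (1 / ((n : ℝ) * γ)) := mul_le_mul_of_nonneg_left (h2.trans h3) (by positivity)
    _ = _ := by field_simp

theorem mv_conc_sqrt {n : ℕ} (hn : 0 < n) (I : MvIface n) {b h : ℝ → ℝ} (hb : MvClk b) (hh : MvClk h) {γ ε : ℝ} (hγ : 0 < γ)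
    (hsl : ∀ u v : ℝ, 0 ≤ u → u ≤ v → v ≤ 1 → γ * (v - u) ≤ h v - h u) (hε : 0 < ε) (hε1 : ε ≤ 1) :
    ∫ u in ε..1, Real.sqrt (I.C2 b h u) ≤ Real.sqrt (1 / ((n : ℝ) * γ * ε ^ 2)) := by
  have hn' : (0:ℝ) < n := by exact_mod_cast hn
  have hC : MvBM (I.C2 b h) := MvBM.of_meas (I.C2_meas b h hb hh) (I.C2_mem b h hb hh)
  set R : ℝ := 1 / ((n : ℝ) * γ * ε ^ 2) with hR
  have hRpos : 0 < R := by positivity
  set κ : ℝ := Real.sqrt R with hκ
  have hκpos : 0 < κ := Real.sqrt_pos.2 hRpos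
  have hκ2 : κ * κ = R := Real.mul_self_sqrt hRpos.le
  have m1 : (1:ℝ) ∈ Icc (0:ℝ) 1 := ⟨zero_le_one, le_rfl⟩
  have mε : ε ∈ Icc (0:ℝ) 1 := ⟨hε.le, hε1⟩
  have h1 : ∫ u in ε..1, Real.sqrt (I.C2 b h u) ≤ ∫ u in ε..1, ((1 / (2 * κ)) * I.C2 b h u + κ / 2) := by
    refine mv_int_mono (hC.comp Real.continuous_sqrt) (((MvBM.const (1 / (2 * κ))).mul hC).add (MvBM.const (κ / 2))) hε.le hε1 le_rfl
      (Eventually.of_forall fun u hmem => ?_)
    have hu01 : u ∈ Icc (0:ℝ) 1 := ⟨hε.le.trans hmem.1.le, hmem.2.le⟩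
    have hc0 := (I.C2_mem b h hb hh u hu01).1
    set y := Real.sqrt (I.C2 b h u) with hy
    have hy2 : y * y = I.C2 b h u := Real.mul_self_sqrt hc0
    rw [← hy2]
    have : y ≤ (y * y + κ * κ) / (2 * κ) := by
      rw [le_div_iff₀ (by positivity)]
      nlinarith [sq_nonneg (y - κ)]
    calc y ≤ (y * y + κ * κ) / (2 * κ) := this
      _ = _ := by field_simp
  rw [intervalIntegral.integral_add (((MvBM.const (1 / (2 * κ))).mul hC).ii mε m1) ((MvBM.const (κ / 2)).ii mε m1),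
    intervalIntegral.integral_const_mul, intervalIntegral.integral_const, smul_eq_mul] at h1
  have h2 := mv_conc_C2 hn I hb hh hγ hsl hε hε1
  rw [← hR] at h2
  have h3 : 1 / (2 * κ) * ∫ u in ε..1, I.C2 b h u ≤ 1 / (2 * κ) * R := mul_le_mul_of_nonneg_left h2 (by positivity)
  have h4 : 1 / (2 * κ) * R = κ / 2 := by rw [← hκ2]; field_simp
  have h5 : (1 - ε) * (κ / 2) ≤ κ / 2 := by nlinarith
  linarith

theorem mv_conc_Vx {n : ℕ} (hn : 0 < n) (I : MvIface n) {b h : ℝ → ℝ} (hb : MvClk b) (hh : MvClk h) {γ ε ρ : ℝ} (hγ : 0 < γ)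
    (hsl : ∀ u v : ℝ, 0 ≤ u → u ≤ v → v ≤ 1 → γ * (v - u) ≤ h v - h u)
    (hε : 0 < ε) (hε1 : ε ≤ 1) (hρ : 0 < ρ) (hρ1 : ρ ≤ 1) :
    ∫ u in ε..1, I.Vx b h u ≤ 6 * ρ + 32 / (ρ ^ 2 * ((n : ℝ) * γ) * ε) := by
  have hn' : (0:ℝ) < n := by exact_mod_cast hn
  have hV : MvBM (I.Vx b h) := MvBM.of_meas (I.Vx_meas b h hb hh) (I.Vx_mem b h hb hh)
  have hH : MvBM (I.H2 b h) := MvBM.of_meas (I.H2_meas b h hb hh) (I.H2_mem b h hb hh)
  have hSm := I.S_mono b h hb hh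
  have hSB : MvBM (I.S b h) := MvBM.of_mono hSm
  have hV1 : ∀ u ∈ Icc (0:ℝ) 1, I.Vx b h u ≤ 1 := fun u hu => (I.Vx_mem b h hb hh u hu).2
  set c : ℝ := 32 / (ρ ^ 2 * ((n : ℝ) * γ) * ε) with hc
  have hcpos : 0 < c := by positivity
  by_cases hcase : ε + ρ ≤ 1 - ρ
  · -- the main case
    have mε : ε ∈ Icc (0:ℝ) 1 := ⟨hε.le, hε1⟩
    have m1 : (1:ℝ) ∈ Icc (0:ℝ) 1 := ⟨zero_le_one, le_rfl⟩
    have ma : ε + ρ ∈ Icc (0:ℝ) 1 := ⟨by linarith, by linarith⟩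
    have mb : 1 - ρ ∈ Icc (0:ℝ) 1 := ⟨by linarith, by linarith⟩
    have e1 := intervalIntegral.integral_add_adjacent_intervals (hV.ii mε ma) (hV.ii ma m1)
    have e2 := intervalIntegral.integral_add_adjacent_intervals (hV.ii ma mb) (hV.ii mb m1)
    have p1 := mv_int_le_len hV hV1 hε.le (by linarith : ε ≤ ε + ρ) ma.2
    have p2 := mv_int_le_len hV hV1 mb.1 (by linarith : 1 - ρ ≤ 1) le_rfl
    -- the shifted functions
    have iS1 : IntervalIntegrable (fun u => I.S b h (u + ρ)) volume (ε + ρ) (1 - ρ) := by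
      refine MonotoneOn.intervalIntegrable ?_
      rw [uIcc_of_le hcase]
      intro x hx y hy hxy
      exact hSm ⟨by linarith [hx.1], by linarith [hx.2]⟩ ⟨by linarith [hy.1], by linarith [hy.2]⟩ (by linarith)
    have iS2 : IntervalIntegrable (fun u => I.S b h (u - ρ)) volume (ε + ρ) (1 - ρ) := by
      refine MonotoneOn.intervalIntegrable ?_
      rw [uIcc_of_le hcase]
      intro x hx y hy hxy
      exact hSm ⟨by linarith [hx.1], by linarith [hx.2]⟩ ⟨by linarith [hy.1], by linarith [hy.2]⟩ (by linarith)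
    have hJ := mv_conc_H2 hn I hb hh hγ hsl
    have key : ∫ u in (ε + ρ)..(1 - ρ), I.Vx b h u
        ≤ ∫ u in (ε + ρ)..(1 - ρ), (2 * (I.S b h (u + ρ) - I.S b h (u - ρ)) + c) := by
      refine mv_int_mono' hcase (hV.ii ma mb) (((iS1.sub iS2).const_mul 2).add intervalIntegrable_const) ?_
      have hconc := (ae_restrict_iff' measurableSet_Ioo).1 (I.conc b h hb hh ρ hρ)
      filter_upwards [hconc] with u hu hmem
      have hu' := hu ⟨by linarith [hmem.1], hmem.2⟩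
      have hup : u + ρ ∈ Icc (0:ℝ) 1 := ⟨by linarith [hmem.1], by linarith [hmem.2]⟩
      have hum : u - ρ ∈ Icc (0:ℝ) 1 := ⟨by linarith [hmem.1], by linarith [hmem.2]⟩
      have hu01 : u ∈ Icc (0:ℝ) 1 := ⟨by linarith [hmem.1], by linarith [hmem.2]⟩
      set Δ : ℝ := I.S b h (u + ρ) - I.S b h (u - ρ) with hΔ
      have hΔ0 : 0 ≤ Δ := sub_nonneg.2 (hSm hum hup (by linarith))
      have hΔ1 : Δ ≤ 1 := by linarith [(I.S_mem b h hb hh _ hup).2, (I.S_mem b h hb hh _ hum).1]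
      -- the bracket
      have hK : ∫ v in (u - ρ)..(u + ρ), I.H2 b h v / v ≤ 1 / ((n : ℝ) * γ * ε) := by
        have hdiv : MvBM (fun v => if ε ≤ v then I.H2 b h v * v⁻¹ else 0) := by
          have hinv : MvBM (fun v : ℝ => (max ε v)⁻¹) :=
            MvBM.of_cont (Continuous.continuousOn (by
              refine Continuous.inv₀ (by fun_prop) fun v => ?_
              exact (lt_of_lt_of_le hε (le_max_left _ _)).ne'))
          have := (hH.mul hinv).ite ε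
          refine ⟨this.1.congr (Eventually.of_forall fun v => ?_), ?_⟩
          · simp only
            split_ifs with hv
            · rw [max_eq_right hv]
            · rfl
          · obtain ⟨C, hC⟩ := this.2
            refine ⟨C, fun v hv => ?_⟩
            have := hC v hv
            simp only at this ⊢
            split_ifs with hv' <;> simp only [hv', if_true, if_false] at this
            · rwa [max_eq_right hv'] at this
            · exact this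
        have q1 : ∫ v in (u - ρ)..(u + ρ), I.H2 b h v / v = ∫ v in (u - ρ)..(u + ρ), (if ε ≤ v then I.H2 b h v * v⁻¹ else 0) := by
          refine intervalIntegral.integral_congr fun v hv => ?_
          rw [uIcc_of_le (by linarith)] at hv
          rw [if_pos (by linarith [hv.1, hmem.1]), div_eq_mul_inv]
        rw [q1]
        have q2 : ∫ v in (u - ρ)..(u + ρ), (if ε ≤ v then I.H2 b h v * v⁻¹ else 0) ≤ ∫ v in (u - ρ)..(u + ρ), (1 / ε) * I.H2 b h v := by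
          refine mv_int_mono hdiv ((MvBM.const (1 / ε)).mul hH) hum.1 (by linarith) hup.2 (Eventually.of_forall fun v hv => ?_)
          have hεv : ε ≤ v := by linarith [hv.1, hmem.1]
          have hv01 : v ∈ Icc (0:ℝ) 1 := ⟨by linarith, by linarith [hv.2, hup.2]⟩
          rw [if_pos hεv, mul_comm]
          refine mul_le_mul_of_nonneg_right ?_ (I.H2_mem b h hb hh v hv01).1
          rw [one_div]
          exact inv_anti₀ hε hεv
        rw [intervalIntegral.integral_const_mul] at q2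
        have q3 := mv_int_sub hH (fun v hv => (I.H2_mem b h hb hh v hv).1) hum.1 (by linarith : u - ρ ≤ u + ρ) hup.2
        calc _ ≤ 1 / ε * ∫ v in (u - ρ)..(u + ρ), I.H2 b h v := q2
          _ ≤ 1 / ε * (1 / ((n : ℝ) * γ)) := mul_le_mul_of_nonneg_left (q3.trans hJ) (by positivity)
          _ = _ := by field_simp
      set K : ℝ := ∫ v in (u - ρ)..(u + ρ), I.H2 b h v / v with hKdef
      have hv0 := (I.Vx_mem b h hb hh u hu01).1
      have hsq : I.Vx b h u = Real.sqrt (I.Vx b h u) ^ 2 := (Real.sq_sqrt hv0).symm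
      have hsK : Real.sqrt K ^ 2 ≤ 1 / ((n : ℝ) * γ * ε) := by
        rcases le_total 0 K with hK0 | hK0
        · rw [Real.sq_sqrt hK0]; exact hK
        · rw [Real.sqrt_eq_zero_of_nonpos hK0]
          have : (0:ℝ) ≤ 1 / ((n : ℝ) * γ * ε) := by positivity
          simpa using this
      have hs0 : 0 ≤ Real.sqrt (I.Vx b h u) := Real.sqrt_nonneg _
      have hb0 : 0 ≤ 4 / ρ * Real.sqrt K := by positivity
      have h6 : Real.sqrt (I.Vx b h u) ^ 2 ≤ (Δ + 4 / ρ * Real.sqrt K) ^ 2 := pow_le_pow_left₀ hs0 hu' 2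
      have h7 : (Δ + 4 / ρ * Real.sqrt K) ^ 2 ≤ 2 * Δ ^ 2 + 2 * (4 / ρ * Real.sqrt K) ^ 2 := by
        nlinarith [sq_nonneg (Δ - 4 / ρ * Real.sqrt K)]
      have h8 : (4 / ρ * Real.sqrt K) ^ 2 ≤ 16 / ρ ^ 2 * (1 / ((n : ℝ) * γ * ε)) := by
        rw [mul_pow, div_pow]
        have : (4:ℝ) ^ 2 = 16 := by norm_num
        rw [this]
        exact mul_le_mul_of_nonneg_left hsK (by positivity)
      have h9 : 2 * (16 / ρ ^ 2 * (1 / ((n : ℝ) * γ * ε))) = c := by rw [hc]; field_simp; norm_num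
      have h10 : Δ ^ 2 ≤ Δ := by nlinarith
      rw [hsq]
      linarith
    -- the integral of the increments
    have hΔint : ∫ u in (ε + ρ)..(1 - ρ), (2 * (I.S b h (u + ρ) - I.S b h (u - ρ)) + c) ≤ 4 * ρ + c := by
      rw [intervalIntegral.integral_add ((iS1.sub iS2).const_mul 2) intervalIntegrable_const, intervalIntegral.integral_const_mul,
        intervalIntegral.integral_sub iS1 iS2, intervalIntegral.integral_comp_add_right (fun x => I.S b h x) ρ,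
        intervalIntegral.integral_comp_sub_right (fun x => I.S b h x) ρ, intervalIntegral.integral_const, smul_eq_mul]
      have x1 : ε + ρ + ρ = ε + 2 * ρ := by ring
      have x2 : 1 - ρ + ρ = 1 := by ring
      have x3 : ε + ρ - ρ = ε := by ring
      have x4 : 1 - ρ - ρ = 1 - 2 * ρ := by ring
      rw [x1, x2, x3, x4]
      have mc : ε + 2 * ρ ∈ Icc (0:ℝ) 1 := ⟨by linarith, by linarith⟩
      have md : 1 - 2 * ρ ∈ Icc (0:ℝ) 1 := ⟨by linarith, by linarith⟩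
      have f1 := intervalIntegral.integral_add_adjacent_intervals (hSB.ii mε mc) (hSB.ii mc m1)
      have f2 := intervalIntegral.integral_add_adjacent_intervals (hSB.ii mε md) (hSB.ii md m1)
      have g1 : 0 ≤ ∫ u in ε..(ε + 2 * ρ), I.S b h u :=
        intervalIntegral.integral_nonneg (by linarith) fun u hu => (I.S_mem b h hb hh u ⟨by linarith [hu.1], by linarith [hu.2, mc.2]⟩).1
      have g2 := mv_int_le_len hSB (fun u hu => (I.S_mem b h hb hh u hu).2) md.1 (by linarith : 1 - 2 * ρ ≤ 1) le_rfl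
      have g3 : (1 - ρ - (ε + ρ)) * c ≤ c := by nlinarith
      linarith
    linarith
  · have := mv_int_le_len hV hV1 hε.le hε1 le_rfl
    push Not at hcase
    linarith

theorem mv_conc {n : ℕ} (hn : 0 < n) (I : MvIface n) {b h : ℝ → ℝ} (hb : MvClk b) (hh : MvClk h) {γ ε ρ : ℝ} (hγ : 0 < γ)
    (hsl : ∀ u v : ℝ, 0 ≤ u → u ≤ v → v ≤ 1 → γ * (v - u) ≤ h v - h u)
    (hε : 0 < ε) (hε1 : ε ≤ 1) (hρ : 0 < ρ) (hρ1 : ρ ≤ 1) :
    ∫ u in (0:ℝ)..1, (I.B b h u - I.S b h u ^ 2) ≤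
      ε + 6 * ρ + 32 / (ρ ^ 2 * ((n : ℝ) * γ) * ε) + 1 / ((n : ℝ) * γ * ε ^ 2) + 2 * Real.sqrt (1 / ((n : ℝ) * γ * ε ^ 2)) := by
  have hV : MvBM (I.Vx b h) := MvBM.of_meas (I.Vx_meas b h hb hh) (I.Vx_mem b h hb hh)
  have hC : MvBM (I.C2 b h) := MvBM.of_meas (I.C2_meas b h hb hh) (I.C2_mem b h hb hh)
  have hB : MvBM (I.B b h) := MvBM.of_mono (I.B_mono b h hb hh)
  have hS : MvBM (I.S b h) := MvBM.of_mono (I.S_mono b h hb hh)
  have hD : MvBM (fun u => I.B b h u - I.S b h u ^ 2) := hB.sub (hS.comp (φ := fun x => x ^ 2) (by fun_prop))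
  have m0 : (0:ℝ) ∈ Icc (0:ℝ) 1 := ⟨le_rfl, zero_le_one⟩
  have m1 : (1:ℝ) ∈ Icc (0:ℝ) 1 := ⟨zero_le_one, le_rfl⟩
  have mε : ε ∈ Icc (0:ℝ) 1 := ⟨hε.le, hε1⟩
  have e1 := intervalIntegral.integral_add_adjacent_intervals (hD.ii m0 mε) (hD.ii mε m1)
  have p1 := mv_int_le_len hD (fun u hu => by
    have := (I.B_mem b h hb hh u hu).2
    nlinarith [sq_nonneg (I.S b h u)]) le_rfl hε.le hε1
  have hsq : MvBM (fun u => Real.sqrt (I.C2 b h u)) := hC.comp Real.continuous_sqrt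
  have p2 : ∫ u in ε..1, (I.B b h u - I.S b h u ^ 2) ≤ ∫ u in ε..1, (I.Vx b h u + 2 * Real.sqrt (I.C2 b h u) + I.C2 b h u) := by
    refine mv_int_mono hD ((hV.add ((MvBM.const 2).mul hsq)).add hC) hε.le hε1 le_rfl ?_
    filter_upwards [I.dsq b h hb hh] with u hu _
    exact hu
  rw [intervalIntegral.integral_add ((hV.add ((MvBM.const 2).mul hsq)).ii mε m1) (hC.ii mε m1),
    intervalIntegral.integral_add (hV.ii mε m1) (((MvBM.const 2).mul hsq).ii mε m1), intervalIntegral.integral_const_mul] at p2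
  have q1 := mv_conc_Vx hn I hb hh hγ hsl hε hε1 hρ hρ1
  have q2 := mv_conc_sqrt hn I hb hh hγ hsl hε hε1
  have q3 := mv_conc_C2 hn I hb hh hγ hsl hε hε1
  linarith

end

end Claimed.Agent.R286


/-!
# Row 286, P11 (PE Lemma 5.7, profile.tex l.596-616), file 5 (architect helper67, proofs helper47): the interpolation `t ↦ f((1-t) b, h + t b z) + (t/4) ∫ b z²`, its right derivative, Guerra's bound.   prefix `mv`

* `MvIface.seg_deriv`: re-basing of `I.deriv`: with `P_s = P + s (P' - P)`, `P_t + θ (P' - P_t) = P_{t + θ (1-t)}`; compose `I.deriv` (base `P_t`, target `P'`) with `s ↦ (s - t)/(1 - t)` (maps `Ici t` to `Ici 0`), `b' - b_t = (1-t)(b' - b)`.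
* `mvObj_deriv`: `seg_deriv` with `P' = (0, h + b z)`:  `¼ ∫ B b - ½ ∫ S b z + ¼ ∫ b z² = ¼ ∫ b ((B - S²) + (S - z)²)`.
* `mv_guerra`: `image_le_of_deriv_right_le_deriv_boundary` with the constant function on the left; derivative `≥ 0` by `I.dnn`.
-/

set_option autoImplicit false

namespace Claimed.Agent.R286

open MeasureTheory Set Filter Topology

noncomputable section

/-- matrix clock at time `t` -/
def mvBt (b : ℝ → ℝ) (t : ℝ) : ℝ → ℝ := fun u => b u + t * (0 - b u)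
/-- field clock at time `t` with trial quantile `z` -/
def mvHt (b h z : ℝ → ℝ) (t : ℝ) : ℝ → ℝ := fun u => h u + t * ((h u + b u * z u) - h u)
/-- the interpolating objective -/
def mvObj {n : ℕ} (I : MvIface n) (b h z : ℝ → ℝ) (t : ℝ) : ℝ :=
  I.f (mvBt b t) (mvHt b h z t) + t * (1 / 4 * ∫ u in (0:ℝ)..1, b u * z u ^ 2)

theorem mvBt_clk {b : ℝ → ℝ} (hb : MvClk b) {t : ℝ} (ht : t ∈ Icc (0:ℝ) 1) : MvClk (mvBt b t) :=
  MvClk.seg hb (MvClk.const le_rfl) ht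
theorem mvHt_clk {b h z : ℝ → ℝ} (hb : MvClk b) (hh : MvClk h) (hz : MvQt z) {t : ℝ} (ht : t ∈ Icc (0:ℝ) 1) :
    MvClk (mvHt b h z t) :=
  MvClk.seg hh (hh.add (hb.mul hz.1)) ht

/-- the field clock has slope `≥ t b_* lo` if `z` has slope `≥ lo` -/
theorem mvHt_slope {b h z : ℝ → ℝ} (hb : MvClk b) (hh : MvClk h) (hz : MvQt z) {t bs lo : ℝ} (ht : 0 ≤ t) (hlo : 0 ≤ lo)
    (hbs : ∀ u ∈ Icc (0:ℝ) 1, bs ≤ b u) (hbs0 : 0 ≤ bs)
    (hzs : ∀ u v : ℝ, 0 ≤ u → u ≤ v → v ≤ 1 → lo * (v - u) ≤ z v - z u) :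
    ∀ u v : ℝ, 0 ≤ u → u ≤ v → v ≤ 1 → t * bs * lo * (v - u) ≤ mvHt b h z t v - mvHt b h z t u := by
  intro u v hu huv hv
  have hum : u ∈ Icc (0:ℝ) 1 := ⟨hu, huv.trans hv⟩
  have hvm : v ∈ Icc (0:ℝ) 1 := ⟨hu.trans huv, hv⟩
  have h1 : h u ≤ h v := hh.1 hum hvm huv
  have h2 : b u ≤ b v := hb.1 hum hvm huv
  have h3 : 0 ≤ z u := (hz.mem hum).1
  have h4 : bs ≤ b v := hbs v hvm
  have h5 := hzs u v hu huv hv
  have h6 : 0 ≤ lo * (v - u) := mul_nonneg hlo (sub_nonneg.2 huv)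
  have h7 : bs * (lo * (v - u)) ≤ b v * (z v - z u) :=
    mul_le_mul h4 h5 h6 (hbs0.trans h4)
  have h8 : 0 ≤ (b v - b u) * z u := mul_nonneg (sub_nonneg.2 h2) h3
  have h9 : bs * (lo * (v - u)) ≤ b v * z v - b u * z u := by nlinarith
  have h10 : t * (bs * (lo * (v - u))) ≤ t * (b v * z v - b u * z u) :=
    mul_le_mul_of_nonneg_left h9 ht
  simp only [mvHt]
  nlinarith

/-- right derivative along an affine segment of clock pairs, at any time `t ∈ [0,1)` -/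
theorem MvIface.seg_deriv {n : ℕ} (I : MvIface n) {b h b' h' : ℝ → ℝ} (hb : MvClk b) (hh : MvClk h) (hb' : MvClk b') (hh' : MvClk h')
    {t : ℝ} (ht : t ∈ Ico (0:ℝ) 1) :
    HasDerivWithinAt (fun s : ℝ => I.f (fun u => b u + s * (b' u - b u)) (fun u => h u + s * (h' u - h u)))
      (-(1 / 4) * (∫ u in (0:ℝ)..1, I.B (fun u => b u + t * (b' u - b u)) (fun u => h u + t * (h' u - h u)) u * (b' u - b u))
        - 1 / 2 * ∫ u in (0:ℝ)..1, I.S (fun u => b u + t * (b' u - b u)) (fun u => h u + t * (h' u - h u)) u * (h' u - h u))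
      (Ici t) t := by
  have h1t : (0:ℝ) < 1 - t := by linarith [ht.2]
  have htm : t ∈ Icc (0:ℝ) 1 := ⟨ht.1, ht.2.le⟩
  set bt : ℝ → ℝ := fun u => b u + t * (b' u - b u) with hbt
  set h_t : ℝ → ℝ := fun u => h u + t * (h' u - h u) with hht
  have hbtc : MvClk bt := MvClk.seg hb hb' htm
  have hhtc : MvClk h_t := MvClk.seg hh hh' htm
  have hD := I.deriv bt h_t b' h' hbtc hhtc hb' hh'
  have hφ : HasDerivWithinAt (fun s : ℝ => (s - t) / (1 - t)) (1 / (1 - t)) (Ici t) t :=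
    (((hasDerivAt_id t).sub_const t).div_const (1 - t)).hasDerivWithinAt
  have hmaps : MapsTo (fun s : ℝ => (s - t) / (1 - t)) (Ici t) (Ici 0) := by
    intro s hs
    exact div_nonneg (sub_nonneg.2 hs) h1t.le
  have hD' : HasDerivWithinAt (fun θ : ℝ => I.f (fun u => bt u + θ * (b' u - bt u)) (fun u => h_t u + θ * (h' u - h_t u)))
      (-(1 / 4) * (∫ u in (0:ℝ)..1, I.B bt h_t u * (b' u - bt u)) - 1 / 2 * ∫ u in (0:ℝ)..1, I.S bt h_t u * (h' u - h_t u))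
      (Ici 0) ((fun s : ℝ => (s - t) / (1 - t)) t) := by
    simpa using hD
  have hcomp := HasDerivWithinAt.comp t hD' hφ hmaps
  have e1 : ∫ u in (0:ℝ)..1, I.B bt h_t u * (b' u - bt u) = (1 - t) * ∫ u in (0:ℝ)..1, I.B bt h_t u * (b' u - b u) := by
    rw [← intervalIntegral.integral_const_mul]
    refine intervalIntegral.integral_congr fun u _ => ?_
    simp only [hbt]; ring
  have e2 : ∫ u in (0:ℝ)..1, I.S bt h_t u * (h' u - h_t u) = (1 - t) * ∫ u in (0:ℝ)..1, I.S bt h_t u * (h' u - h u) := by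
    rw [← intervalIntegral.integral_const_mul]
    refine intervalIntegral.integral_congr fun u _ => ?_
    simp only [hht]; ring
  have hfun : ((fun θ : ℝ => I.f (fun u => bt u + θ * (b' u - bt u)) (fun u => h_t u + θ * (h' u - h_t u))) ∘
      fun s : ℝ => (s - t) / (1 - t)) =
      fun s : ℝ => I.f (fun u => b u + s * (b' u - b u)) (fun u => h u + s * (h' u - h u)) := by
    funext s
    have a1 : (fun u => bt u + (s - t) / (1 - t) * (b' u - bt u)) = fun u => b u + s * (b' u - b u) := by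
      funext u
      simp only [hbt]; field_simp; ring
    have a2 : (fun u => h_t u + (s - t) / (1 - t) * (h' u - h_t u)) = fun u => h u + s * (h' u - h u) := by
      funext u
      simp only [hht]; field_simp; ring
    simp only [Function.comp, a1, a2]
  rw [hfun] at hcomp
  refine hcomp.congr_deriv ?_
  rw [e1, e2]
  field_simp

theorem mvObj_zero {n : ℕ} (I : MvIface n) (b h z : ℝ → ℝ) : mvObj I b h z 0 = I.f b h := by
  have e1 : mvBt b 0 = b := by funext u; simp [mvBt]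
  have e2 : mvHt b h z 0 = h := by funext u; simp [mvHt]
  rw [mvObj, e1, e2]; simp

theorem mvObj_one {n : ℕ} (I : MvIface n) (fspin : (ℝ → ℝ) → ℝ) (hsp : ∀ K, MvClk K → I.f (fun _ => 0) K = fspin K)
    {b h z : ℝ → ℝ} (hb : MvClk b) (hh : MvClk h) (hz : MvQt z) : mvObj I b h z 1 = mvG fspin b h z := by
  have e1 : mvBt b 1 = fun _ => 0 := by funext u; simp [mvBt]
  have e2 : mvHt b h z 1 = fun u => h u + b u * z u := by funext u; simp [mvHt]
  rw [mvObj, e1, e2, hsp _ (hh.add (hb.mul hz.1)), mvG, one_mul]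

/-- the remainder of Guerra's interpolation -/
def mvRem {n : ℕ} (I : MvIface n) (b h z : ℝ → ℝ) (t : ℝ) : ℝ :=
  1 / 4 * ∫ u in (0:ℝ)..1, b u * ((I.B (mvBt b t) (mvHt b h z t) u - I.S (mvBt b t) (mvHt b h z t) u ^ 2)
    + (I.S (mvBt b t) (mvHt b h z t) u - z u) ^ 2)

theorem mvS_bm {n : ℕ} (I : MvIface n) {b h z : ℝ → ℝ} (hb : MvClk b) (hh : MvClk h) (hz : MvQt z) {t : ℝ} (ht : t ∈ Icc (0:ℝ) 1) :
    MvBM (I.S (mvBt b t) (mvHt b h z t)) :=
  MvBM.of_mono (I.S_mono _ _ (mvBt_clk hb ht) (mvHt_clk hb hh hz ht))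

theorem mvB_bm {n : ℕ} (I : MvIface n) {b h z : ℝ → ℝ} (hb : MvClk b) (hh : MvClk h) (hz : MvQt z) {t : ℝ} (ht : t ∈ Icc (0:ℝ) 1) :
    MvBM (I.B (mvBt b t) (mvHt b h z t)) :=
  MvBM.of_mono (I.B_mono _ _ (mvBt_clk hb ht) (mvHt_clk hb hh hz ht))

theorem mvObj_deriv {n : ℕ} (I : MvIface n) {b h z : ℝ → ℝ} (hb : MvClk b) (hh : MvClk h) (hz : MvQt z) {t : ℝ} (ht : t ∈ Ico (0:ℝ) 1) :
    HasDerivWithinAt (mvObj I b h z) (mvRem I b h z t) (Ici t) t := by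
  have htm : t ∈ Icc (0:ℝ) 1 := ⟨ht.1, ht.2.le⟩
  have h0 : (0:ℝ) ∈ Icc (0:ℝ) 1 := ⟨le_rfl, zero_le_one⟩
  have h1 : (1:ℝ) ∈ Icc (0:ℝ) 1 := ⟨zero_le_one, le_rfl⟩
  have hD := I.seg_deriv hb hh (MvClk.const (le_refl (0:ℝ))) (hh.add (hb.mul hz.1)) ht
  have hlin : HasDerivWithinAt (fun s : ℝ => s * (1 / 4 * ∫ u in (0:ℝ)..1, b u * z u ^ 2))
      (1 / 4 * ∫ u in (0:ℝ)..1, b u * z u ^ 2) (Ici t) t := by
    simpa using ((hasDerivAt_id t).mul_const (1 / 4 * ∫ u in (0:ℝ)..1, b u * z u ^ 2)).hasDerivWithinAt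
  have hsum := hD.add hlin
  refine hsum.congr_deriv ?_
  set St := I.S (mvBt b t) (mvHt b h z t) with hSt
  set Bt := I.B (mvBt b t) (mvHt b h z t) with hBt
  have hS : MvBM St := mvS_bm I hb hh hz htm
  have hB : MvBM Bt := mvB_bm I hb hh hz htm
  have hbb : MvBM b := hb.bm
  have hzb : MvBM z := hz.1.bm
  have i1 : IntervalIntegrable (fun u => Bt u * b u) volume 0 1 := (hB.mul hbb).ii h0 h1
  have i2 : IntervalIntegrable (fun u => St u * (b u * z u)) volume 0 1 := (hS.mul (hbb.mul hzb)).ii h0 h1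
  have i3 : IntervalIntegrable (fun u => b u * z u ^ 2) volume 0 1 :=
    (hbb.mul (hzb.comp (φ := fun x => x ^ 2) (by fun_prop))).ii h0 h1
  have e1 : ∫ u in (0:ℝ)..1, Bt u * (0 - b u) = - ∫ u in (0:ℝ)..1, Bt u * b u := by
    rw [← intervalIntegral.integral_neg]
    refine intervalIntegral.integral_congr fun u _ => ?_
    ring
  have e2 : ∫ u in (0:ℝ)..1, St u * (h u + b u * z u - h u) = ∫ u in (0:ℝ)..1, St u * (b u * z u) := by
    refine intervalIntegral.integral_congr fun u _ => ?_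
    ring
  have e3 : ∫ u in (0:ℝ)..1, b u * ((Bt u - St u ^ 2) + (St u - z u) ^ 2)
      = (∫ u in (0:ℝ)..1, Bt u * b u) - 2 * (∫ u in (0:ℝ)..1, St u * (b u * z u)) + ∫ u in (0:ℝ)..1, b u * z u ^ 2 := by
    rw [← intervalIntegral.integral_const_mul, ← intervalIntegral.integral_sub i1 (i2.const_mul 2),
      ← intervalIntegral.integral_add (i1.sub (i2.const_mul 2)) i3]
    refine intervalIntegral.integral_congr fun u _ => ?_
    ring
  show -(1 / 4) * (∫ u in (0:ℝ)..1, Bt u * (0 - b u)) - 1 / 2 * (∫ u in (0:ℝ)..1, St u * (h u + b u * z u - h u))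
      + 1 / 4 * ∫ u in (0:ℝ)..1, b u * z u ^ 2 = 1 / 4 * ∫ u in (0:ℝ)..1, b u * ((Bt u - St u ^ 2) + (St u - z u) ^ 2)
  rw [e1, e2, e3]
  ring

theorem mvRem_nonneg {n : ℕ} (I : MvIface n) {b h z : ℝ → ℝ} (hb : MvClk b) (hh : MvClk h) (hz : MvQt z) {t : ℝ} (ht : t ∈ Icc (0:ℝ) 1) :
    0 ≤ mvRem I b h z t := by
  have h0 : (0:ℝ) ∈ Icc (0:ℝ) 1 := ⟨le_rfl, zero_le_one⟩
  have h1 : (1:ℝ) ∈ Icc (0:ℝ) 1 := ⟨zero_le_one, le_rfl⟩
  have hS := mvS_bm I hb hh hz ht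
  have hB := mvB_bm I hb hh hz ht
  have hbb : MvBM b := hb.bm
  have hzb : MvBM z := hz.1.bm
  have hint : MvBM (fun u => b u * ((I.B (mvBt b t) (mvHt b h z t) u - I.S (mvBt b t) (mvHt b h z t) u ^ 2)
      + (I.S (mvBt b t) (mvHt b h z t) u - z u) ^ 2)) :=
    hbb.mul ((hB.sub (hS.comp (φ := fun x => x ^ 2) (by fun_prop))).add
      ((hS.sub hzb).comp (φ := fun x => x ^ 2) (by fun_prop)))
  have hdn := I.dnn _ _ (mvBt_clk hb ht) (mvHt_clk hb hh hz ht)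
  have key := mv_int_mono (MvBM.const 0) hint le_rfl zero_le_one le_rfl (by
    filter_upwards [hdn] with u hu hu'
    have hbu : 0 ≤ b u := hb.nonneg ⟨hu'.1.le, hu'.2.le⟩
    exact mul_nonneg hbu (add_nonneg (sub_nonneg.2 hu) (sq_nonneg _)))
  rw [mvRem]
  simp only [intervalIntegral.integral_zero] at key
  linarith

/-- crude bound of the remainder -/
theorem mvRem_le {n : ℕ} (I : MvIface n) {b h z : ℝ → ℝ} (hb : MvClk b) (hh : MvClk h) (hz : MvQt z) {t : ℝ} (ht : t ∈ Icc (0:ℝ) 1) :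
    mvRem I b h z t ≤ b 1 / 4 * 2 := by
  have h0 : (0:ℝ) ∈ Icc (0:ℝ) 1 := ⟨le_rfl, zero_le_one⟩
  have h1 : (1:ℝ) ∈ Icc (0:ℝ) 1 := ⟨zero_le_one, le_rfl⟩
  have hS := mvS_bm I hb hh hz ht
  have hB := mvB_bm I hb hh hz ht
  have hbb : MvBM b := hb.bm
  have hzb : MvBM z := hz.1.bm
  have hint : MvBM (fun u => b u * ((I.B (mvBt b t) (mvHt b h z t) u - I.S (mvBt b t) (mvHt b h z t) u ^ 2)
      + (I.S (mvBt b t) (mvHt b h z t) u - z u) ^ 2)) :=
    hbb.mul ((hB.sub (hS.comp (φ := fun x => x ^ 2) (by fun_prop))).add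
      ((hS.sub hzb).comp (φ := fun x => x ^ 2) (by fun_prop)))
  have key := mv_int_mono hint (MvBM.const (b 1 * 2)) le_rfl zero_le_one le_rfl (by
    refine Filter.Eventually.of_forall fun u hu' => ?_
    have hum : u ∈ Icc (0:ℝ) 1 := ⟨hu'.1.le, hu'.2.le⟩
    have hbu : 0 ≤ b u := hb.nonneg hum
    have hb1 : b u ≤ b 1 := hb.le_one hum
    have hSm := I.S_mem _ _ (mvBt_clk hb ht) (mvHt_clk hb hh hz ht) u hum
    have hBm := I.B_mem _ _ (mvBt_clk hb ht) (mvHt_clk hb hh hz ht) u hum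
    have hzm := hz.mem hum
    have a1 : I.B (mvBt b t) (mvHt b h z t) u - I.S (mvBt b t) (mvHt b h z t) u ^ 2 ≤ 1 := by
      nlinarith [hBm.2, sq_nonneg (I.S (mvBt b t) (mvHt b h z t) u)]
    have a2 : (I.S (mvBt b t) (mvHt b h z t) u - z u) ^ 2 ≤ 1 := by
      have : |I.S (mvBt b t) (mvHt b h z t) u - z u| ≤ 1 := by
        rw [abs_le]; constructor <;> linarith [hSm.1, hSm.2, hzm.1, hzm.2]
      calc _ = |I.S (mvBt b t) (mvHt b h z t) u - z u| ^ 2 := (sq_abs _).symm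
        _ ≤ 1 ^ 2 := by gcongr
        _ = 1 := by norm_num
    calc b u * _ ≤ b u * 2 := by gcongr; linarith
      _ ≤ b 1 * 2 := by gcongr)
  rw [mvRem]
  simp only [intervalIntegral.integral_const, sub_zero, smul_eq_mul, one_mul] at key
  linarith

theorem mv_int_le_const {g : ℝ → ℝ} (hg : MvBM g) {C : ℝ} (h : ∀ u ∈ Icc (0:ℝ) 1, g u ≤ C) :
    ∫ u in (0:ℝ)..1, g u ≤ C := by
  have key := mv_int_mono hg (MvBM.const C) le_rfl zero_le_one le_rfl
    (Filter.Eventually.of_forall fun u hu => h u ⟨hu.1.le, hu.2.le⟩)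
  simpa using key

theorem mv_int_nonneg {g : ℝ → ℝ} (hg : MvBM g) (h : ∀ u ∈ Icc (0:ℝ) 1, 0 ≤ g u) :
    0 ≤ ∫ u in (0:ℝ)..1, g u := by
  have key := mv_int_mono (MvBM.const 0) hg le_rfl zero_le_one le_rfl
    (Filter.Eventually.of_forall fun u hu => h u ⟨hu.1.le, hu.2.le⟩)
  simpa using key

theorem mv_int_abs_sub_le {f g : ℝ → ℝ} (hf : MvBM f) (hg : MvBM g) {C : ℝ}
    (h : ∀ u ∈ Icc (0:ℝ) 1, |f u - g u| ≤ C) : |(∫ u in (0:ℝ)..1, f u) - ∫ u in (0:ℝ)..1, g u| ≤ C := by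
  have h0 : (0:ℝ) ∈ Icc (0:ℝ) 1 := ⟨le_rfl, zero_le_one⟩
  have h1 : (1:ℝ) ∈ Icc (0:ℝ) 1 := ⟨zero_le_one, le_rfl⟩
  rw [← intervalIntegral.integral_sub (hf.ii h0 h1) (hg.ii h0 h1), abs_le]
  constructor
  · have := mv_int_le_const (hg.sub hf) (C := C) fun u hu => by
      have := (abs_le.1 (h u hu)).1
      linarith
    rw [← neg_le_neg_iff, neg_neg, ← intervalIntegral.integral_neg]
    simpa using this
  · exact mv_int_le_const (hf.sub hg) fun u hu => (abs_le.1 (h u hu)).2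

theorem mv_bz2 {b z : ℝ → ℝ} (hb : MvClk b) (hz : MvQt z) :
    MvBM (fun u => b u * z u ^ 2) ∧ 0 ≤ (∫ u in (0:ℝ)..1, b u * z u ^ 2) ∧ (∫ u in (0:ℝ)..1, b u * z u ^ 2) ≤ b 1 := by
  have hm : MvBM (fun u => b u * z u ^ 2) := hb.bm.mul (hz.1.bm.comp (φ := fun x => x ^ 2) (by fun_prop))
  refine ⟨hm, mv_int_nonneg hm fun u hu => mul_nonneg (hb.nonneg hu) (sq_nonneg _), mv_int_le_const hm fun u hu => ?_⟩
  have hzm := hz.mem hu
  have h2 : z u ^ 2 ≤ 1 := by nlinarith [hzm.1, hzm.2]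
  calc b u * z u ^ 2 ≤ b u * 1 := by gcongr; exact hb.nonneg hu
    _ ≤ b 1 := by rw [mul_one]; exact hb.le_one hu

/-- Lipschitz in time, uniformly in the trial quantile -/
theorem mvObj_lip_t {n : ℕ} (I : MvIface n) {b h z : ℝ → ℝ} (hb : MvClk b) (hh : MvClk h) (hz : MvQt z) {s t : ℝ}
    (hs : s ∈ Icc (0:ℝ) 1) (ht : t ∈ Icc (0:ℝ) 1) : |mvObj I b h z s - mvObj I b h z t| ≤ b 1 * |s - t| := by
  have hl := I.lip _ _ _ _ (mvBt_clk hb hs) (mvHt_clk hb hh hz hs) (mvBt_clk hb ht) (mvHt_clk hb hh hz ht)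
  have A1 : ∫ u in (0:ℝ)..1, |mvBt b s u - mvBt b t u| ≤ b 1 * |s - t| := by
    refine mv_int_le_const (((mvBt_clk hb hs).bm.sub (mvBt_clk hb ht).bm).comp (φ := fun x => |x|) (by fun_prop)) fun u hu => ?_
    have e : mvBt b s u - mvBt b t u = -((s - t) * b u) := by simp only [mvBt]; ring
    rw [e, abs_neg, abs_mul, abs_of_nonneg (hb.nonneg hu), mul_comm]
    gcongr
    exact hb.le_one hu
  have A2 : ∫ u in (0:ℝ)..1, |mvHt b h z s u - mvHt b h z t u| ≤ b 1 * |s - t| := by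
    refine mv_int_le_const (((mvHt_clk hb hh hz hs).bm.sub (mvHt_clk hb hh hz ht).bm).comp (φ := fun x => |x|) (by fun_prop)) fun u hu => ?_
    have e : mvHt b h z s u - mvHt b h z t u = (s - t) * (b u * z u) := by simp only [mvHt]; ring
    have hzm := hz.mem hu
    have hbz : b u * z u ≤ b 1 := by
      calc b u * z u ≤ b u * 1 := by gcongr; exacts [hb.nonneg hu, hzm.2]
        _ ≤ b 1 := by rw [mul_one]; exact hb.le_one hu
    rw [e, abs_mul, abs_of_nonneg (mul_nonneg (hb.nonneg hu) hzm.1), mul_comm]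
    gcongr
  obtain ⟨-, A3, A4⟩ := mv_bz2 hb hz
  have e : mvObj I b h z s - mvObj I b h z t = (I.f (mvBt b s) (mvHt b h z s) - I.f (mvBt b t) (mvHt b h z t))
      + (s - t) * (1 / 4 * ∫ u in (0:ℝ)..1, b u * z u ^ 2) := by simp only [mvObj]; ring
  have A5 : |(s - t) * (1 / 4 * ∫ u in (0:ℝ)..1, b u * z u ^ 2)| ≤ 1 / 4 * (b 1 * |s - t|) := by
    rw [abs_mul, abs_of_nonneg (by positivity : 0 ≤ 1 / 4 * ∫ u in (0:ℝ)..1, b u * z u ^ 2)]
    nlinarith [abs_nonneg (s - t)]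
  rw [e]
  refine (abs_add_le _ _).trans ?_
  linarith

/-- Lipschitz in the trial quantile (sup distance) -/
theorem mvObj_lip_z {n : ℕ} (I : MvIface n) {b h z z' : ℝ → ℝ} (hb : MvClk b) (hh : MvClk h) (hz : MvQt z) (hz' : MvQt z') {t κ : ℝ}
    (ht : t ∈ Icc (0:ℝ) 1) (hκ : ∀ u ∈ Icc (0:ℝ) 1, |z u - z' u| ≤ κ) : |mvObj I b h z t - mvObj I b h z' t| ≤ b 1 * κ := by
  have h0 : (0:ℝ) ∈ Icc (0:ℝ) 1 := ⟨le_rfl, zero_le_one⟩
  have hκ0 : 0 ≤ κ := (abs_nonneg _).trans (hκ 0 h0)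
  have hb1 : 0 ≤ b 1 := hb.nonneg ⟨zero_le_one, le_rfl⟩
  have hl := I.lip _ _ _ _ (mvBt_clk hb ht) (mvHt_clk hb hh hz ht) (mvBt_clk hb ht) (mvHt_clk hb hh hz' ht)
  have A1 : ∫ u in (0:ℝ)..1, |mvBt b t u - mvBt b t u| = 0 := by simp
  have A2 : ∫ u in (0:ℝ)..1, |mvHt b h z t u - mvHt b h z' t u| ≤ b 1 * κ := by
    refine mv_int_le_const (((mvHt_clk hb hh hz ht).bm.sub (mvHt_clk hb hh hz' ht).bm).comp (φ := fun x => |x|) (by fun_prop)) fun u hu => ?_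
    have e : mvHt b h z t u - mvHt b h z' t u = t * (b u * (z u - z' u)) := by simp only [mvHt]; ring
    rw [e, abs_mul, abs_mul, abs_of_nonneg ht.1, abs_of_nonneg (hb.nonneg hu)]
    calc t * (b u * |z u - z' u|) ≤ 1 * (b 1 * κ) := by
          have hbu := hb.nonneg hu
          have a1 : b u * |z u - z' u| ≤ b 1 * κ :=
            mul_le_mul (hb.le_one hu) (hκ u hu) (abs_nonneg _) hb1
          exact mul_le_mul ht.2 a1 (mul_nonneg hbu (abs_nonneg _)) zero_le_one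
      _ = b 1 * κ := one_mul _
  have A3 : |(∫ u in (0:ℝ)..1, b u * z u ^ 2) - ∫ u in (0:ℝ)..1, b u * z' u ^ 2| ≤ b 1 * κ * 2 := by
    refine mv_int_abs_sub_le (mv_bz2 hb hz).1 (mv_bz2 hb hz').1 fun u hu => ?_
    have e : b u * z u ^ 2 - b u * z' u ^ 2 = b u * ((z u - z' u) * (z u + z' u)) := by ring
    have hzm := hz.mem hu
    have hzm' := hz'.mem hu
    rw [e, abs_mul, abs_mul, abs_of_nonneg (hb.nonneg hu), abs_of_nonneg (add_nonneg hzm.1 hzm'.1), ← mul_assoc]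
    have a1 : b u * |z u - z' u| ≤ b 1 * κ :=
      mul_le_mul (hb.le_one hu) (hκ u hu) (abs_nonneg _) hb1
    exact mul_le_mul a1 (by linarith [hzm.2, hzm'.2]) (add_nonneg hzm.1 hzm'.1) (mul_nonneg hb1 hκ0)
  have e : mvObj I b h z t - mvObj I b h z' t = (I.f (mvBt b t) (mvHt b h z t) - I.f (mvBt b t) (mvHt b h z' t))
      + t * (1 / 4 * ((∫ u in (0:ℝ)..1, b u * z u ^ 2) - ∫ u in (0:ℝ)..1, b u * z' u ^ 2)) := by simp only [mvObj]; ring
  have A5 : |t * (1 / 4 * ((∫ u in (0:ℝ)..1, b u * z u ^ 2) - ∫ u in (0:ℝ)..1, b u * z' u ^ 2))| ≤ 1 / 2 * (b 1 * κ) := by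
    rw [abs_mul, abs_mul, abs_of_nonneg ht.1, abs_of_nonneg (by norm_num : (0:ℝ) ≤ 1 / 4)]
    calc t * (1 / 4 * _) ≤ 1 * (1 / 4 * (b 1 * κ * 2)) := by
          gcongr
          exact ht.2
      _ = 1 / 2 * (b 1 * κ) := by ring
  rw [e]
  refine (abs_add_le _ _).trans ?_
  rw [A1] at hl
  linarith

/-- Guerra's bound -/
theorem mv_guerra {n : ℕ} (I : MvIface n) (fspin : (ℝ → ℝ) → ℝ) (hsp : ∀ K, MvClk K → I.f (fun _ => 0) K = fspin K)
    {b h z : ℝ → ℝ} (hb : MvClk b) (hh : MvClk h) (hz : MvQt z) : I.f b h ≤ mvG fspin b h z := by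
  have hb1 : 0 ≤ b 1 := hb.nonneg ⟨zero_le_one, le_rfl⟩
  have hcont : ContinuousOn (mvObj I b h z) (Icc (0:ℝ) 1) := by
    have : LipschitzOnWith (b 1).toNNReal (mvObj I b h z) (Icc (0:ℝ) 1) := by
      refine LipschitzOnWith.of_dist_le_mul fun s hs t ht => ?_
      rw [Real.dist_eq, Real.dist_eq, Real.coe_toNNReal _ hb1]
      exact mvObj_lip_t I hb hh hz hs ht
    exact this.continuousOn
  have key := image_le_of_deriv_right_le_deriv_boundary (f := fun _ => mvObj I b h z 0) (f' := fun _ => 0)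
    (a := 0) (b := 1) continuousOn_const (fun x _ => hasDerivWithinAt_const _ _ _)
    (B := mvObj I b h z) (B' := mvRem I b h z) le_rfl hcont
    (fun x hx => mvObj_deriv I hb hh hz hx)
    (fun x hx => mvRem_nonneg I hb hh hz ⟨hx.1, hx.2.le⟩)
  have := key (x := 1) ⟨zero_le_one, le_rfl⟩
  rwa [mvObj_zero, mvObj_one I fspin hsp hb hh hz] at this

end

end Claimed.Agent.R286
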