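import Claimed.Agent.R286.Macro.Iface
import Claimed.Agent.R286.Macro.Interp

/-! # Row 286 (S0533), unit MAC: file `Macro/Quant.lean` = merge of Quant, Limit (file cap, lead 02:45Z).      owner helper67 -/

/-!
# Row 286, P11, file 6: PE Lemma 5.7 in quantitative form (`mv_quant`).   prefix `mv`

`Φ(t) = min_{d ∈ K} mvObj I b h (mvZ d) t`.
* `mv_min`: a minimiser exists (`mvK_compact`, `mvObj_lip_z`, `mvZ_dist`).
* `mv_vi`: first variation at a minimiser `d`, `0 < t`: for `d' ∈ K`:  `0 ≤ ∫ b (z_d - S)(z_d' - z_d)`   (`I.deriv` with base `(mvBt b t, mvHt b h z_d t)`, target `(mvBt b t, mvHt b h z_d' t)`, `mvZ_lin`; the penalty is a polynomial in `θ`).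
* `mv_proj`: hence `z_d` is the `L²(b du)`-projection of `S` on the class:  `∫ b (S - z_d)² ≤ ∫ b (S - z_d')²`; with `mv_approx`: `≤ b 1 (2/N + 2 lo²)`.      (THIS REPLACES the contact/cap/floor geometry of the paper.)
* `mv_rem_min`: for `t ∈ [ε,1)` and a minimiser: `mvRem ≤ (b 1/4)(ε + 6ρ + .. + 2/N + 2 lo²)` (`mv_conc` with `γ = ε b_* lo`, `mvHt_slope`, `mvZ_slope`).
* `mv_fence`: `image_le_of_liminf_slope_right_le_deriv_boundary` on `[0,ε]` (slope `b 1/2`) and on `[ε,1]`:  `slope Φ t s ≤ slope (mvObj .. z_{d_t}) t s` for `s > t`.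
-/

set_option autoImplicit false

namespace Claimed.Agent.R286

open MeasureTheory Set Filter Topology

noncomputable section


theorem mv_min {n : ℕ} (I : MvIface n) {b h : ℝ → ℝ} (hb : MvClk b) (hh : MvClk h) {N : ℕ} (hN : 0 < N) {lo : ℝ} (hlo : 0 ≤ lo) (hlo1 : lo ≤ 1)
    {t : ℝ} (ht : t ∈ Icc (0:ℝ) 1) :
    ∃ d ∈ mvK N lo, ∀ d' ∈ mvK N lo, mvObj I b h (mvZ d) t ≤ mvObj I b h (mvZ d') t := by
  have hK := mvK_compact N lo hlo
  have hne := mvK_nonempty hN hlo1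
  have hb1 : 0 ≤ b 1 := hb.nonneg (by simp)
  have hlip : LipschitzOnWith (Real.toNNReal (b 1 * N)) (fun d : Fin N → ℝ => mvObj I b h (mvZ d) t) (mvK N lo) := by
    apply LipschitzOnWith.of_dist_le_mul
    intro d hd d' hd'
    rw [Real.dist_eq, Real.coe_toNNReal _ (by positivity)]
    have h1 : ∀ u ∈ Icc (0:ℝ) 1, |mvZ d u - mvZ d' u| ≤ N * dist d d' := by
      intro u _
      refine (mvZ_dist d d' u).trans ?_
      calc ∑ j, |d j - d' j| ≤ ∑ _j : Fin N, dist d d' := by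
            apply Finset.sum_le_sum
            intro j _
            rw [← Real.dist_eq]
            exact dist_le_pi_dist d d' j
        _ = N * dist d d' := by simp
    have := mvObj_lip_z I hb hh (mvZ_qt hN hlo hd) (mvZ_qt hN hlo hd') ht h1
    linarith [this, mul_assoc (b 1) (N:ℝ) (dist d d')]
  obtain ⟨d, hd, hmin⟩ := hK.exists_isMinOn hne hlip.continuousOn
  exact ⟨d, hd, fun d' hd' => hmin hd'⟩

/-- a right derivative at a right-local minimum is nonnegative -/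
theorem mv_deriv_nonneg {g : ℝ → ℝ} {g' : ℝ} (hg : HasDerivWithinAt g g' (Ici 0) 0) (hmin : ∀ θ ∈ Icc (0:ℝ) 1, g 0 ≤ g θ) : 0 ≤ g' := by
  have h1 : HasDerivWithinAt g g' (Ioi 0) 0 := hg.mono Ioi_subset_Ici_self
  rw [hasDerivWithinAt_iff_tendsto_slope' (by simp)] at h1
  refine ge_of_tendsto h1 ?_
  have : ∀ᶠ θ in 𝓝[>] (0:ℝ), θ ∈ Ioc (0:ℝ) 1 := Ioc_mem_nhdsGT (by norm_num)
  filter_upwards [this] with θ hθ
  rw [slope_def_field]
  apply div_nonneg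
  · linarith [hmin θ ⟨hθ.1.le, hθ.2⟩]
  · linarith [hθ.1]




theorem MvBM.ii01 {g : ℝ → ℝ} (hg : MvBM g) : IntervalIntegrable g volume 0 1 := hg.ii (by simp) (by simp)

theorem mv_vi {n : ℕ} (I : MvIface n) {b h : ℝ → ℝ} (hb : MvClk b) (hh : MvClk h) {N : ℕ} (hN : 0 < N) {lo : ℝ} (hlo : 0 ≤ lo)
    {t : ℝ} (ht0 : 0 < t) (ht : t ≤ 1) {d d' : Fin N → ℝ} (hd : d ∈ mvK N lo) (hd' : d' ∈ mvK N lo)
    (hmin : ∀ d'' ∈ mvK N lo, mvObj I b h (mvZ d) t ≤ mvObj I b h (mvZ d'') t) :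
    0 ≤ ∫ u in (0:ℝ)..1, b u * (mvZ d u - I.S (mvBt b t) (mvHt b h (mvZ d) t) u) * (mvZ d' u - mvZ d u) := by
  have hzq : MvQt (mvZ d) := mvZ_qt hN hlo hd
  have hzq' : MvQt (mvZ d') := mvZ_qt hN hlo hd'
  have htI : t ∈ Icc (0:ℝ) 1 := ⟨ht0.le, ht⟩
  have cB : MvClk (mvBt b t) := mvBt_clk hb htI
  have cH : MvClk (mvHt b h (mvZ d) t) := mvHt_clk hb hh hzq htI
  have cH' : MvClk (mvHt b h (mvZ d') t) := mvHt_clk hb hh hzq' htI
  have hD := I.deriv _ _ _ _ cB cH cB cH'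
  have mb : MvBM b := hb.bm
  have mz : MvBM (mvZ d) := hzq.1.bm
  have mz' : MvBM (mvZ d') := hzq'.1.bm
  have mS : MvBM (I.S (mvBt b t) (mvHt b h (mvZ d) t)) := MvBM.of_mono (I.S_mono _ _ cB cH)
  set S := I.S (mvBt b t) (mvHt b h (mvZ d) t) with hSdef
  set A0 := ∫ u in (0:ℝ)..1, b u * mvZ d u ^ 2 with hA0
  set A1 := ∫ u in (0:ℝ)..1, b u * mvZ d u * (mvZ d' u - mvZ d u) with hA1
  set A2 := ∫ u in (0:ℝ)..1, b u * (mvZ d' u - mvZ d u) ^ 2 with hA2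
  set A3 := ∫ u in (0:ℝ)..1, S u * (b u * (mvZ d' u - mvZ d u)) with hA3
  have i0 : IntervalIntegrable (fun u => b u * mvZ d u ^ 2) volume 0 1 := (mb.mul (mz.comp (continuous_pow 2))).ii01
  have i1 : IntervalIntegrable (fun u => b u * mvZ d u * (mvZ d' u - mvZ d u)) volume 0 1 := ((mb.mul mz).mul (mz'.sub mz)).ii01
  have i2 : IntervalIntegrable (fun u => b u * (mvZ d' u - mvZ d u) ^ 2) volume 0 1 :=
    (mb.mul ((mz'.sub mz).comp (continuous_pow 2))).ii01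
  have i3 : IntervalIntegrable (fun u => S u * (b u * (mvZ d' u - mvZ d u))) volume 0 1 := (mS.mul (mb.mul (mz'.sub mz))).ii01
  -- the function of θ
  have hg : ∀ θ : ℝ, mvObj I b h (mvZ (fun j => d j + θ * (d' j - d j))) t
      = I.f (fun u => mvBt b t u + θ * (mvBt b t u - mvBt b t u))
          (fun u => mvHt b h (mvZ d) t u + θ * (mvHt b h (mvZ d') t u - mvHt b h (mvZ d) t u))
        + t * (1 / 4 * (A0 + θ * (2 * A1) + θ ^ 2 * A2)) := by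
    intro θ
    unfold mvObj
    congr 2
    · funext u; ring
    · funext u; simp only [mvHt, mvZ_lin]; ring
    · congr 1
      have e1 : (fun u => b u * mvZ (fun j => d j + θ * (d' j - d j)) u ^ 2)
          = fun u => b u * mvZ d u ^ 2 + θ * (2 * (b u * mvZ d u * (mvZ d' u - mvZ d u))) + θ ^ 2 * (b u * (mvZ d' u - mvZ d u) ^ 2) := by
        funext u; rw [mvZ_lin]; ring
      rw [e1, intervalIntegral.integral_add (i0.add ((i1.const_mul 2).const_mul θ)) (i2.const_mul _),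
        intervalIntegral.integral_add i0 ((i1.const_mul 2).const_mul θ)]
      simp only [intervalIntegral.integral_const_mul]
      rfl
  have hP : HasDerivAt (fun θ : ℝ => t * (1 / 4 * (A0 + θ * (2 * A1) + θ ^ 2 * A2))) (t * (1 / 4 * (2 * A1))) 0 := by
    have h1 : HasDerivAt (fun θ : ℝ => θ * (2 * A1)) (2 * A1) 0 := by simpa using (hasDerivAt_id (0:ℝ)).mul_const (2 * A1)
    have h2 : HasDerivAt (fun θ : ℝ => θ ^ 2 * A2) 0 0 := by simpa using (hasDerivAt_pow 2 (0:ℝ)).mul_const A2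
    have h3 := ((((hasDerivAt_const (0:ℝ) A0).add h1).add h2).const_mul (1 / 4)).const_mul t
    simpa using h3
  have hG := hD.add hP.hasDerivWithinAt
  have hnn := mv_deriv_nonneg (g := fun θ => I.f (fun u => mvBt b t u + θ * (mvBt b t u - mvBt b t u))
          (fun u => mvHt b h (mvZ d) t u + θ * (mvHt b h (mvZ d') t u - mvHt b h (mvZ d) t u))
        + t * (1 / 4 * (A0 + θ * (2 * A1) + θ ^ 2 * A2))) hG (by
      intro θ hθ
      rw [← hg θ, ← hg 0]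
      have := hmin _ (mvK_seg hd hd' hθ)
      have e0 : (fun j => d j + 0 * (d' j - d j)) = d := by funext j; ring
      rw [e0]; exact this)
  have e2 : (∫ u in (0:ℝ)..1, I.B (mvBt b t) (mvHt b h (mvZ d) t) u * (mvBt b t u - mvBt b t u)) = 0 := by simp
  have e3 : (∫ u in (0:ℝ)..1, S u * (mvHt b h (mvZ d') t u - mvHt b h (mvZ d) t u)) = t * A3 := by
    rw [hA3, ← intervalIntegral.integral_const_mul]
    congr 1; funext u; simp only [mvHt]; ring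
  rw [e2, e3] at hnn
  have e4 : (∫ u in (0:ℝ)..1, b u * (mvZ d u - S u) * (mvZ d' u - mvZ d u)) = A1 - A3 := by
    rw [hA1, hA3, ← intervalIntegral.integral_sub i1 i3]
    congr 1; funext u; ring
  rw [e4]
  have : 0 ≤ t / 2 * (A1 - A3) := by nlinarith [hnn]
  exact nonneg_of_mul_nonneg_right (by linarith) (by positivity : (0:ℝ) < t / 2)





/-- everywhere version of `mv_int_mono` on `[0,1]` -/
theorem mv_int_mono01 {f g : ℝ → ℝ} (hf : MvBM f) (hg : MvBM g) (h : ∀ u ∈ Icc (0:ℝ) 1, f u ≤ g u) :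
    ∫ u in (0:ℝ)..1, f u ≤ ∫ u in (0:ℝ)..1, g u :=
  mv_int_mono hf hg le_rfl zero_le_one le_rfl (Filter.Eventually.of_forall fun u hu => h u ⟨hu.1.le, hu.2.le⟩)

theorem mv_proj {n : ℕ} (I : MvIface n) {b h : ℝ → ℝ} (hb : MvClk b) (hh : MvClk h) {N : ℕ} (hN : 0 < N) {lo : ℝ} (hlo : 0 ≤ lo) (hlo1 : lo ≤ 1)
    {t : ℝ} (ht0 : 0 < t) (ht : t ≤ 1) {d : Fin N → ℝ} (hd : d ∈ mvK N lo)
    (hmin : ∀ d'' ∈ mvK N lo, mvObj I b h (mvZ d) t ≤ mvObj I b h (mvZ d'') t) :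
    ∫ u in (0:ℝ)..1, b u * (I.S (mvBt b t) (mvHt b h (mvZ d) t) u - mvZ d u) ^ 2 ≤ b 1 * (2 / (N : ℝ) + 2 * lo ^ 2) := by
  have hzq : MvQt (mvZ d) := mvZ_qt hN hlo hd
  have htI : t ∈ Icc (0:ℝ) 1 := ⟨ht0.le, ht⟩
  have cB : MvClk (mvBt b t) := mvBt_clk hb htI
  have cH : MvClk (mvHt b h (mvZ d) t) := mvHt_clk hb hh hzq htI
  obtain ⟨d', hd', happ⟩ := mv_approx hN hlo hlo1 _ (I.S_mono _ _ cB cH) (I.S_mem _ _ cB cH)
  have hvi := mv_vi I hb hh hN hlo ht0 ht hd hd' hmin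
  have hzq' : MvQt (mvZ d') := mvZ_qt hN hlo hd'
  have mb : MvBM b := hb.bm
  have mz : MvBM (mvZ d) := hzq.1.bm
  have mz' : MvBM (mvZ d') := hzq'.1.bm
  have mS : MvBM (I.S (mvBt b t) (mvHt b h (mvZ d) t)) := MvBM.of_mono (I.S_mono _ _ cB cH)
  set S := I.S (mvBt b t) (mvHt b h (mvZ d) t) with hSdef
  have j1 : MvBM (fun u => b u * (S u - mvZ d u) ^ 2) := mb.mul ((mS.sub mz).comp (continuous_pow 2))
  have j2 : MvBM (fun u => b u * (mvZ d u - S u) * (mvZ d' u - mvZ d u)) := (mb.mul (mz.sub mS)).mul (mz'.sub mz)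
  have j3 : MvBM (fun u => b u * (S u - mvZ d' u) ^ 2) := mb.mul ((mS.sub mz').comp (continuous_pow 2))
  have j4 : MvBM (fun u => (S u - mvZ d' u) ^ 2) := (mS.sub mz').comp (continuous_pow 2)
  -- ∫ b (S - z)² + 2 ∫ b (z - S)(z' - z) ≤ ∫ b (S - z')²
  have k1 : (∫ u in (0:ℝ)..1, b u * (S u - mvZ d u) ^ 2) + 2 * (∫ u in (0:ℝ)..1, b u * (mvZ d u - S u) * (mvZ d' u - mvZ d u))
      ≤ ∫ u in (0:ℝ)..1, b u * (S u - mvZ d' u) ^ 2 := by
    rw [← intervalIntegral.integral_const_mul, ← intervalIntegral.integral_add j1.ii01 (j2.ii01.const_mul 2)]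
    apply mv_int_mono01 (j1.add ((MvBM.const 2).mul j2)) j3
    intro u hu
    have hbu := hb.nonneg hu
    nlinarith [mul_nonneg hbu (sq_nonneg (mvZ d' u - mvZ d u))]
  have k2 : (∫ u in (0:ℝ)..1, b u * (S u - mvZ d' u) ^ 2) ≤ b 1 * ∫ u in (0:ℝ)..1, (S u - mvZ d' u) ^ 2 := by
    rw [← intervalIntegral.integral_const_mul]
    apply mv_int_mono01 j3 ((MvBM.const (b 1)).mul j4)
    intro u hu
    exact mul_le_mul_of_nonneg_right (hb.le_one hu) (sq_nonneg _)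
  have hb1 : 0 ≤ b 1 := hb.nonneg (by simp)
  have k3 := mul_le_mul_of_nonneg_left happ hb1
  linarith

theorem mv_rem_min {n : ℕ} (hn : 0 < n) (I : MvIface n) {b h : ℝ → ℝ} (hb : MvClk b) (hh : MvClk h) {bs : ℝ} (hbs : 0 < bs)
    (hb1 : ∀ u ∈ Icc (0:ℝ) 1, bs ≤ b u) {N : ℕ} (hN : 0 < N) {lo ε ρ : ℝ} (hlo : 0 < lo) (hlo1 : lo ≤ 1) (hε : 0 < ε) (hε1 : ε ≤ 1)
    (hρ : 0 < ρ) (hρ1 : ρ ≤ 1) {t : ℝ} (htε : ε ≤ t) (ht : t ≤ 1) {d : Fin N → ℝ} (hd : d ∈ mvK N lo)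
    (hmin : ∀ d'' ∈ mvK N lo, mvObj I b h (mvZ d) t ≤ mvObj I b h (mvZ d'') t) :
    mvRem I b h (mvZ d) t ≤ b 1 / 4 * (mvErr n N lo bs ε ρ - 2 * ε) := by
  have ht0 : 0 < t := lt_of_lt_of_le hε htε
  have hzq : MvQt (mvZ d) := mvZ_qt hN hlo.le hd
  have htI : t ∈ Icc (0:ℝ) 1 := ⟨ht0.le, ht⟩
  have cB : MvClk (mvBt b t) := mvBt_clk hb htI
  have cH : MvClk (mvHt b h (mvZ d) t) := mvHt_clk hb hh hzq htI
  have hproj := mv_proj I hb hh hN hlo.le hlo1 ht0 ht hd hmin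
  have hsl0 := mvHt_slope hb hh hzq ht0.le hlo.le hb1 hbs.le (fun u v hu huv hv => mvZ_slope hN hd hu huv hv)
  have hsl : ∀ u v : ℝ, 0 ≤ u → u ≤ v → v ≤ 1 → ε * bs * lo * (v - u) ≤ mvHt b h (mvZ d) t v - mvHt b h (mvZ d) t u := by
    intro u v hu huv hv
    refine le_trans ?_ (hsl0 u v hu huv hv)
    apply mul_le_mul_of_nonneg_right _ (by linarith)
    apply mul_le_mul_of_nonneg_right _ hlo.le
    exact mul_le_mul_of_nonneg_right htε hbs.le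
  have hconc := mv_conc hn I cB cH (γ := ε * bs * lo) (by positivity) hsl hε hε1 hρ hρ1
  have mb : MvBM b := hb.bm
  have mz : MvBM (mvZ d) := hzq.1.bm
  have mS : MvBM (I.S (mvBt b t) (mvHt b h (mvZ d) t)) := MvBM.of_mono (I.S_mono _ _ cB cH)
  have mB : MvBM (I.B (mvBt b t) (mvHt b h (mvZ d) t)) := MvBM.of_mono (I.B_mono _ _ cB cH)
  have hdnn := I.dnn _ _ cB cH
  unfold mvRem
  set S := I.S (mvBt b t) (mvHt b h (mvZ d) t) with hSdef
  set B := I.B (mvBt b t) (mvHt b h (mvZ d) t) with hBdef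
  have j0 : MvBM (fun u => B u - S u ^ 2) := mB.sub (mS.comp (continuous_pow 2))
  have j1 : MvBM (fun u => b u * (S u - mvZ d u) ^ 2) := mb.mul ((mS.sub mz).comp (continuous_pow 2))
  have j2 : MvBM (fun u => b u * (B u - S u ^ 2)) := mb.mul j0
  have e1 : (∫ u in (0:ℝ)..1, b u * ((B u - S u ^ 2) + (S u - mvZ d u) ^ 2))
      = (∫ u in (0:ℝ)..1, b u * (B u - S u ^ 2)) + ∫ u in (0:ℝ)..1, b u * (S u - mvZ d u) ^ 2 := by
    rw [← intervalIntegral.integral_add j2.ii01 j1.ii01]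
    congr 1; funext u; ring
  have k2 : (∫ u in (0:ℝ)..1, b u * (B u - S u ^ 2)) ≤ b 1 * ∫ u in (0:ℝ)..1, (B u - S u ^ 2) := by
    rw [← intervalIntegral.integral_const_mul]
    apply mv_int_mono j2 ((MvBM.const (b 1)).mul j0) le_rfl zero_le_one le_rfl
    filter_upwards [hdnn] with u hu hu1
    exact mul_le_mul_of_nonneg_right (hb.le_one ⟨hu1.1.le, hu1.2.le⟩) (by linarith)
  have hb1' : 0 ≤ b 1 := hb.nonneg (by simp)
  have k3 := mul_le_mul_of_nonneg_left hconc hb1'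
  rw [e1]
  unfold mvErr
  nlinarith [k2, k3, hproj]




/-- the optimised value -/
def mvPhi {n : ℕ} (I : MvIface n) (b h : ℝ → ℝ) (N : ℕ) (lo : ℝ) (t : ℝ) : ℝ :=
  sInf ((fun d => mvObj I b h (mvZ d) t) '' mvK N lo)

theorem mvPhi_eq {n : ℕ} (I : MvIface n) {b h : ℝ → ℝ} {N : ℕ} {lo t : ℝ} {d : Fin N → ℝ} (hd : d ∈ mvK N lo)
    (hmin : ∀ d'' ∈ mvK N lo, mvObj I b h (mvZ d) t ≤ mvObj I b h (mvZ d'') t) : mvPhi I b h N lo t = mvObj I b h (mvZ d) t := by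
  apply IsLeast.csInf_eq
  refine ⟨⟨d, hd, rfl⟩, ?_⟩
  rintro _ ⟨d'', hd'', rfl⟩
  exact hmin d'' hd''

/-- `Φ(t) ≤` the objective at any trial -/
theorem mvPhi_le {n : ℕ} (I : MvIface n) {b h : ℝ → ℝ} (hb : MvClk b) (hh : MvClk h) {N : ℕ} (hN : 0 < N) {lo : ℝ} (hlo : 0 ≤ lo) (hlo1 : lo ≤ 1)
    {t : ℝ} (ht : t ∈ Icc (0:ℝ) 1) {d : Fin N → ℝ} (hd : d ∈ mvK N lo) : mvPhi I b h N lo t ≤ mvObj I b h (mvZ d) t := by
  obtain ⟨d0, hd0, hmin⟩ := mv_min I hb hh hN hlo hlo1 ht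
  rw [mvPhi_eq I hd0 hmin]
  exact hmin d hd

theorem mvPhi_lip {n : ℕ} (I : MvIface n) {b h : ℝ → ℝ} (hb : MvClk b) (hh : MvClk h) {N : ℕ} (hN : 0 < N) {lo : ℝ} (hlo : 0 ≤ lo) (hlo1 : lo ≤ 1)
    {s t : ℝ} (hs : s ∈ Icc (0:ℝ) 1) (ht : t ∈ Icc (0:ℝ) 1) : mvPhi I b h N lo s ≤ mvPhi I b h N lo t + b 1 * |s - t| := by
  obtain ⟨d0, hd0, hmin⟩ := mv_min I hb hh hN hlo hlo1 ht
  rw [mvPhi_eq I hd0 hmin]
  have h1 := mvPhi_le I hb hh hN hlo hlo1 hs hd0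
  have h2 := mvObj_lip_t I hb hh (mvZ_qt hN hlo hd0) hs ht
  have h3 := abs_le.1 h2
  linarith [h3.2]

theorem mvPhi_cont {n : ℕ} (I : MvIface n) {b h : ℝ → ℝ} (hb : MvClk b) (hh : MvClk h) {N : ℕ} (hN : 0 < N) {lo : ℝ} (hlo : 0 ≤ lo) (hlo1 : lo ≤ 1) :
    ContinuousOn (mvPhi I b h N lo) (Icc (0:ℝ) 1) := by
  have hb1 : 0 ≤ b 1 := hb.nonneg (by simp)
  have : LipschitzOnWith (Real.toNNReal (b 1)) (mvPhi I b h N lo) (Icc (0:ℝ) 1) := by
    apply LipschitzOnWith.of_dist_le_mul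
    intro s hs t ht
    rw [Real.dist_eq, Real.dist_eq, Real.coe_toNNReal _ hb1, abs_le]
    have h1 := mvPhi_lip I hb hh hN hlo hlo1 hs ht
    have h2 := mvPhi_lip I hb hh hN hlo hlo1 ht hs
    rw [abs_sub_comm] at h2
    constructor <;> linarith
  exact this.continuousOn

/-- fencing: if the remainder at every minimiser at every time of `[a,c)` is `≤ M` then `Φ(c) - Φ(a) ≤ M (c - a)` -/
theorem mv_fence {n : ℕ} (I : MvIface n) {b h : ℝ → ℝ} (hb : MvClk b) (hh : MvClk h) {N : ℕ} (hN : 0 < N) {lo : ℝ} (hlo : 0 ≤ lo) (hlo1 : lo ≤ 1)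
    {a c M : ℝ} (ha : 0 ≤ a) (hac : a ≤ c) (hc : c ≤ 1)
    (hM : ∀ t ∈ Ico a c, ∀ d ∈ mvK N lo, (∀ d'' ∈ mvK N lo, mvObj I b h (mvZ d) t ≤ mvObj I b h (mvZ d'') t) → mvRem I b h (mvZ d) t ≤ M) :
    mvPhi I b h N lo c ≤ mvPhi I b h N lo a + M * (c - a) := by
  have hsub : Icc a c ⊆ Icc (0:ℝ) 1 := Icc_subset_Icc ha hc
  have key := image_le_of_liminf_slope_right_le_deriv_boundary (f := mvPhi I b h N lo) (a := a) (b := c)
    ((mvPhi_cont I hb hh hN hlo hlo1).mono hsub)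
    (B := fun x => mvPhi I b h N lo a + M * (x - a)) (B' := fun _ => M) (by simp) (by fun_prop)
    (by
      intro x _
      have := ((hasDerivAt_id x).sub_const a).const_mul M
      simpa using (this.const_add (mvPhi I b h N lo a)).hasDerivWithinAt)
    (by
      intro x hx r hr
      have hx01 : x ∈ Ico (0:ℝ) 1 := ⟨ha.trans hx.1, lt_of_lt_of_le hx.2 hc⟩
      obtain ⟨d, hd, hmin⟩ := mv_min I hb hh hN hlo hlo1 (t := x) ⟨hx01.1, hx01.2.le⟩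
      have hder := mvObj_deriv I hb hh (mvZ_qt hN hlo hd) hx01
      have hlt : mvRem I b h (mvZ d) x < r := lt_of_le_of_lt (hM x hx d hd hmin) hr
      have h1 : HasDerivWithinAt (mvObj I b h (mvZ d)) (mvRem I b h (mvZ d) x) (Ioi x) x := hder.mono Ioi_subset_Ici_self
      rw [hasDerivWithinAt_iff_tendsto_slope' (by simp)] at h1
      have h2 : ∀ᶠ z in 𝓝[>] x, slope (mvObj I b h (mvZ d)) x z < r := h1.eventually (gt_mem_nhds hlt)
      have h3 : ∀ᶠ z in 𝓝[>] x, z ∈ Ioc x 1 := Ioc_mem_nhdsGT hx01.2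
      apply Filter.Eventually.frequently
      filter_upwards [h2, h3] with z hz hz1
      refine lt_of_le_of_lt ?_ hz
      rw [slope_def_field, slope_def_field]
      apply div_le_div_of_nonneg_right _ (by linarith [hz1.1])
      have e1 := mvPhi_eq I hd hmin
      have e2 := mvPhi_le I hb hh hN hlo hlo1 (t := z) ⟨hx01.1.trans hz1.1.le, hz1.2⟩ hd
      linarith)
  exact key (right_mem_Icc.2 hac)

theorem mvErr_sub_nonneg (n N : ℕ) {lo bs ε ρ : ℝ} (hlo : 0 < lo) (hbs : 0 < bs) (hε : 0 < ε) (hρ : 0 < ρ) :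
    0 ≤ mvErr n N lo bs ε ρ - 2 * ε := by
  unfold mvErr
  have h1 : 0 ≤ 32 / (ρ ^ 2 * ((n : ℝ) * (ε * bs * lo)) * ε) := by positivity
  have h2 : 0 ≤ 1 / ((n : ℝ) * (ε * bs * lo) * ε ^ 2) := by positivity
  have h3 : 0 ≤ Real.sqrt (1 / ((n : ℝ) * (ε * bs * lo) * ε ^ 2)) := Real.sqrt_nonneg _
  have h4 : 0 ≤ 2 / (N : ℝ) := by positivity
  nlinarith [sq_nonneg lo]

/-- PE Lemma 5.7, quantitative -/
theorem mv_quant {n : ℕ} (hn : 0 < n) (I : MvIface n) (fspin : (ℝ → ℝ) → ℝ) (hsp : ∀ K, MvClk K → I.f (fun _ => 0) K = fspin K)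
    {b h : ℝ → ℝ} (hb : MvClk b) (hh : MvClk h) {bs : ℝ} (hbs : 0 < bs) (hb1 : ∀ u ∈ Icc (0:ℝ) 1, bs ≤ b u)
    {N : ℕ} (hN : 0 < N) {lo ε ρ : ℝ} (hlo : 0 < lo) (hlo1 : lo ≤ 1) (hε : 0 < ε) (hε1 : ε ≤ 1) (hρ : 0 < ρ) (hρ1 : ρ ≤ 1) :
    ∃ d ∈ mvK N lo, mvG fspin b h (mvZ d) ≤ I.f b h + b 1 / 4 * mvErr n N lo bs ε ρ := by
  obtain ⟨d, hd, hmin⟩ := mv_min I hb hh hN hlo.le hlo1 (t := 1) (by simp)
  refine ⟨d, hd, ?_⟩
  have hb1' : 0 ≤ b 1 := hb.nonneg (by simp)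
  have f1 := mv_fence I hb hh hN hlo.le hlo1 (a := 0) (c := ε) (M := b 1 / 4 * 2) le_rfl hε.le hε1
    (fun t ht d hd _ => mvRem_le I hb hh (mvZ_qt hN hlo.le hd) ⟨ht.1, (ht.2.le).trans hε1⟩)
  have f2 := mv_fence I hb hh hN hlo.le hlo1 (a := ε) (c := 1) (M := b 1 / 4 * (mvErr n N lo bs ε ρ - 2 * ε)) hε.le hε1 le_rfl
    (fun t ht d hd hmin => mv_rem_min hn I hb hh hbs hb1 hN hlo hlo1 hε hε1 hρ hρ1 ht.1 ht.2.le hd hmin)
  have e1 : mvPhi I b h N lo 1 = mvG fspin b h (mvZ d) := by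
    rw [mvPhi_eq I hd hmin, mvObj_one I fspin hsp hb hh (mvZ_qt hN hlo.le hd)]
  have e0 : mvPhi I b h N lo 0 = I.f b h := by
    rw [mvPhi_eq I (t := 0) hd (by intro d'' _; rw [mvObj_zero, mvObj_zero]), mvObj_zero]
  rw [e1] at f2
  rw [e0] at f1
  have hnn := mvErr_sub_nonneg n N hlo hbs hε hρ
  have h5 : b 1 / 4 * (mvErr n N lo bs ε ρ - 2 * ε) * (1 - ε) ≤ b 1 / 4 * (mvErr n N lo bs ε ρ - 2 * ε) := by
    have : 0 ≤ b 1 / 4 * (mvErr n N lo bs ε ρ - 2 * ε) := by positivity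
    nlinarith
  nlinarith [f1, f2, h5]


end

end Claimed.Agent.R286


/-!
# Row 286, P11, file 7: PE Lemma 5.7 (the generalised Parisi formula) as a limit.   prefix `mv`   (architect helper67; proofs helper54; 0 open)

`inf G - err ≤ f_n ≤ inf G` (`mv_guerra`, `mv_quant`).   For fixed `(N, lo, ε, ρ)` the three terms of `mvErr` with `n` in the denominator tend to `0`; then choose `3ε + 2/N + 2 lo² + 6ρ` small.   No compactness (Helly) is needed: the statement is with `⨅`.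
-/

set_option autoImplicit false

namespace Claimed.Agent.R286

open MeasureTheory Set Filter Topology

noncomputable section

/-- for every `δ > 0` the parameters can be chosen so that eventually `mvErr ≤ δ` -/
theorem mvErr_small {bs δ : ℝ} (hbs : 0 < bs) (hδ : 0 < δ) :
    ∃ (N : ℕ) (lo ε ρ : ℝ), 0 < N ∧ 0 < lo ∧ lo ≤ 1 ∧ 0 < ε ∧ ε ≤ 1 ∧ 0 < ρ ∧ ρ ≤ 1 ∧ ∀ᶠ n : ℕ in atTop, mvErr n N lo bs ε ρ ≤ δ := by
  obtain ⟨N, hN⟩ := exists_nat_gt (16 / δ)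
  have hNpos : (0:ℝ) < N := lt_trans (by positivity) hN
  have hN0 : 0 < N := by exact_mod_cast hNpos
  have hlo : 0 < min 1 (δ / 16) := lt_min one_pos (by positivity)
  have hε : 0 < min 1 (δ / 24) := lt_min one_pos (by positivity)
  have hρ : 0 < min 1 (δ / 48) := lt_min one_pos (by positivity)
  refine ⟨N, min 1 (δ / 16), min 1 (δ / 24), min 1 (δ / 48), hN0, hlo, min_le_left _ _, hε, min_le_left _ _, hρ,
    min_le_left _ _, ?_⟩
  set lo := min 1 (δ / 16) with hlod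
  set ε := min 1 (δ / 24) with hεd
  set ρ := min 1 (δ / 48) with hρd
  have hA : 0 < ε * bs * lo := by positivity
  have t0 : Tendsto (fun n : ℕ => (n : ℝ) * (ε * bs * lo)) atTop atTop :=
    tendsto_natCast_atTop_atTop.atTop_mul_const hA
  have t1 : Tendsto (fun n : ℕ => 32 / (ρ ^ 2 * ((n : ℝ) * (ε * bs * lo)) * ε)) atTop (𝓝 0) :=
    ((t0.const_mul_atTop (by positivity : 0 < ρ ^ 2)).atTop_mul_const hε).const_div_atTop 32
  have t2 : Tendsto (fun n : ℕ => 1 / ((n : ℝ) * (ε * bs * lo) * ε ^ 2)) atTop (𝓝 0) :=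
    (t0.atTop_mul_const (by positivity : 0 < ε ^ 2)).const_div_atTop 1
  have t3 : Tendsto (fun n : ℕ => 2 * Real.sqrt (1 / ((n : ℝ) * (ε * bs * lo) * ε ^ 2))) atTop (𝓝 0) := by
    have := (Real.continuous_sqrt.tendsto 0).comp t2
    simpa using this.const_mul 2
  have t4 := (t1.add t2).add t3
  simp only [add_zero] at t4
  filter_upwards [t4.eventually (gt_mem_nhds (show (0:ℝ) < δ / 2 by positivity))] with n hn
  have e1 : 3 * ε ≤ δ / 8 := by have := min_le_right (1:ℝ) (δ / 24); linarith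
  have e2 : 2 / (N : ℝ) ≤ δ / 8 := by
    rw [div_le_iff₀ hNpos]
    have := (div_lt_iff₀ hδ).1 hN
    linarith
  have e3 : 2 * lo ^ 2 ≤ δ / 8 := by
    have a1 := min_le_right (1:ℝ) (δ / 16)
    have a2 := min_le_left (1:ℝ) (δ / 16)
    have : lo ^ 2 ≤ lo := by nlinarith
    linarith
  have e4 : 6 * ρ ≤ δ / 8 := by have := min_le_right (1:ℝ) (δ / 48); linarith
  unfold mvErr
  linarith

theorem mvG_bddBelow (I : MvIface 1) (fspin : (ℝ → ℝ) → ℝ) (hsp : ∀ K, MvClk K → I.f (fun _ => 0) K = fspin K)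
    {b h : ℝ → ℝ} (hb : MvClk b) (hh : MvClk h) : BddBelow (range fun z : {z : ℝ → ℝ // MvQt z} => mvG fspin b h z.1) := by
  refine ⟨I.f b h, ?_⟩
  rintro _ ⟨z, rfl⟩
  exact mv_guerra I fspin hsp hb hh z.2

/-- PE Lemma 5.7 -/
theorem mv_limit (I : ∀ n : ℕ, MvIface n) (fspin : (ℝ → ℝ) → ℝ) (hsp : ∀ n K, MvClk K → (I n).f (fun _ => 0) K = fspin K)
    {b h : ℝ → ℝ} (hb : MvClk b) (hh : MvClk h) {bs : ℝ} (hbs : 0 < bs) (hb1 : ∀ u ∈ Icc (0:ℝ) 1, bs ≤ b u) :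
    Tendsto (fun n => (I n).f b h) atTop (𝓝 (⨅ z : {z : ℝ → ℝ // MvQt z}, mvG fspin b h z.1)) := by
  have hbd := mvG_bddBelow (I 1) fspin (hsp 1) hb hh
  have hq0 : MvQt (fun _ : ℝ => (0:ℝ)) := ⟨⟨fun _ _ _ _ _ => le_rfl, le_rfl⟩, zero_le_one⟩
  have : Nonempty {z : ℝ → ℝ // MvQt z} := ⟨⟨_, hq0⟩⟩
  have hB : 0 < b 1 := lt_of_lt_of_le hbs (hb1 1 ⟨zero_le_one, le_rfl⟩)
  rw [Metric.tendsto_nhds]
  intro δ hδ
  obtain ⟨N, lo, ε, ρ, hN, hlo, hlo1, hε, hε1, hρ, hρ1, hErr⟩ := mvErr_small hbs (show 0 < 2 * δ / b 1 by positivity)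
  filter_upwards [hErr, eventually_gt_atTop 0] with n hn hn0
  have hup : (I n).f b h ≤ ⨅ z : {z : ℝ → ℝ // MvQt z}, mvG fspin b h z.1 :=
    le_ciInf fun z => mv_guerra (I n) fspin (hsp n) hb hh z.2
  obtain ⟨d, hd, hq⟩ := mv_quant hn0 (I n) fspin (hsp n) hb hh hbs hb1 hN hlo hlo1 hε hε1 hρ hρ1
  have hlow : (⨅ z : {z : ℝ → ℝ // MvQt z}, mvG fspin b h z.1) ≤ mvG fspin b h (mvZ d) :=
    ciInf_le hbd ⟨mvZ d, mvZ_qt hN hlo.le hd⟩
  have h1 : b 1 / 4 * mvErr n N lo bs ε ρ ≤ δ / 2 := by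
    have := mul_le_mul_of_nonneg_left hn (by positivity : 0 ≤ b 1 / 4)
    refine this.trans (le_of_eq ?_)
    field_simp
    ring
  rw [Real.dist_eq, abs_lt]
  constructor <;> linarith

/-- PE Lemma 5.7, varying paths and sizes, along any filter -/
theorem mv_limit_var (I : ∀ n : ℕ, MvIface n) (fspin : (ℝ → ℝ) → ℝ) (hsp : ∀ n K, MvClk K → (I n).f (fun _ => 0) K = fspin K)
    {b h : ℝ → ℝ} (hb : MvClk b) (hh : MvClk h) {bs : ℝ} (hbs : 0 < bs) (hb1 : ∀ u ∈ Icc (0:ℝ) 1, bs ≤ b u)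
    {l : Filter ℕ} (nn : ℕ → ℕ) (hnn : Tendsto nn l atTop)
    (bn hn : ℕ → ℝ → ℝ) (hbn : ∀ k, MvClk (bn k)) (hhn : ∀ k, MvClk (hn k))
    (hbl : Tendsto (fun k => ∫ u in (0:ℝ)..1, |bn k u - b u|) l (𝓝 0))
    (hhl : Tendsto (fun k => ∫ u in (0:ℝ)..1, |hn k u - h u|) l (𝓝 0)) :
    Tendsto (fun k => (I (nn k)).f (bn k) (hn k)) l (𝓝 (⨅ z : {z : ℝ → ℝ // MvQt z}, mvG fspin b h z.1)) := by
  have h1 := (mv_limit I fspin hsp hb hh hbs hb1).comp hnn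
  have h2 : Tendsto (fun k => 1 / 4 * (∫ u in (0:ℝ)..1, |bn k u - b u|) + 1 / 2 * ∫ u in (0:ℝ)..1, |hn k u - h u|) l (𝓝 0) := by
    have := (hbl.const_mul (1 / 4)).add (hhl.const_mul (1 / 2))
    simp only [mul_zero, add_zero] at this
    exact this
  have h3 : Tendsto (fun k => (I (nn k)).f (bn k) (hn k) - (I (nn k)).f b h) l (𝓝 0) :=
    squeeze_zero_norm (fun k => by
      rw [Real.norm_eq_abs]
      exact (I (nn k)).lip _ _ _ _ (hbn k) (hhn k) hb hh) h2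
  have h4 := h3.add h1
  simpa using h4

end

end Claimed.Agent.R286
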